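import Vale.Agent.P261Z.C2.Alg

/-!
# P261Z, block C2: trivialisation in height `n`
-/

open Matrix

noncomputable section

namespace P261.C2

variable {p : ℕ} [hp : Fact p.Prime]

namespace Lg

section cm

variable {A : Type} [CommRing A] {m : ℕ} {I : Type} (c : Fin (m + 1) → A)

theorem Cm_cast (j : Fin (m + 1)) (l : Fin m) :
    Cm c j l.castSucc = if j = l.succ then 1 else 0 := by
  have h : ¬ (l : ℕ) = m := l.2.ne
  simp [Cm, h, Fin.ext_iff]

theorem Cm_last (j : Fin (m + 1)) : Cm c j (Fin.last m) = c j := by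
  simp [Cm, j.2.ne]

theorem Cm_mul_zero (X : Matrix (Fin (m + 1)) I A) (k : I) :
    (Cm c * X) 0 k = c 0 * X (Fin.last m) k := by
  simp [Matrix.mul_apply, Fin.sum_univ_castSucc, Cm_cast, Cm_last, (Fin.succ_ne_zero _).symm]

theorem Cm_mul_succ (X : Matrix (Fin (m + 1)) I A) (j : Fin m) (k : I) :
    (Cm c * X) j.succ k = X j.castSucc k + c j.succ * X (Fin.last m) k := by
  simp [Matrix.mul_apply, Fin.sum_univ_castSucc, Cm_cast, Cm_last]

theorem mul_Cm_cast (X : Matrix I (Fin (m + 1)) A) (j : I) (k : Fin m) :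
    (X * Cm c) j k.castSucc = X j k.succ := by
  simp [Matrix.mul_apply, Cm_cast]

theorem mul_Cm_last (X : Matrix I (Fin (m + 1)) A) (j : I) :
    (X * Cm c) j (Fin.last m) = ∑ l, X j l * c l := by
  simp [Matrix.mul_apply, Cm_last]

end cm

variable {S : Type} [CommRing S] [Pf p S]

/-- additive maps which are onto modulo `p` are onto -/
theorem surj {I J : Type} (L : (I → WittVector p S) →+ (J → WittVector p S))
    (h : ∀ b : J → WittVector p S, ∃ x, ∀ j, (L x j).coeff 0 = (b j).coeff 0) :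
    Function.Surjective L := by
  have e : ∀ (k : ℕ) (x : I → WittVector p S) (j : J),
      L (fun i => (p : WittVector p S) ^ k * x i) j = p ^ k * L x j := fun k x j => by
    have := congrFun (map_nsmul L (p ^ k) x) j
    simpa [Pi.smul_def] using this
  choose φ hφ using h
  intro b
  let s : ℕ → J → WittVector p S := fun k => (fun z j => dv (z j - L (φ z) j))^[k] b
  refine ⟨fun i => psum fun k => φ (s k) i, funext fun j => Cg.ext fun N => ?_⟩
  choose z hz using fun i => cg_zero_iff.1 (Cg.iff_sub.1 (psum_cg (fun k => φ (s k) i) N))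
  have h1 : ∀ N, L (fun i => ∑ k ∈ Finset.range N, (p : WittVector p S) ^ k * φ (s k) i) j =
      b j - p ^ N * s N j := fun N => by
    induction N with
    | zero => simp [s, ← Pi.zero_def]
    | succ N ih =>
      have h2 : (p : WittVector p S) * s (N + 1) j = s N j - L (φ (s N)) j := by
        simp only [s, Function.iterate_succ_apply']
        refine p_mul_dv ?_
        rw [← WittVector.constantCoeff_apply, map_sub, sub_eq_zero]
        exact (hφ _ j).symm
      simp only [Finset.sum_range_succ]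
      rw [← Pi.add_def, map_add, Pi.add_apply, ih, e, pow_succ, mul_assoc, h2]
      ring
  rw [funext fun i => sub_eq_iff_eq_add.1 (hz i), ← Pi.add_def, map_add, Pi.add_apply, e, h1]
  simpa using ((cg_pow_mul N _).add ((Cg.refl (b j)).sub (cg_pow_mul N _)))

theorem root (hS : ∀ f : Polynomial S, f.Monic → 0 < f.natDegree → ∃ x, f.IsRoot x) (m : ℕ)
    {s : S} (hs : IsUnit s) (b : S) :
    ∃ x, (rt p S ^ (m + 1)) x - s * x = b ∧ (b = 0 → IsUnit x) := by
  rcases subsingleton_or_nontrivial S with h | h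
  · exact ⟨0, Subsingleton.elim _ _, fun _ => isUnit_of_subsingleton _⟩
  obtain ⟨u, hu⟩ := hs.exists_right_inv
  have hq : 1 < p ^ (m + 1) := Nat.one_lt_pow m.succ_ne_zero hp.out.one_lt
  by_cases hb : b = 0
  · obtain ⟨d, hd⟩ : ∃ d, p ^ (m + 1) = d + 1 := ⟨_, (Nat.sub_add_cancel hq.le).symm⟩
    obtain ⟨t, ht⟩ := hS _ (Polynomial.monic_X_pow_sub_C u (show d ≠ 0 by omega))
      (by rw [Polynomial.natDegree_X_pow_sub_C]; omega)
    have h1 : t ^ d = u := by simpa [sub_eq_zero] using ht
    refine ⟨t ^ p ^ (m + 1), ?_, fun _ => IsUnit.pow _ ((isUnit_pow_iff (show d ≠ 0 by omega)).1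
      (h1 ▸ IsUnit.of_mul_eq_one_right s hu))⟩
    rw [rt_pow_pp', hd, pow_succ, h1, hb]
    linear_combination (-t) * hu
  · have h1 : (Polynomial.C u * Polynomial.X + Polynomial.C (-(u * b))).degree <
        ((p ^ (m + 1) : ℕ) : WithBot ℕ) := Polynomial.degree_linear_le.trans_lt (by exact_mod_cast hq)
    obtain ⟨t, ht⟩ := hS _ (Polynomial.monic_X_pow_sub h1) (by
      rw [Polynomial.natDegree_pos_iff_degree_pos, Polynomial.degree_sub_eq_left_of_degree_lt
        (by rwa [Polynomial.degree_X_pow]), Polynomial.degree_X_pow]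
      exact_mod_cast zero_lt_one.trans hq)
    have h2 : t ^ p ^ (m + 1) = u * t + -(u * b) := by simpa [sub_eq_zero] using ht
    refine ⟨t ^ p ^ (m + 1), ?_, fun h => absurd h hb⟩
    rw [rt_pow_pp', h2]
    linear_combination (b - t) * hu

/-- the coordinates of `V ^ k y` -/
def tt (n : ℕ) (y : ℕ → WittVector p S) (j k : ℕ) : WittVector p S :=
  if k ≤ j then (si p S ^ k) (y (j - k)) else p * (si p S ^ k) (y (j + n - k))

theorem tt_add (n : ℕ) (y z : ℕ → WittVector p S) (j k : ℕ) :
    tt n (y + z) j k = tt n y j k + tt n z j k := by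
  unfold tt
  split_ifs <;> simp [mul_add]

theorem si_tt (n : ℕ) (y : ℕ → WittVector p S) (j k : ℕ) :
    si p S (tt n y j k) = tt n y (j + 1) (k + 1) := by
  unfold tt
  rw [show j + 1 - (k + 1) = j - k by omega, show j + 1 + n - (k + 1) = j + n - k by omega]
  simp only [Nat.add_le_add_iff_right, pow_succ', RingHom.mul_def, RingHom.comp_apply]
  split_ifs <;> simp

theorem p_si_tt {m k : ℕ} (hk : k ≤ m) (y : ℕ → WittVector p S) :
    p * si p S (tt (m + 1) y m k) = tt (m + 1) y 0 (k + 1) := by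
  unfold tt
  rw [if_pos hk, if_neg (by omega), show 0 + (m + 1) - (k + 1) = m - k by omega, pow_succ']
  rfl

theorem coeff_tt (n : ℕ) (y : ℕ → WittVector p S) (j k : ℕ) :
    (tt n y j k).coeff 0 = if k ≤ j then (rt p S ^ k) ((y (j - k)).coeff 0) else 0 := by
  unfold tt
  split_ifs
  exacts [coeff_si_pow _ _ _, coeff_p_mul_zero _]

/-- the equation for the generator -/
def LL (n : ℕ) (c : Fin n → WittVector p S) :
    (ℕ → WittVector p S) →+ (Fin n → WittVector p S) :=
  AddMonoidHom.mk' (fun y j => (si p S ^ n) (y j) - ∑ l : Fin n, tt n y j l * c l) fun y z => by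
    funext j
    simp only [tt_add, Pi.add_apply, map_add, add_mul, Finset.sum_add_distrib]
    ring

theorem solve (hS : ∀ f : Polynomial S, f.Monic → 0 < f.natDegree → ∃ x, f.IsRoot x) {m : ℕ}
    {c : Fin (m + 1) → WittVector p S} (hc : IsUnit (c 0)) (b : Fin (m + 1) → WittVector p S) :
    ∃ x, (∀ j, (LL (m + 1) c x j).coeff 0 = (b j).coeff 0) ∧
      (b = 0 → IsUnit ((x 0).coeff 0)) := by
  choose φ h1 h2 using root (p := p) hS m (isUnit_coeff hc)
  let G : ℕ → (ℕ → S) → S := fun j a => (b (Fin.ofNat _ j)).coeff 0 + ∑ l : Fin m,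
    (if (l : ℕ) + 1 ≤ j then (rt p S ^ ((l : ℕ) + 1)) (a (j - (l + 1))) else 0) *
      (c l.succ).coeff 0
  obtain ⟨a, ha⟩ : ∃ a : ℕ → S, ∀ j, a j = φ (G j a) := by
    let a : ℕ → S := Nat.lt_wfRel.wf.fix fun j r => φ (G j fun i => if h : i < j then r i h else 0)
    refine ⟨a, fun j => (WellFounded.fix_eq _ _ j).trans (congrArg φ (congrArg (_ + ·)
      (Finset.sum_congr rfl fun l _ => ?_)))⟩
    by_cases h : (l : ℕ) + 1 ≤ j
    · rw [if_pos h, if_pos h]
      exact congrArg (fun u => (rt p S ^ ((l : ℕ) + 1)) u * _)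
        (dif_pos (show j - (l + 1) < j by omega))
    · rw [if_neg h, if_neg h]
  refine ⟨fun i => tm p (a i), fun j => ?_, fun h => ?_⟩
  · have h3 := h1 (G j a)
    rw [← ha] at h3
    change ((si p S ^ (m + 1)) _ - ∑ l : Fin (m + 1), _).coeff 0 = _
    rw [← WittVector.constantCoeff_apply, map_sub, map_sum, Fin.sum_univ_succ]
    simp only [map_mul, WittVector.constantCoeff_apply, coeff_tt, coeff_si_pow,
      WittVector.teichmuller_coeff_zero, Fin.val_succ, Fin.val_zero, Nat.zero_le, if_true, pow_zero,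
      Nat.sub_zero, RingHom.coe_one, id]
    simp only [G, Fin.ofNat_val_eq_self] at h3
    linear_combination h3
  · rw [WittVector.teichmuller_coeff_zero, ha]
    exact h2 _ (by simp [G, h])

end Lg

open Lg in
theorem lang0 : LANG0 p := by
  intro n S _ _ hS c h0 hs
  rcases n with _ | m
  · exact ⟨1, 1, Subsingleton.elim _ _, Subsingleton.elim _ _⟩
  have h1 : IsUnit (dv (c 0)) := by
    obtain ⟨s, e⟩ := hs 0 rfl
    rw [e, dv_p_mul]
    exact s.isUnit
  obtain ⟨x, h2, h3⟩ := solve hS (c := fun l => dv (c l)) h1 0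
  obtain ⟨z, hz⟩ := surj (LL (m + 1) fun l => dv (c l))
    (fun b => (solve hS h1 b).imp fun _ h => h.1) fun j => dv (LL (m + 1) (fun l => dv (c l)) x j)
  obtain ⟨y, h4, h5⟩ : ∃ y, LL (m + 1) (fun l => dv (c l)) y = 0 ∧ IsUnit ((y 0).coeff 0) := by
    refine ⟨x - p • z, funext fun j => ?_, ?_⟩
    · rw [map_sub, map_nsmul, hz, Pi.sub_apply, Pi.smul_apply, nsmul_eq_mul,
        p_mul_dv ((h2 j).trans (WittVector.zero_coeff _ _ _)), sub_self, Pi.zero_apply]
    · rw [Pi.sub_apply, Pi.smul_apply, nsmul_eq_mul, ← WittVector.constantCoeff_apply, map_sub,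
        WittVector.constantCoeff_apply, WittVector.constantCoeff_apply, coeff_p_mul_zero, sub_zero]
      exact h3 rfl
  let T : Matrix (Fin (m + 1)) (Fin (m + 1)) (WittVector p S) :=
    Matrix.of fun j k : Fin (m + 1) => tt (m + 1) y j k
  have h6 : IsUnit T.det := by
    refine isUnit_of_coeff ?_
    rw [← WittVector.constantCoeff_apply, RingHom.map_det, Matrix.det_of_isLowerTriangular
      (WittVector.constantCoeff.mapMatrix T) fun (j k : Fin (m + 1)) h =>
        (coeff_tt (m + 1) y j k).trans (if_neg (not_le.2 h))]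
    refine IsUnit.prod_univ_iff.2 fun j => ?_
    change IsUnit ((tt (m + 1) y j j).coeff 0)
    rw [coeff_tt, if_pos le_rfl, Nat.sub_self]
    exact h5.map _
  have h7 : Au p (m + 1) 0 * T.map (si p S) = T * Cm c := by
    ext1 j k
    have a1 : (Au p (m + 1) (0 : ℕ → S) * T.map (si p S)) j k = tt (m + 1) y j (k + 1) := by
      rw [Au]
      refine Fin.cases ?_ (fun j => ?_) j
      · rw [Cm_mul_zero]
        exact p_si_tt (Nat.le_of_lt_succ k.2) y
      · rw [Cm_mul_succ]
        simpa [T] using si_tt (m + 1) y j k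
    rw [a1]
    refine Fin.lastCases ?_ (fun k => ?_) k
    · have a2 := congrFun h4 j
      change (si p S ^ (m + 1)) _ - ∑ l : Fin (m + 1), _ = 0 at a2
      rw [mul_Cm_last, Fin.val_last, tt, if_neg (not_le.2 j.2), Nat.add_sub_cancel,
        sub_eq_zero.1 a2, Finset.mul_sum]
      exact Finset.sum_congr rfl fun l _ => by rw [mul_left_comm, p_mul_dv (h0 l)]; rfl
    · rw [mul_Cm_cast]
      rfl
  refine ⟨T⁻¹, T, Matrix.nonsing_inv_mul T h6, ?_⟩
  have h8 : T.map (si p S) * T⁻¹.map (si p S) = 1 := by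
    rw [← Matrix.map_mul, Matrix.mul_nonsing_inv T h6, Matrix.map_one _ (map_zero _) (map_one _)]
  calc Cm c * T⁻¹.map (si p S) = T⁻¹ * (T * Cm c) * T⁻¹.map (si p S) := by
        rw [← Matrix.mul_assoc, Matrix.nonsing_inv_mul T h6, Matrix.one_mul]
    _ = _ := by rw [← h7, Matrix.mul_assoc, Matrix.mul_assoc, h8, Matrix.mul_one]

end P261.C2
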