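import Vale.Agent.P261Z.W.Fil

/-!
# P261Z, block C2: cyclic modules and normal forms; definitions and statements

A matrix `A` over `W(S)` defines `V y = A *ᵥ σ⁻¹ y`; `T` is a map from the module of `A'` to the module of
`A` when `A * σ⁻¹ T = T * A'`.
-/

open Matrix

noncomputable section

namespace P261.C2

variable (p : ℕ) [hp : Fact p.Prime]

/-- the matrix of `V` on the basis `m, V m, …` when `V ^ n m = ∑ c i V ^ i m` -/
def Cm {A : Type} [CommRing A] {n : ℕ} (c : Fin n → A) : Matrix (Fin n) (Fin n) A :=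
  Matrix.of fun i j => if (i : ℕ) = j + 1 then 1 else if (j : ℕ) + 1 = n then c i else 0

/-- the matrix of the normal form `p m = V ^ n m + ∑ [u i] V ^ i m` -/
def Au {S : Type} [CommRing S] (n : ℕ) (u : ℕ → S) : Matrix (Fin n) (Fin n) (WittVector p S) :=
  Cm fun i => if (i : ℕ) = 0 then (p : WittVector p S) else -tm p (u i)

variable {p}

/-- all coefficients lie in the ideal `J` -/
def WI {S : Type} [CommRing S] (J : Ideal S) (x : WittVector p S) : Prop := ∀ j, x.coeff j ∈ J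

/-- all coefficients of all entries lie in the ideal `J` -/
def MI {S : Type} [CommRing S] (J : Ideal S) {I I' : Type} (M : Matrix I I' (WittVector p S)) : Prop :=
  ∀ i j, WI J (M i j)

/-- `T` intertwines the operators `V` -/
def Itw {S : Type} [CommRing S] [Pf p S] {I I' : Type} [Fintype I] [Fintype I']
    (A : Matrix I I (WittVector p S)) (T : Matrix I I' (WittVector p S))
    (A' : Matrix I' I' (WittVector p S)) : Prop := A * T.map (si p S) = T * A'

/-- the matrix of `V ^ N` -/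
def tpw {S : Type} [CommRing S] [Pf p S] {I : Type} [Fintype I] [DecidableEq I]
    (A : Matrix I I (WittVector p S)) : ℕ → Matrix I I (WittVector p S)
  | 0 => 1
  | N + 1 => A * (tpw A N).map (si p S)

variable (p)

theorem Cm_map {A B : Type} [CommRing A] [CommRing B] (f : A →+* B) {n : ℕ} (c : Fin n → A) :
    (Cm c).map f = Cm fun i => f (c i) := by
  ext i j
  simp [Cm, apply_ite f]

theorem Au_map {S T : Type} [CommRing S] [CommRing T] (f : S →+* T) (n : ℕ) (u : ℕ → S) :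
    (Au p n u).map (wm p f) = Au p n fun i => f (u i) := by
  rw [Au, Cm_map, Au]
  congr 1
  funext i
  split_ifs
  · exact map_natCast _ _
  · rw [map_neg, WittVector.map_teichmuller]

/-- **NFE**: existence of the normal form; the contraction runs in the complete ring `B`, which need not
be perfect -/
def NFE : Prop :=
  ∀ (n : ℕ) (S₀ B S : Type) [CommRing S₀] [Pf p S₀] [CommRing B] [CommRing S] [Pf p S] (J : Ideal B)
    [IsAdicComplete J B] (g : S₀ →+* B) (f : B →+* S) (c₀ : Fin n → WittVector p S₀)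
    (T₀ T₀' : Matrix (Fin n) (Fin n) (WittVector p S₀)) (c : Fin n → WittVector p S)
    (δ : Fin n → WittVector p B), T₀ * T₀' = 1 → Itw (Cm c₀) T₀ (Au p n 0) →
    (∀ i, WI J (δ i)) → (∀ i : Fin n, (i : ℕ) = 0 → δ i = 0) →
    (∀ i, sg p S (c i - wm p (f.comp g) (c₀ i)) = wm p f (δ i)) →
    ∃ (T T' : Matrix (Fin n) (Fin n) (WittVector p B)) (U : ℕ → B), T * T' = 1 ∧
      MI J (T - (T₀.map ⇑(sg p S₀ ^ n)).map (wm p g)) ∧ (∀ i, U i ∈ J) ∧
      Itw (Cm c) ((T.map (wm p f)).map ⇑(si p S ^ n)) (Au p n fun i => (rt p S ^ i) (f (U i)))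

/-- **NFU**: uniqueness of the normal form -/
def NFU : Prop :=
  ∀ (n : ℕ) (S : Type) [CommRing S] [Pf p S] (J : Ideal S) [IsHausdorff J S] (u u' : ℕ → S)
    (T : Matrix (Fin n) (Fin n) (WittVector p S)), (∀ i, 1 ≤ i → i < n → u i ∈ J.radical) →
    (∀ i, 1 ≤ i → i < n → u' i ∈ J.radical) → Itw (Au p n u) T (Au p n u') →
    MI J.radical (T - 1) → T = 1 ∧ ∀ i, 1 ≤ i → i < n → u i = u' i

/-- **NFG**: a map of normal forms is congruent to a unique endomorphism of the module with `u = 0` -/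
def NFG : Prop :=
  ∀ (n : ℕ) (S : Type) [CommRing S] [Pf p S] (J : Ideal S),
    (∀ [IsAdicComplete J S] (u u' : ℕ → S) (T : Matrix (Fin n) (Fin n) (WittVector p S)),
      (∀ i, 1 ≤ i → i < n → u i ∈ J.radical) → (∀ i, 1 ≤ i → i < n → u' i ∈ J.radical) →
      Itw (Au p n u) T (Au p n u') → ∃ T₀, Itw (Au p n 0) T₀ (Au p n 0) ∧ MI J.radical (T - T₀)) ∧
    ∀ [IsHausdorff J S] (T₀ T₁ : Matrix (Fin n) (Fin n) (WittVector p S)),
      Itw (Au p n 0) T₀ (Au p n 0) → Itw (Au p n 0) T₁ (Au p n 0) → MI J.radical (T₀ - T₁) → T₀ = T₁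

/-- **HT**: if `V ^ N` has rank at most `r` modulo `p` and `J`, then the height is at least `n - r` -/
def HT : Prop :=
  ∀ (n N : ℕ) (S : Type) [CommRing S] [Pf p S] (J : Ideal S) (c : Fin n → WittVector p S) (I : Type)
    [Fintype I] (X : Matrix (Fin n) I S) (Y : Matrix I (Fin n) S),
    (∀ i j, (tpw (Cm c) N i j).coeff 0 - (X * Y) i j ∈ J.radical) →
    ∀ i : Fin n, (i : ℕ) + Fintype.card I < n → (c i).coeff 0 ∈ J.radical

/-- **CYC**: cyclic vectors -/
def CYC : Prop :=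
  ∀ (n : ℕ) (S : Type) [CommRing S] [Pf p S] (I : Type) [Fintype I] [DecidableEq I]
    (A B : Matrix I I (WittVector p S)) (r : (WittVector p S)ˣ), Fintype.card I = n →
    A * B = (p : WittVector p S) • (1 : Matrix I I (WittVector p S)) →
    B * A = (p : WittVector p S) • (1 : Matrix I I (WittVector p S)) → A.det = p * r →
    Ideal.span (Set.range fun ij : I × I => (B ij.1 ij.2).coeff 0) = ⊤ ∧
    ∀ (J : Ideal S) (N : ℕ) (i j : I), J ≤ Ideal.jacobson ⊥ → IsUnit ((B i j).coeff 0) →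
      (∀ a b, (tpw A N a b).coeff 0 ∈ J.radical) →
      ∃ (c : Fin n → WittVector p S) (P : Matrix I (Fin n) (WittVector p S))
        (P' : Matrix (Fin n) I (WittVector p S)), P * P' = 1 ∧ P' * P = 1 ∧ Itw A P (Cm c) ∧
        (∀ l, (c l).coeff 0 ∈ J.radical) ∧
        ∀ l : Fin n, (l : ℕ) = 0 → ∃ s : (WittVector p S)ˣ, c l = p * s

/-- **LANG0**: modules of height `n` are trivial over rings in which monic polynomials have roots -/
def LANG0 : Prop :=
  ∀ (n : ℕ) (S : Type) [CommRing S] [Pf p S],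
    (∀ f : Polynomial S, f.Monic → 0 < f.natDegree → ∃ x, f.IsRoot x) →
    ∀ c : Fin n → WittVector p S, (∀ l, (c l).coeff 0 = 0) →
    (∀ l : Fin n, (l : ℕ) = 0 → ∃ s : (WittVector p S)ˣ, c l = p * s) →
    ∃ T T' : Matrix (Fin n) (Fin n) (WittVector p S), T * T' = 1 ∧ Itw (Cm c) T (Au p n 0)

/-- **B2**: a bounded solution of `D a = y` is as bounded as `y` -/
def B2 : Prop :=
  ∀ (h : ℕ) (K : Type) [CommRing K] [Pf p K] (F : Fil p K) (a : WittVector p K) (N t : ℝ), 1 ≤ h →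
    0 < t → a ∈ F.WL N → Dop p K h a ∈ F.WL t → a ∈ F.WL t

/-- **REC**: the pole recursion -/
def REC : Prop :=
  ∀ (h l : ℕ) (K : Type) [CommRing K] [Pf p K] (F : Fil p K) (x₀ : WittVector p K) (T : ℝ), 1 ≤ h →
    x₀ ∈ F.WL T → T ≤ ((p : ℝ) ^ h) ^ l →
    (((rho h)^[l] x₀).coeff 0 ∈ F.F 1 → (rho h)^[l] x₀ ∈ F.WL 1) ∧
    ∀ (x a : WittVector p K) (N : ℝ), x ∈ F.WL 1 → a ∈ F.WL N →
      (rho h)^[l] x₀ = x + Dop p K h a → (rho h)^[l] x₀ ∈ F.WL 1 ∧ a ∈ F.WL 1

end P261.C2
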