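import Vale.Agent.P261Z.C2.MC
import Vale.Agent.P261Z.S.Cut
import Vale.Agent.P261Z.S.Rep1

/-!
# P261Z, block C2: exchange of directions and extension of the base
-/

noncomputable section

namespace P261.C2

open Function

variable {p : ℕ} [Fact p.Prime] {k : Type} [Field k]

namespace Ex

variable {B : CF p k} {a : B.Act}

/-- two directions -/
def two (D D' : Dir B) : Bool → Dir B
  | false => D
  | true => D'

/-- their operators -/
def twoA {D D' : Dir B} (e : D.Act a) (e' : D'.Act a) : ∀ c, (two D D' c).Act a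
  | false => e
  | true => e'

/-- two modes -/
def md (m m' : Mode) : Bool → Mode
  | false => m
  | true => m'

/-- the complex of two directions is good -/
def G2 {D D' : Dir B} (e : D.Act a) (e' : D'.Act a) (m m' : Mode) (q : ℕ) : Prop :=
  ((fdAct (twoA e e')).fa (md m m')).Good q

section two

variable (H : SH p k) {D D' : Dir B} {e : D.Act a} {e' : D'.Act a} {q : ℕ}
include H

theorem rxF (h : RX p k) : G2 e e' .red .off q ↔ G1 e q :=
  h H B a Bool _ (twoA e e') _ false rfl (by rintro (_ | _) h; exacts [absurd rfl h, rfl]) q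

theorem rxT (h : RX p k) : G2 e e' .off .red q ↔ G1 e' q :=
  h H B a Bool _ (twoA e e') _ true rfl (by rintro (_ | _) h; exacts [rfl, absurd rfl h]) q

theorem togT (h : DTOG p k) (m : Mode) (hq : 1 ≤ q) :
    (G2 e e' m .red q → G2 e e' m .off q → G2 e e' m .on q) ∧
    (G2 e e' m .red q → G2 e e' m .on q → G2 e e' m .off q) ∧
    (G2 e e' m .off q → G2 e e' m .on q → G2 e e' m .red q) :=
  h H Bool _ (fdAct (twoA e e')) true _ _ _ rfl rfl rfl
    (by rintro (_ | _) h; exacts [⟨rfl, rfl⟩, absurd rfl h]) q hq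

theorem togF (h : DTOG p k) (m : Mode) (hq : 1 ≤ q) :
    (G2 e e' .red m q → G2 e e' .off m q → G2 e e' .on m q) ∧
    (G2 e e' .red m q → G2 e e' .on m q → G2 e e' .off m q) ∧
    (G2 e e' .off m q → G2 e e' .on m q → G2 e e' .red m q) :=
  h H Bool _ (fdAct (twoA e e')) false _ _ _ rfl rfl rfl
    (by rintro (_ | _) h; exacts [absurd rfl h, ⟨rfl, rfl⟩]) q hq

theorem loc (hR : FREP p k) (h : FLOC p k) {m m' : Mode} (hB : ∀ n, (B.Z n).FRep) (hD : D.Rp)
    (hD' : D'.Rp) (h1 : ∀ (n : ℕ) (T : FP p k) (_ : (Gm p k).obj T), T.F.Exh → ∀ b : (B.Z n).obj T,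
      (m = .on → ∃ v, D.ok b v) → (m' = .on → ∃ v, D'.ok b v) → FLoc T fun _ f =>
        (m = .red ∧ ∃ v, D.ok ((B.Z n).map f b) v) ∨ (m' = .red ∧ ∃ v, D'.ok ((B.Z n).map f b) v)) :
    G2 e e' m m' q :=
  (H.aacg _ q).2 ((CF.aac_iff _ _).2 (h H hR B Bool (two D D') (md m m') hB
    (by rintro (_ | _); exacts [hD, hD']) fun n T w hT b hb =>
      (h1 n T w hT b (hb false) (hb true)).mono fun _ _ h => h.elim (fun h => ⟨false, h⟩)
        fun h => ⟨true, h⟩))

theorem retr {C C' : CF p k} {a : C.Act} {a' : C'.Act} (G : C.Map C') (F : C'.Map C)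
    (h1 : ∀ n T (z : (C.Z n).obj T), F.f (G.f z) = z)
    (h2 : ∀ s n T (z : (C.Z n).obj T), G.f ((a.e s).f z) = (a'.e s).f (G.f z))
    (h : (C'.fa a').Good q) : (C.fa a).Good q :=
  let ⟨d⟩ := H.retract C C' a a' G F h1 fun s _ => h2 s
  (H.domg _ _ d).2.2.2 q h

end two

/-- one vertex for every point -/
def all (D : Dir B) : Dir B where
  V :=
    { Z := fun n => PF.pi fun _ : Fin (n + 1) => D.V.Z n
      res := fun f w i => D.V.res f (w (f i))
      res_id := fun w => funext fun i => D.V.res_id (w i)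
      res_comp := fun f g _ => funext fun _ => D.V.res_comp f g _
      res_map := fun φ f _ => funext fun _ => D.V.res_map φ f _
      Full := fun _ => False
      full_res := fun _ _ h => h
      full_map := fun _ _ => Iff.rfl }
  ok b w := ∀ i, D.ok b (w i)
  ok_map φ _ _ h i := D.ok_map φ (h i)
  ok_res f _ _ h i := D.ok_res f (h (f i))

/-- the operators -/
def allA {D : Dir B} (e : D.Act a) : (all D).Act a where
  e :=
    { e := fun s =>
        { f := fun w i => (e.e.e s).f (w i)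
          map := fun φ _ => funext fun _ => (e.e.e s).map φ _
          res := fun g _ => funext fun _ => (e.e.e s).res g _
          full := fun _ h => h }
      one := fun n T _ => funext fun _ => e.e.one n T _
      mul := fun s t hs ht n T _ => funext fun _ => e.e.mul s t hs ht n T _ }
  ok s _ _ _ _ h i := e.ok s (h i)

/-- all vertices are equal -/
def eqv (D : Dir B) : Dir (all D).pair where
  V := marks p k Unit
  ok z _ := ∀ i j, z.1.2 i = z.1.2 j
  ok_map φ _ _ h i j := congrArg ((D.V.Z _).map φ) (h i j)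
  ok_res f _ _ h i j := congrArg (D.V.res f) (h (f i) (f j))

/-- the operators -/
def eqvA {D : Dir B} (e : D.Act a) : (eqv D).Act (allA e).pair :=
  ⟨CF.Act.triv _, fun s _ _ _ _ h i j => congrArg (e.e.e s).f (h i j)⟩

theorem all_rp (H : SH p k) (hR : FREP p k) {D : Dir B} (hB : ∀ n, (B.Z n).FRep) (hD : D.Rp) :
    (all D).Rp := fun m => by
  refine PF.FRep.iso (X := ((fd B fun _ : Unit => D).cf fun _ => .on).Z m) ⟨fun z => ⟨(z.1.b, fun i => (z.1.w () i).get ((z.2 () i).1 rfl)),
    fun i => z.1.ok () i _ (Option.some_get _).symm⟩, fun φ z => Subtype.ext (Prod.ext rfl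
      (funext fun i => Option.get_map))⟩ (fun T => bijective_iff_has_inverse.2
    ⟨fun z => ⟨⟨z.1.1, fun _ i => some (z.1.2 i), fun _ i v h => Option.some.inj h ▸ z.2 i⟩,
      fun _ _ => ⟨fun _ => rfl, fun h => by cases h⟩⟩, fun z => Subtype.ext (FConf.ext rfl
        (funext fun _ => funext fun i => Option.some_get _)), fun _ => rfl⟩)
    ((hR H).2.2.2.2 B Unit (fun _ => D) hB (fun _ => hD) (fun _ => .on) m)

theorem eqv_rp (H : SH p k) (hR : FREP p k) {D : Dir B} (hB : ∀ n, (B.Z n).FRep) (hD : D.Rp) :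
    (eqv D).Rp := fun m => by
  let Q : Col ((all D).pair.Z m) := ⟨fun z => ∀ i j, z.1.2 i = z.1.2 j,
    fun φ _ h i j => congrArg ((D.V.Z m).map φ) (h i j)⟩
  refine PF.FRep.iso (X := ((all D).pair.Z m).sub Q) ⟨fun z => ⟨(z.1, fun _ => ()), z.2⟩,
    fun _ _ => rfl⟩ (fun T => bijective_iff_has_inverse.2 ⟨fun z => ⟨z.1.1, z.2⟩, fun _ => rfl,
      fun _ => rfl⟩) ((all_rp H hR hB hD m).sub (PF.Cut.all fun i => PF.Cut.all fun j => ?_))
  refine PF.Cut.congr (fun T z => ?_) (((hR H).1 _ (hD m)).comap (Y := (all D).pair.Z m)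
    ⟨fun z => (⟨(z.1.1, z.1.2 i), z.2 i⟩, ⟨(z.1.1, z.1.2 j), z.2 j⟩), fun _ _ => rfl⟩)
  exact ⟨fun h => congrArg (fun u => u.1.2) h, fun h => Subtype.ext (Prod.ext rfl h)⟩

variable (J D : Dir B)

/-- the vertices of the base become vertices of the second direction -/
def G₁ : ((fd (all D).pair fun _ : Unit => J.bc (all D).fst).cf fun _ => .red).Map
    ((fd B (two J D)).cf (md .red .on)) where
  f z := ⟨⟨z.1.b.1.1, fun c => match c with
      | false => z.1.w ()
      | true => fun i => some (z.1.b.1.2 i), by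
      rintro (_ | _) i v h
      exacts [z.1.ok () i v h, Option.some.inj h ▸ z.1.b.2 i]⟩, by
    rintro (_ | _) i
    exacts [⟨nofun, nofun⟩, ⟨fun _ => rfl, nofun⟩]⟩
  map φ z := Subtype.ext (FConf.ext rfl (funext fun c => by cases c <;> rfl))
  res g z := Subtype.ext (FConf.ext rfl (funext fun c => by cases c <;> rfl))
  full z := fun ⟨_, _, h⟩ => ⟨false, rfl, h⟩

/-- the inverse -/
def F₁ : ((fd B (two J D)).cf (md .red .on)).Map
    ((fd (all D).pair fun _ : Unit => J.bc (all D).fst).cf fun _ => .red) where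
  f z := ⟨⟨⟨(z.1.b, fun i => (z.1.w true i).get ((z.2 true i).1 rfl)),
    fun i => z.1.ok true i _ (Option.some_get _).symm⟩, fun _ => z.1.w false,
      fun _ => z.1.ok false⟩, fun _ _ => ⟨nofun, nofun⟩⟩
  map φ z := Subtype.ext (FConf.ext (Subtype.ext (Prod.ext rfl (funext fun _ => Option.get_map)))
    rfl)
  res g z := Subtype.ext (FConf.ext (Subtype.ext (Prod.ext rfl (funext fun _ => Option.get_map)))
    rfl)
  full z := by
    rintro ⟨_ | _, h1, h⟩
    exacts [⟨(), rfl, h⟩, nomatch h1]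

/-- constant families -/
def G₂ : ((fd D.pair fun _ : Unit => J.bc D.fst).cf fun _ => .red).Map
    ((fd (all D).pair (two (J.bc (all D).fst) (eqv D))).cf (md .red .on)) where
  f z := ⟨⟨⟨(z.1.b.1.1, fun _ => z.1.b.1.2), fun _ => z.1.b.2⟩, fun c => match c with
      | false => z.1.w ()
      | true => fun _ => some fun _ => (), by
      rintro (_ | _) i v h
      exacts [z.1.ok () i v h, fun _ _ => rfl]⟩, by
    rintro (_ | _) i
    exacts [⟨nofun, nofun⟩, ⟨fun _ => rfl, nofun⟩]⟩
  map φ z := Subtype.ext (FConf.ext rfl (funext fun c => by cases c <;> rfl))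
  res g z := Subtype.ext (FConf.ext rfl (funext fun c => by cases c <;> rfl))
  full z := fun ⟨_, _, h⟩ => ⟨false, rfl, h⟩

/-- the first vertex -/
def F₂ : ((fd (all D).pair (two (J.bc (all D).fst) (eqv D))).cf (md .red .on)).Map
    ((fd D.pair fun _ : Unit => J.bc D.fst).cf fun _ => .red) where
  f z := ⟨⟨⟨(z.1.b.1.1, z.1.b.1.2 0), z.1.b.2 0⟩, fun _ => z.1.w false, fun _ => z.1.ok false⟩,
    fun _ _ => ⟨nofun, nofun⟩⟩
  map φ z := rfl
  res g z := Subtype.ext (FConf.ext (Subtype.ext (Prod.ext rfl (congrArg (D.V.res g)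
    (z.1.ok true 0 _ (Option.some_get ((z.2 true 0).1 rfl)).symm (g 0) 0)))) rfl)
  full z := by
    rintro ⟨_ | _, h1, h⟩
    exacts [⟨(), rfl, h⟩, nomatch h1]

end Ex

open Ex

theorem swp : SWP p k := fun H hR hL hT hX _ _ _ _ _ _ hB hD hD' o o' _ hq h =>
  (rxT H hX).1 ((togF H hT .red hq).2.1 ((togT H hT .red hq).2.2 ((rxF H hX).2 h)
    (loc H hR hL hB hD hD' fun n T w e b _ h2 =>
      let ⟨v, hv⟩ := h2 rfl
      (o' n T w e b v hv).mono fun _ _ h => .inl ⟨rfl, h⟩))
    (loc H hR hL hB hD hD' fun n T w e b h1 _ =>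
      let ⟨v, hv⟩ := h1 rfl
      (o n T w e b v hv).mono fun _ _ h => .inr ⟨rfl, h⟩))

theorem ext : EXT p k := by
  intro H hR hL hT hX B a J D e e' hB hJ hD h1 h2 q hq h
  have a1 : G2 e e' .red .on q := (togT H hT .red hq).1 (loc H hR hL hB hJ hD
    fun n T w hT b _ _ => (h1 n T w hT b).mono fun _ _ h => h.imp (⟨rfl, ·⟩) (⟨rfl, ·⟩))
    ((rxF H hX).2 h)
  have a2 : G1 (e.bc (allA e')) q := retr H (G₁ J D) (F₁ J D) (fun _ _ _ => rfl)
    (fun s n T z => Subtype.ext (FConf.ext rfl (funext fun c => by cases c <;> rfl))) a1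
  have a3 := all_rp H hR hB hD
  refine retr H (G₂ J D) (F₂ J D) (fun _ _ _ => rfl)
    (fun s n T z => Subtype.ext (FConf.ext rfl (funext fun c => by cases c <;> rfl)))
    ((togT H hT (e := e.bc (allA e')) (e' := eqvA e') .red hq).1 (loc H hR hL a3
      ((hR H).2.2.1 B _ _ J hB a3 hJ) (eqv_rp H hR hB hD) fun n T w hT z _ _ => ?_)
      ((rxF H hX).2 a2))
  have a4 : ∀ s : Finset (Fin (n + 1)), FLoc T fun _ f => (∃ j, J.ok ((B.Z n).map f z.1.1) j) ∨
      ∀ i ∈ s, (D.V.Z n).map f (z.1.2 i) = (D.V.Z n).map f (z.1.2 0) := fun s => by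
    induction s using Finset.induction_on with
    | empty => exact .here (.inr nofun)
    | insert i s _ ih =>
      refine floc_bind ih hT fun T' f hT' h => h.elim (fun h => .here (.inl h)) fun h => ?_
      refine (h2 n T' ((Gm p k).map f w) hT' _ _ _ (D.ok_map f (z.2 i)) (D.ok_map f (z.2 0))).mono
        fun T'' g h' => ?_
      simp only [PF.map_comp, Finset.forall_mem_insert]
      exact h'.imp_right fun h' => ⟨h', fun j hj => congrArg _ (h j hj)⟩
  exact (a4 Finset.univ).mono fun _ _ h => h.imp (⟨rfl, ·⟩) fun h => ⟨rfl, fun _ => (),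
    fun i j => (h i (Finset.mem_univ _)).trans (h j (Finset.mem_univ _)).symm⟩

end P261.C2
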