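import Vale.Agent.P261Z.C2.Alg

/-!
# P261Z, block C2: the height and cyclic vectors
-/

open Matrix

noncomputable section

namespace P261.C2

namespace Cy

section gen

variable {R R' : Type} [CommRing R] [CommRing R'] {I I' : Type} [Fintype I] [DecidableEq I]
  [Fintype I'] [DecidableEq I']

/-- twisted powers -/
def tp (τ : R →+* R) (A : Matrix I I R) : ℕ → Matrix I I R
  | 0 => 1
  | N + 1 => A * (tp τ A N).map τ

theorem tp_map {τ : R →+* R} {τ' : R' →+* R'} (f : R →+* R') (h : ∀ x, f (τ x) = τ' (f x))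
    (A : Matrix I I R) (N : ℕ) : (tp τ A N).map f = tp τ' (A.map f) N := by
  induction N with
  | zero => exact Matrix.map_one f (map_zero f) (map_one f)
  | succ N ih =>
    rw [tp, tp, Matrix.map_mul, ← ih]
    exact congrArg (A.map f * ·) (Matrix.ext fun i j => h _)

theorem tp_itw {τ : R →+* R} {A : Matrix I I R} {T : Matrix I I' R} {A' : Matrix I' I' R}
    (h : A * T.map τ = T * A') (N : ℕ) :
    ∃ T' : Matrix I I' R, tp τ A N * T' = T * tp τ A' N := by
  induction N with
  | zero => exact ⟨T, by rw [tp, tp, Matrix.one_mul, Matrix.mul_one]⟩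
  | succ N ih =>
    obtain ⟨T', hT⟩ := ih
    exact ⟨T'.map τ, by rw [tp, tp, Matrix.mul_assoc, ← Matrix.map_mul, hT, Matrix.map_mul,
      ← Matrix.mul_assoc, h, Matrix.mul_assoc]⟩

theorem cm_zero {m : ℕ} (c y : Fin (m + 1) → R) : (Cm c *ᵥ y) 0 = c 0 * y (Fin.last m) := by
  rw [mulVec, dotProduct, Fin.sum_univ_castSucc, Finset.sum_eq_zero fun j _ => ?_]
  · simp [Cm]
  · simp [Cm, j.2.ne]

theorem cm_succ {m : ℕ} (c y : Fin (m + 1) → R) (a : Fin m) :
    (Cm c *ᵥ y) a.succ = y a.castSucc + c a.succ * y (Fin.last m) := by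
  rw [mulVec, dotProduct, Fin.sum_univ_castSucc, Finset.sum_eq_single a]
  · simp [Cm, a.2.ne]
  · intro j _ hj
    have : (a : ℕ) ≠ j := fun e => hj (Fin.ext e.symm)
    simp [Cm, j.2.ne, this]
  · simp

theorem det_cm {m : ℕ} (c : Fin (m + 1) → R) : (Cm c).det = (-1) ^ m * c 0 := by
  have e : (Cm c).submatrix Fin.succ (Fin.last m).succAbove = 1 := by
    ext a b
    simp [Cm, Matrix.one_apply, Fin.ext_iff, b.2.ne]
  rw [det_succ_row_zero, Fin.sum_univ_castSucc, Finset.sum_eq_zero fun j _ => ?_, e]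
  · simp [Cm]
  · simp [Cm, j.2.ne]

theorem step [IsDomain R] {m : ℕ} {c y : Fin (m + 1) → R} {i : Fin (m + 1)}
    (h0 : ∀ j < i, c j = 0) (h1 : c i ≠ 0) (hy : ∀ j < i, y j = 0) :
    (∀ j < i, (Cm c *ᵥ y) j = 0) ∧ (Cm c *ᵥ y = 0 → y = 0) := by
  have key : ∀ j ≤ i, (Cm c *ᵥ y) j = c j * y (Fin.last m) := by
    intro j hj
    induction j using Fin.cases with
    | zero => exact cm_zero c y
    | succ a => rw [cm_succ, hy _ (lt_of_lt_of_le Fin.castSucc_lt_succ hj), zero_add]
  refine ⟨fun j hj => by rw [key j hj.le, h0 j hj, zero_mul], fun h => ?_⟩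
  have hl : y (Fin.last m) = 0 := by
    have := key i le_rfl
    rw [h] at this
    exact (mul_eq_zero.1 this.symm).resolve_left h1
  funext j
  induction j using Fin.lastCases with
  | last => exact hl
  | cast a =>
    have := cm_succ c y a
    rw [h, hl, mul_zero, add_zero] at this
    exact this.symm

theorem steps [IsDomain R] {τ : R →+* R} (hτ : Function.Injective τ) {m : ℕ} {i : Fin (m + 1)}
    {y : Fin (m + 1) → R} (hy : ∀ j < i, y j = 0) (N : ℕ) (c : Fin (m + 1) → R)
    (h0 : ∀ j < i, c j = 0) (h1 : c i ≠ 0) :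
    (∀ j < i, (tp τ (Cm c) N *ᵥ y) j = 0) ∧ (tp τ (Cm c) N *ᵥ y = 0 → y = 0) := by
  induction N generalizing c with
  | zero => simpa [tp] using hy
  | succ N ih =>
    obtain ⟨a1, a2⟩ := ih (fun j => τ (c j)) (fun j hj => by rw [h0 j hj, map_zero])
      fun e => h1 (hτ (e.trans (map_zero τ).symm))
    rw [tp, tp_map τ (τ' := τ) fun _ => rfl, Cm_map, ← mulVec_mulVec]
    exact ⟨(step h0 h1 a1).1, fun h => a2 ((step h0 h1 a1).2 h)⟩

theorem ht0 [IsDomain R] {τ : R →+* R} (hτ : Function.Injective τ) {n N : ℕ} {c : Fin n → R}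
    {L : Type} [Fintype L] {X : Matrix (Fin n) L R} {Y : Matrix L (Fin n) R}
    (h : tp τ (Cm c) N = X * Y) (i : Fin n) (hi : (i : ℕ) + Fintype.card L < n) : c i = 0 := by
  obtain ⟨m, rfl⟩ : ∃ m, n = m + 1 := ⟨n - 1, by omega⟩
  induction i using WellFoundedLT.induction with
  | ind i ih =>
    by_contra h1
    have h0 : ∀ j < i, c j = 0 := fun j hj => ih j hj (by have : (j : ℕ) < i := hj; omega)
    have := LinearMap.finrank_le_finrank_of_injective
      (f := (LinearMap.funLeft R R (Fin.castLE i.2.le)).prod Y.mulVecLin)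
      ((injective_iff_map_eq_zero _).2 fun y hy => ?_)
    · simp at this
      omega
    · refine (steps hτ (fun j hj => congrFun (congrArg Prod.fst hy) ⟨j, hj⟩) N c h0 h1).2 ?_
      rw [h, ← mulVec_mulVec, show Y *ᵥ y = 0 from congrArg Prod.snd hy, mulVec_zero]

end gen

section field

variable {k : Type} [Field k]

theorem chain {M : Type} [AddCommGroup M] [Module k M] [FiniteDimensional k M] {τ : k →+* k}
    (V : M →ₛₗ[τ] M) (v : ℕ → M) (hv : ∀ l, V (v l) = v (l + 1))
    (hs : ∀ y, ∃ (a : k) (w : M), y = a • v 0 + V w) (N : ℕ) (hN : ∀ y, V^[N] y = 0) :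
    Submodule.span k (v '' Set.Iio (Module.finrank k M)) = ⊤ := by
  set W : ℕ → Submodule k M := fun r => Submodule.span k (v '' Set.Iio r) with hW
  have h0 : ∀ {l r}, l < r → v l ∈ W r := fun h => Submodule.subset_span ⟨_, h, rfl⟩
  have hm : ∀ r, W r ≤ W (r + 1) := fun r =>
    Submodule.span_mono (Set.image_mono fun l (h : l < r) => h.trans r.lt_succ_self)
  have h1 : ∀ r, ∀ y ∈ W r, V y ∈ W (r + 1) := by
    intro r y hy
    induction hy using Submodule.span_induction with
    | mem y hy =>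
      obtain ⟨l, hl, rfl⟩ := hy
      exact hv l ▸ h0 (Nat.succ_lt_succ hl)
    | zero => rw [map_zero]; exact zero_mem _
    | add y z _ _ a b => rw [map_add]; exact add_mem a b
    | smul a y _ b => rw [map_smulₛₗ]; exact Submodule.smul_mem _ _ b
  have h2 : ∀ s y, ∃ z, y - V^[s] z ∈ W s := by
    intro s
    induction s with
    | zero => exact fun y => ⟨y, by simp⟩
    | succ s ih =>
      intro y
      obtain ⟨a, w, rfl⟩ := hs y
      obtain ⟨z, hz⟩ := ih w
      refine ⟨z, ?_⟩
      rw [Function.iterate_succ_apply', add_sub_assoc, ← map_sub]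
      exact add_mem (Submodule.smul_mem _ _ (h0 s.succ_pos)) (h1 _ _ hz)
  have h4 : ∀ r, W (r + 1) ≤ W r → W r = ⊤ := by
    intro r hr
    have a : ∀ l, v l ∈ W r := by
      intro l
      induction l with
      | zero => exact hr (h0 r.succ_pos)
      | succ l ih => exact hr (hv l ▸ h1 _ _ ih)
    refine eq_top_iff.2 fun y _ => ?_
    obtain ⟨z, hz⟩ := h2 N y
    rw [hN, sub_zero] at hz
    exact Submodule.span_le.2 (by rintro _ ⟨l, -, rfl⟩; exact a l) hz
  have h5 : ∀ r, W r = ⊤ ∨ r ≤ Module.finrank k (W r) := by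
    intro r
    induction r with
    | zero => exact Or.inr (Nat.zero_le _)
    | succ r ih =>
      by_cases e : W r = ⊤
      · exact Or.inl (eq_top_iff.2 (e ▸ hm r))
      · exact Or.inr (Nat.succ_le_of_lt ((ih.resolve_left e).trans_lt
          (Submodule.finrank_lt_finrank_of_lt (lt_of_le_not_ge (hm r) fun h => e (h4 r h)))))
  exact (h5 _).elim id fun h =>
    Submodule.eq_top_of_finrank_eq (le_antisymm (Submodule.finrank_le _) h)

theorem cyc0 {τ : k →+* k} (hτ : Function.Surjective τ) {I : Type} [Fintype I] [DecidableEq I]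
    {A : Matrix I I k} {N n : ℕ} (e : I ≃ Fin n) (hN : tp τ A N = 0) {i j : I}
    (h : A.adjugate i j ≠ 0) : (Matrix.of fun a b => tp τ A (e b) a j).det ≠ 0 := by
  let V : (I → k) →ₛₗ[τ] (I → k) :=
    { toFun := fun y => A *ᵥ (τ ∘ y)
      map_add' := fun y z => by
        rw [← mulVec_add]
        exact congrArg (A *ᵥ ·) (funext fun a => map_add τ _ _)
      map_smul' := fun a y => by
        rw [← mulVec_smul]
        exact congrArg (A *ᵥ ·) (funext fun b => map_mul τ _ _) }
  have h1 : ∀ s y, ∃ z, V^[s] y = tp τ A s *ᵥ z := by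
    intro s y
    induction s with
    | zero => exact ⟨y, (one_mulVec y).symm⟩
    | succ s ih =>
      obtain ⟨z, hz⟩ := ih
      refine ⟨τ ∘ z, ?_⟩
      rw [Function.iterate_succ_apply', hz, tp, ← mulVec_mulVec]
      exact congrArg (A *ᵥ ·) (funext fun a => RingHom.map_mulVec τ _ _ a)
  have h2 : IsUnit (A.updateCol i (Pi.single j 1)) := by
    rw [isUnit_iff_isUnit_det, ← cramer_apply, cramer_eq_adjugate_mulVec, mulVec_single_one]
    exact h.isUnit
  have h3 := chain V (fun l a => tp τ A l a j) (fun l => rfl) (fun y => ?_) N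
    fun y => by obtain ⟨z, hz⟩ := h1 N y; rw [hz, hN, zero_mulVec]
  · refine ((isUnit_iff_isUnit_det _).1 (mulVec_surjective_iff_isUnit.1 ?_)).ne_zero
    refine LinearMap.range_eq_top (f := Matrix.mulVecLin _).1 (eq_top_iff.2 ?_)
    rw [range_mulVecLin, ← h3, Module.finrank_fintype_fun_eq_card, Fintype.card_congr e,
      Fintype.card_fin]
    refine Submodule.span_mono ?_
    rintro _ ⟨l, hl, rfl⟩
    exact ⟨e.symm ⟨l, hl⟩, funext fun a => by simp⟩
  · obtain ⟨z, rfl⟩ := mulVec_surjective_iff_isUnit.2 h2 y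
    choose w hw using fun a => hτ (Function.update z i 0 a)
    refine ⟨z i, w, funext fun a => ?_⟩
    show ∑ b, _ * z b = z i * (1 : Matrix I I k) a j + ∑ b, A a b * τ (w b)
    rw [← Finset.add_sum_erase _ _ (Finset.mem_univ i), ← Finset.add_sum_erase _ _
      (Finset.mem_univ i), hw, updateCol_self, Function.update_self, mul_zero, zero_add,
      Pi.single_apply, Matrix.one_apply, mul_comm]
    refine congrArg (_ + ·) (Finset.sum_congr rfl fun b hb => ?_)
    rw [hw, updateCol_ne (Finset.ne_of_mem_erase hb),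
      Function.update_of_ne (Finset.ne_of_mem_erase hb)]

end field

variable {p : ℕ} [hp : Fact p.Prime] {S : Type} [CommRing S] [Pf p S]

theorem tpw_eq {I : Type} [Fintype I] [DecidableEq I] (A : Matrix I I (WittVector p S)) (N : ℕ) :
    tpw A N = tp (si p S) A N := by
  induction N with
  | zero => rfl
  | succ N ih => rw [tpw, tp, ih]

/-- the first digit modulo an ideal -/
def red (p : ℕ) [Fact p.Prime] {S : Type} [CommRing S] (P : Ideal S) : WittVector p S →+* S ⧸ P :=
  (Ideal.Quotient.mk P).comp WittVector.constantCoeff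

omit [Pf p S] in
theorem red_eq_zero {P : Ideal S} {x : WittVector p S} : red p P x = 0 ↔ x.coeff 0 ∈ P :=
  Ideal.Quotient.eq_zero_iff_mem

theorem pfq (P : Ideal S) (hP : P.IsPrime) : Pf p (S ⧸ P) :=
  Pf.quotient P fun _ h => hP.mem_of_pow_mem _ h

theorem tpw_red (P : Ideal S) [Pf p (S ⧸ P)] {I : Type} [Fintype I] [DecidableEq I]
    (A : Matrix I I (WittVector p S)) (N : ℕ) :
    (tpw A N).map (red p P) = tp (rt p (S ⧸ P)) (A.map (red p P)) N := by
  rw [tpw_eq]
  exact tp_map _ (fun x => map_rt (Ideal.Quotient.mk P) (x.coeff 0)) A N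

theorem adj {I : Type} [Fintype I] [DecidableEq I] {A B : Matrix I I (WittVector p S)}
    {r : WittVector p S} (h : B * A = (p : WittVector p S) • (1 : Matrix I I (WittVector p S)))
    (hd : A.det = p * r) (i j : I) : A.adjugate i j = r * B i j := by
  have h1 := Matrix.mul_assoc B A A.adjugate
  rw [h, mul_adjugate, hd, Matrix.smul_mul, Matrix.one_mul, Matrix.mul_smul, Matrix.mul_one] at h1
  exact p_mul_inj ((congrFun (congrFun h1 i) j).trans (mul_assoc _ _ _))

end Cy

open Cy

variable (p : ℕ) [hp : Fact p.Prime]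

theorem ht : HT p := by
  intro n N S _ _ J c I _ X Y h i hi
  rw [Ideal.radical_eq_sInf, Submodule.mem_sInf]
  rintro P ⟨h1, h2⟩
  have := pfq (p := p) P h2
  refine red_eq_zero.1 (ht0 (τ := rt p (S ⧸ P)) (frE p (S ⧸ P)).symm.injective (N := N)
    (c := fun i => red p P (c i))
    (X := X.map (Ideal.Quotient.mk P)) (Y := Y.map (Ideal.Quotient.mk P)) ?_ i hi)
  rw [← Cm_map, ← Matrix.map_mul]
  refine (tpw_red P (Cm c) N).symm.trans (Matrix.ext fun a b => ?_)
  exact Ideal.Quotient.eq.2 (h2.radical_le_iff.2 h1 (h a b))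

theorem cyc : CYC p := by
  intro n S _ _ I _ _ A B r hn h1 h2 hd
  refine ⟨by_contra fun h => ?_, fun J N i j hJ hu hN => ?_⟩
  · obtain ⟨m, hm, hle⟩ := Ideal.exists_le_maximal _ h
    have := pfq (p := p) m hm.isPrime
    let f := wm p (Ideal.Quotient.mk m)
    have a1 : A.map f * (B.map f).map dv = 1 := by
      ext1 a b
      refine p_mul_inj ?_
      have a2 := congrArg f (congrFun (congrFun h1 a) b)
      rw [Matrix.mul_apply, map_sum, Matrix.smul_apply, smul_eq_mul, map_mul, map_natCast] at a2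
      rw [Matrix.mul_apply, Finset.mul_sum, ← Matrix.map_one f (map_zero f) (map_one f)]
      refine (Finset.sum_congr rfl fun l _ => ?_).trans a2
      rw [mul_left_comm, map_mul]
      exact congrArg (f (A a l) * ·) (p_mul_dv (Ideal.Quotient.eq_zero_iff_mem.2
        (hle (Ideal.subset_span ⟨(l, b), rfl⟩))))
    have a3 := isUnit_coeff (isUnit_det_of_right_inverse a1)
    rw [show (A.map f).det = f A.det from (f.map_det A).symm, hd, map_mul, map_natCast,
      coeff_p_mul_zero, isUnit_zero_iff] at a3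
    exact hm.ne_top (Ideal.Quotient.zero_eq_one_iff.1 a3)
  obtain ⟨m, rfl⟩ : ∃ m, n = m + 1 :=
    ⟨n - 1, by have := Fintype.card_pos_iff.2 ⟨i⟩; omega⟩
  let e := Fintype.equivFinOfCardEq hn
  let P : Matrix I (Fin (m + 1)) (WittVector p S) := Matrix.of fun a l => tpw A l a j
  have hQ : IsUnit (P.submatrix id e).det := by
    refine isUnit_of_coeff (by_contra fun h => ?_)
    obtain ⟨q, hq, hx⟩ := exists_max_ideal_of_mem_nonunits h
    have := pfq (p := p) q hq.isPrime
    have a1 : J.radical ≤ q := hq.isPrime.radical_le_iff.2 (hJ.trans (sInf_le ⟨bot_le, hq⟩))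
    let := Ideal.Quotient.field q
    refine cyc0 (τ := rt p (S ⧸ q)) (frE p (S ⧸ q)).symm.surjective (A := A.map (red p q)) (N := N) e
      ((tpw_red q A N).symm.trans (Matrix.ext fun a b => red_eq_zero.2 (a1 (hN a b))))
      (i := i) (j := j) ?_ ?_
    · have a2 := congrFun (congrFun ((red p q).map_adjugate A) i) j
      refine fun a3 => hq.ne_top (q.eq_top_of_isUnit_mem (red_eq_zero.1 (a2.trans a3)) ?_)
      rw [adj h2 hd, WittVector.mul_coeff_zero]
      exact (isUnit_coeff r.isUnit).mul hu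
    · rw [← red_eq_zero.2 hx, RingHom.map_det]
      exact congrArg Matrix.det (Matrix.ext fun a b =>
        (congrFun (congrFun (tpw_red q A (e b)) a) j).symm)
  obtain ⟨P', hP⟩ : ∃ P' : Matrix (Fin (m + 1)) I (WittVector p S), P * P' = 1 :=
    ⟨(P.submatrix id e)⁻¹.submatrix e.symm id, by
    have := submatrix_mul_equiv (P.submatrix id e) (P.submatrix id e)⁻¹ id e.symm id
    rw [mul_nonsing_inv _ hQ] at this
    simpa using this⟩
  have hP' := (mul_eq_one_comm_of_equiv e).1 hP
  let c := P' *ᵥ fun a => tpw A (m + 1) a j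
  have hI : A * P.map (si p S) = P * Cm c := by
    ext1 a l
    show tpw A (l + 1) a j = ∑ b, P a b * Cm c b l
    induction l using Fin.lastCases with
    | last =>
      have a1 : P *ᵥ c = fun a => tpw A (m + 1) a j := by rw [mulVec_mulVec, hP, one_mulVec]
      refine (congrFun a1 a).symm.trans ?_
      show ∑ b, P a b * c b = _
      exact Finset.sum_congr rfl fun b _ => by simp [Cm, b.2.ne]
    | cast l =>
      rw [Finset.sum_eq_single l.succ]
      · simp [Cm, P]
      · intro b _ hb
        have : (b : ℕ) ≠ l + 1 := fun e => hb (Fin.ext e)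
        simp [Cm, l.2.ne, this]
      · simp
  refine ⟨c, P, P', hP, hP', hI, fun l => ?_, fun l hl => ?_⟩
  · refine ht p (m + 1) N S J c Empty 0 0 (fun a b => ?_) l (by simpa using l.2)
    obtain ⟨T, hT⟩ := tp_itw hI N
    have a1 : (tpw A N).map (red p J.radical) = 0 := Matrix.ext fun a b => red_eq_zero.2 (hN a b)
    have a2 : (tpw (Cm c) N).map (red p J.radical) = 0 := by
      rw [← Matrix.one_mul (tpw _ _), ← hP', Matrix.mul_assoc, tpw_eq, ← hT, ← tpw_eq,
        Matrix.map_mul, Matrix.map_mul, a1, Matrix.zero_mul, Matrix.mul_zero]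
    simpa using red_eq_zero.1 (congrFun (congrFun a2 a) b)
  · obtain rfl : l = 0 := Fin.ext hl
    obtain ⟨u, hu⟩ := hQ
    have a1 : A * (P.submatrix id e).map (si p S) = P.submatrix id e * (Cm c).submatrix e e := by
      rw [submatrix_mul_equiv, ← hI]
      rfl
    have a2 := congrArg Matrix.det a1
    rw [det_mul, det_mul, det_submatrix_equiv_self, det_cm, hd,
      show ((P.submatrix id e).map (si p S)).det = si p S u from hu ▸ ((si p S).map_det _).symm,
      ← hu] at a2
    refine ⟨r * Units.map (si p S).toMonoidHom u * (u * (-1) ^ m)⁻¹, ?_⟩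
    rw [Units.val_mul, ← mul_assoc, Units.eq_mul_inv_iff_mul_eq]
    push_cast
    exact ((mul_assoc _ _ _).symm.trans (a2.trans (by ring))).symm

end P261.C2
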