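import Vale.Agent.P261Z.C2.Br
import Vale.Agent.P261Z.F.Vtx
import Vale.Agent.P261Z.C1.Uni

/-!
# P261Z, block C2: points of the rings of cochains exist and are unique after covers
-/

set_option linter.unusedVariables false
set_option linter.unusedSectionVars false

open Matrix MvPowerSeries

noncomputable section

namespace P261.C2

open Vale.Agent.P251.F Vale.Agent.P261Z Vale.Agent.P261Z.N P261.Ig P261.NM

variable {p : ℕ} [hp : Fact p.Prime] {h c : ℕ}

namespace Exu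

section ring

variable {S S' : Type} [CommRing S] [CommRing S']

/-- the basis, numbered by `Fin (h + c)` -/
def mu' (v : LV p (Fin c) h S) : Matrix (Fin c ⊕ Fin h) (Fin (h + c)) (WittVector p S) :=
  v.μ.submatrix id (rx h c).symm

/-- the inverse matrix -/
def nu' (v : LV p (Fin c) h S) : Matrix (Fin (h + c)) (Fin c ⊕ Fin h) (WittVector p S) :=
  v.ν.submatrix (rx h c).symm id

theorem mu'_vtx (a : Fin c → WittVector p S) (μ ν) : mu' (vtx (h := h) a μ ν) = μ := by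
  ext1 i j
  simp [mu', vtx]

theorem mu'_map (f : S →+* S') (v : LV p (Fin c) h S) : mu' (v.map f) = mw f (mu' v) := rfl

theorem nu'_map (f : S →+* S') (v : LV p (Fin c) h S) : nu' (v.map f) = mw f (nu' v) := rfl

theorem comp_lift {B : Type} [CommRing B] [Ch p B] [Pf p S] [Pf p S'] (g : S →+* S')
    (f : B →+* S) : g.comp (PH.lift (p := p) f) = PH.lift (g.comp f) :=
  PH.hom_ext fun a => by simp only [RingHom.comp_apply, PH.lift_of]

variable [Pf p S] {F : Fil p S} {v v' : LV p (Fin c) h S}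

theorem eq_vtx (hv : IsNF F v) : v = vtx v.a (mu' v) (nu' v) := Fl.eq_vtx hv.isZ.lat hv.φ hv.ix

theorem iso_nf (hv : IsNF F v) :
    Iso (V0 p (Fin c) h _) (Au p (h + c) (uy h (yv v))) (mu' v) (nu' v) :=
  Fl.iso_of_vtx (a := v.a) ((congrArg (fun w : LV p (Fin c) h S => w.μ * w.ν)
    (eq_vtx hv)).symm.trans hv.isZ.inv) ((congrArg LV.mA (eq_vtx hv)).symm.trans hv.mA)

theorem mw_nm (hv : IsNF F v) (hv' : IsNF F v') (H : v.Ok F v') : F.MW 0 (nu' v * mu' v') :=
  fun i j => H.lat hv.isZ.lat hv'.isZ.lat _ _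

theorem itw_nm (hv : IsNF F v) (hv' : IsNF F v') : Itw (Au p (h + c) (uy h (yv v)))
    (nu' v * mu' v') (Au p (h + c) (uy h (yv v'))) := ((iso_nf hv).symm.trans (iso_nf hv')).eq

end ring

variable {G : Type} [Group G] [TopologicalSpace G] [IsTopologicalGroup G] {K : Type} [Field K]
  [Pf p K] [Algebra (ZMod p) K] {A : RG p h c G K} {h1 : 1 ≤ h} {Θ : TGd A h1}
  {A' : NM.Act (ZMod p) (RR c K) G (Fin c)} {AA : Type} [CommRing AA] [Algebra (RR c K) AA]
  [Pf p AA] {V : A'.Mod AA} [V.IsAlg] (U : UD Θ V) {I S : Type} [CommRing S] [Pf p S]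

theorem ext_ev {J J' : Type} {M M' : Matrix J J' (WittVector p (V.Coch I))}
    (H : ∀ g, mw (V.evR g) M = mw (V.evR g) M') : M = M' :=
  Matrix.ext fun a b => WittVector.ext fun l => Subtype.ext (funext fun g =>
    congrArg (fun N : Matrix J J' (WittVector p AA) => (N a b).coeff l) (H g))

/-- the bases at two vertices -/
theorem vx_mu (τ : V.Coch I →+* S) (i j : I) : mw (τ.comp (V.vxR j)) U.mu =
    mw (τ.comp (V.vxR i)) U.mu *
      mw (PH.lift (τ.comp (algebraMap (A'.Gam I) _))) (Θ.TI U.act i j) := by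
  have := pf_coch V U.pbs I
  rw [← comp_lift, ← mw_mw τ, ← mw_mw τ, ← mw_mw τ, ← mw_mul]
  refine congrArg (mw τ) (ext_ev fun g => ?_)
  have e1 : (V.evR g).comp (V.vxR j) = (V.ρR (g i)).comp (V.ρR ((g i)⁻¹ * g j)) :=
    RingHom.ext fun x => by
      show V.ρ (g j) x = V.ρ (g i) (V.ρ _ x)
      rw [← V.ρ_mul, mul_inv_cancel_left]
  have e2 : mw ((V.evR g).comp (PH.lift (algebraMap (A'.Gam I) _))) (Θ.TI U.act i j) =
      mw (V.ρR (g i)) (mw (PH.lift (algebraMap (RR c K) AA)) (Θ.T ((g i)⁻¹ * g j))) :=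
    Matrix.ext fun a b => WittVector.ext fun l => by
      simp only [mw_coeff, TGd.TI, TGd.T, up_coeff, map_rt_pow, RingHom.comp_apply, PH.lift_of]
      exact congrArg _ ((Act.Mod.alg_val _ g).trans (V.ρ_alg _ _).symm)
  rw [mw_mw, e1, ← mw_mw, U.ρ_mu, mw_mul, mw_mul, mw_mw (V.evR g) (PH.lift _), e2]
  rfl

theorem iso_map (f : AA →+* S) : Iso (V0 p (Fin c) h _)
    (mw f (Au p (h + c) (uy h fun j => algebraMap (RR c K) AA (X j)))) (mw f U.mu) (mw f U.nu) := by
  have := U.iso.map f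
  rwa [mw_V0] at this

variable {U} {n : ℕ} {T : FP p (ZMod p)} {y : YConf h c K n T}

theorem ok_mu {τ : V.Coch (Fin (n + 1)) →+* T.K} (H : U.Ok y τ) (i : Fin (n + 1)) :
    mw (τ.comp (V.vxR i)) U.mu = mu' (y.v i) :=
  (mu'_vtx _ _ _).symm.trans (congrArg mu' (H.vtx i)).symm

theorem ok_TI {τ : V.Coch (Fin (n + 1)) →+* T.K} (H : U.Ok y τ) (i j : Fin (n + 1)) :
    mw (PH.lift (τ.comp (algebraMap (A'.Gam _) _))) (Θ.TI U.act i j) =
      nu' (y.v i) * mu' (y.v j) := by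
  rw [← ok_mu H j, vx_mu U τ i j, ok_mu H i, ← Matrix.mul_assoc, (iso_nf (y.nf i)).nm,
    Matrix.one_mul]

variable [IsAdicComplete A'.m (RR c K)]

/-- a point of the ring of scalar cochains gives a compatible point -/
theorem ok_of (t : A'.Gam (Fin (n + 1)) →+* T.K) (h0 : ∀ e, t e ∈ T.F.F 0)
    (hC : ∀ i a, t (A'.vx i (C a)) = y.x.1 a) (hX : ∀ l, t (A'.vx 0 (X l)) = yv (y.v 0) l)
    (hT : ∀ j, mw (PH.lift t) (Θ.TI U.act 0 j) = nu' (y.v 0) * mu' (y.v j)) : ∃ τ, U.Ok y τ := by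
  obtain ⟨b, b1, b2, -⟩ := U.lift T.K (t.comp (A'.vx 0)) (mu' (y.v 0)) (nu' (y.v 0)) (by
    rw [show (fun j => (t.comp (A'.vx 0)) (X j)) = yv (y.v 0) from funext hX]
    exact iso_nf (y.nf 0))
  obtain ⟨τ, t1, t2⟩ := Act.Mod.ring_lift (V := V) 0 t b b1
  have e : ∀ i, mw (τ.comp (V.vxR i)) U.mu = mu' (y.v i) := fun i => by
    rw [vx_mu U τ 0 i, show τ.comp (V.vxR 0) = b from RingHom.ext t2,
      show τ.comp (algebraMap _ _) = t from RingHom.ext t1, b2, hT, ← Matrix.mul_assoc,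
      (iso_nf (y.nf 0)).mn, Matrix.one_mul]
  refine ⟨τ, fun e => (t1 e).symm ▸ h0 e, fun i a => by rw [V.vxR_alg, t1, hC], fun i => ?_⟩
  have := iso_map U (τ.comp (V.vxR i))
  rw [e i] at this ⊢
  rw [this.inv_eq (iso_nf (y.nf i))]
  exact eq_vtx (y.nf i)

end Exu

open Exu

variable (p) in
theorem exu : EXU p := by
  intro H _ hE hU hJ hR h c h1 hc k _ D hD K _ _ _ ι A hA Θ A' _ AA _ _ _ V _ U m T hT y
  obtain ⟨J1, J2, J3, -⟩ := hJ h c h1 hc K
  have : Pf p T.F.zero := Pf.subring _ fun x hx => T.F.root (t := 0) (by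
    rw [rt_pow, mul_zero]
    exact hx)
  let x : Fin (m + 1) → Fin c → T.F.zero := fun i j => ⟨yv (y.v i) j, J1 T _ (y.nf i) j⟩
  obtain ⟨E, _, _, _, hc, hs, hi⟩ := H.cpl T.F.zero (Ideal.span (Set.range (x 0)))
    (Submodule.fg_span (Set.finite_range _))
  set J := (Ideal.span (Set.range (x 0))).map (algebraMap T.F.zero E)
  have hx : ∀ i l, algebraMap T.F.zero E (x i l) ∈ J.radical := fun i l => by
    obtain ⟨z, z1, z2⟩ := J2 T _ _ (y.nf 0) (y.nf i) (y.ok 0 i) (y.ok i 0)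
      (J.radical.comap (algebraMap T.F.zero E)) (J.radical_isRadical.comap _)
      (fun j => ⟨x 0 j, Ideal.le_radical (Ideal.mem_map_of_mem _
        (Ideal.subset_span ⟨j, rfl⟩)), rfl⟩) l
    rwa [show x i l = z from Subtype.ext z2.symm]
  have cov : ∀ Q : (T' : FP p (ZMod p)) → T.Hom T' → Prop,
      (∀ T' f, FP.Over f E → Q T' f) → FLoc T fun T' f => (∃ ψ, (LY p (ZMod p) h c K).psi.ok
        (((Y p (ZMod p) h c K).Z m).map f y) ψ) ∨ Q T' f := fun Q hQ =>
    .iso (Fin c) (x 0) E hs hi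
      (fun T' f _ o => .here (Or.inr (hQ _ _ ⟨o.ψ, o.mem, o.alg⟩))) fun T' f e ⟨j, t, ht, e'⟩ =>
      (J3 m T' e (((Y p (ZMod p) h c K).Z m).map f y) 0 j
        ⟨t, ht, (congrArg (· * t) (yv_map f _ j)).trans e'⟩).mono fun _ _ => Or.inl
  have ho : ∀ {T' : FP p (ZMod p)} {f : T.Hom T'} (o : FP.Over f E),
      o.ψ.comp (algebraMap T.F.zero E) = f.r.comp T.F.zero.subtype := fun o => RingHom.ext o.alg
  refine ⟨cov _ fun T' f o => ?_, fun τ τ' H1 H2 => cov _ fun T' f o => ?_⟩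
  · choose W hW using fun i j => C1.Un.MW_iff.1 (mw_nm (y.nf i) (y.nf j) (y.ok i j))
    replace hW : ∀ i j, mw T.F.zero.subtype (W i j) = _ := hW
    have w1 : ∀ i j l, W i j * W j l = W i l := fun i j l => C1.Un.map_inj (by
      show mw _ _ = mw _ _
      rw [mw_mul, hW, hW, hW, Matrix.mul_assoc, ← Matrix.mul_assoc (mu' _), (iso_nf (y.nf j)).mn,
        Matrix.one_mul])
    have w2 : ∀ i, W i i = 1 := fun i => C1.Un.map_inj (by
      show mw _ _ = mw _ _
      rw [hW, mw_one, (iso_nf (y.nf i)).nm])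
    have w3 : ∀ i j, Itw (Au p (h + c) (uy h (x i))) (W i j) (Au p (h + c) (uy h (x j))) :=
      fun i j => C1.Un.map_inj (by
        show mw _ _ = mw _ _
        rw [mw_mul, mw_mul, mw_si, hW, mw_Au, mw_Au, uy_map, uy_map]
        exact itw_nm (y.nf i) (y.nf j))
    obtain ⟨t, t1, t2, t3⟩ := hE h c h1 k D hD K ι A hA Θ _ _ A' U.act (Fin (m + 1)) E
      ((algebraMap T.F.zero E).comp ((y.x.1 : K →+* T.K).codRestrict T.F.zero y.x.2)) J
      (fun i l => algebraMap T.F.zero E (x i l)) (fun i j => mw (algebraMap T.F.zero E) (W i j))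
      (fun i j => mw (algebraMap T.F.zero E) (W j i)) hx
      (fun i j => by rw [← mw_mul, w1, w2, mw_one]) (fun i j => by
        have := congrArg (mw (algebraMap T.F.zero E)) (w3 i j)
        rwa [mw_mul, mw_mul, mw_si, mw_Au, mw_Au, uy_map, uy_map] at this)
      fun i j l => by rw [← mw_mul, w1]
    refine ok_of (o.ψ.comp t) (fun e => o.mem _) (fun i a => ?_) (fun l => ?_) fun j => ?_
    · exact (congrArg o.ψ (t1 i a)).trans (o.alg _)
    · exact (congrArg o.ψ (t2 0 l)).trans ((o.alg _).trans (yv_map f _ l).symm)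
    · rw [← comp_lift, ← mw_mw, show mw (PH.lift t) _ = _ from t3 0 j, mw_mw, ho, ← mw_mw, hW,
        mw_mul]
      rfl
  · change V.Coch (Fin (m + 1)) →+* T.K at τ τ'
    change U.Ok y τ at H1
    change U.Ok y τ' at H2
    let r : ∀ {τ : V.Coch (Fin (m + 1)) →+* T.K}, U.Ok y τ → A'.Gam (Fin (m + 1)) →+* T.F.zero :=
      fun {τ} H => (τ.comp (algebraMap _ _)).codRestrict T.F.zero H.gam
    have r0 : ∀ {τ} (H : U.Ok y τ) i a, (r H (A'.vx i (C a)) : T.K) = y.x.1 a := fun H i a =>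
      (congrArg _ (V.vxR_alg i _).symm).trans (H.base i a)
    have r1 : ∀ {τ} (H : U.Ok y τ) i l, r H (A'.vx i (X l)) = x i l := fun H i l => Subtype.ext
      ((congrArg _ (V.vxR_alg i _).symm).trans
        ((hR h c _ K A h1 Θ A' AA V U).1 m T y _ H |>.1 i l).symm)
    have r2 : ∀ {τ} (H : U.Ok y τ) i j, mw T.F.zero.subtype (mw (PH.lift (r H))
        (Θ.TI U.act i j)) = nu' (y.v i) * mu' (y.v j) := fun H i j => by
      rw [mw_mw, comp_lift]
      exact ok_TI H i j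
    have e := hU h c h1 k D hD K ι A hA Θ _ _ A' U.act (Fin (m + 1)) E J
      ((algebraMap T.F.zero E).comp (r H1)) ((algebraMap T.F.zero E).comp (r H2))
      (fun i a => congrArg (algebraMap T.F.zero E) (Subtype.ext ((r0 H1 i a).trans
        (r0 H2 i a).symm)))
      (fun i l => congrArg (algebraMap T.F.zero E) ((r1 H1 i l).trans (r1 H2 i l).symm))
      (fun i l => by rw [RingHom.comp_apply, r1 H1 i l]; exact hx i l) fun i j => by
        rw [← comp_lift, ← comp_lift]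
        exact congrArg (mw (algebraMap T.F.zero E))
          (C1.Un.map_inj ((r2 H1 i j).trans (r2 H2 i j).symm))
    have e' : ∀ a, f.r (τ (algebraMap (A'.Gam _) _ a)) = f.r (τ' (algebraMap _ _ a)) := fun a =>
      (o.alg (r H1 a)).symm.trans ((congrArg o.ψ (RingHom.congr_fun e a)).trans (o.alg (r H2 a)))
    refine Act.Mod.ring_ext 0 e' fun a => RingHom.congr_fun (U.ext T'.K
      (f.r.comp (τ.comp (V.vxR 0))) (f.r.comp (τ'.comp (V.vxR 0))) (fun r => ?_) ?_) a
    · simp only [RingHom.comp_apply, V.vxR_alg]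
      exact e' _
    · exact congrArg (mw f.r) ((ok_mu H1 0).trans (ok_mu H2 0).symm)

end P261.C2
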