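import Vale.Agent.P261Z.C2.MC
import Vale.Agent.P261Z.Cs.All

/-!
# P261Z, block C2: local existence of vertices gives almost acyclic complexes
-/

noncomputable section

namespace P261.C2

open Function

variable {p : ℕ} [Fact p.Prime] {k : Type} [Field k]

/-- configuration functors in two variables -/
structure BCF (p : ℕ) [Fact p.Prime] (k : Type) [Field k] : Type 1 where
  /-- the configurations -/
  Z : ℕ → ℕ → PF p k
  /-- restriction -/
  res : ∀ {m m' n n' : ℕ} {T : FP p k}, (Fin (m + 1) → Fin (m' + 1)) → (Fin (n + 1) → Fin (n' + 1)) →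
    (Z m' n').obj T → (Z m n).obj T
  res_id : ∀ {m n : ℕ} {T : FP p k} (z : (Z m n).obj T), res id id z = z
  res_comp : ∀ {l m n l' m' n' : ℕ} {T : FP p k} (f : Fin (l + 1) → Fin (m + 1))
    (g : Fin (m + 1) → Fin (n + 1)) (f' : Fin (l' + 1) → Fin (m' + 1)) (g' : Fin (m' + 1) → Fin (n' + 1))
    (z : (Z n n').obj T), res (g ∘ f) (g' ∘ f') z = res f f' (res g g' z)
  res_map : ∀ {m m' n n' : ℕ} {T T' : FP p k} (φ : T.Hom T') (f : Fin (m + 1) → Fin (m' + 1))
    (g : Fin (n + 1) → Fin (n' + 1)) (z : (Z m' n').obj T),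
    res f g ((Z m' n').map φ z) = (Z m n).map φ (res f g z)
  /-- the configurations on which cochains vanish -/
  Full : ∀ {m n : ℕ} {T : FP p k}, (Z m n).obj T → Prop
  full_res : ∀ {m m' n n' : ℕ} {T : FP p k} (f : Fin (m + 1) → Fin (m' + 1))
    (g : Fin (n + 1) → Fin (n' + 1)) {z : (Z m' n').obj T}, Full z → Full (res f g z)
  full_map : ∀ {m n : ℕ} {T T' : FP p k} (φ : T.Hom T') (z : (Z m n).obj T),
    Full ((Z m n).map φ z) ↔ Full z

namespace BCF

variable (C : BCF p k)

/-- the columns -/
def col (m : ℕ) : CF p k where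
  Z n := C.Z m n
  res g z := C.res id g z
  res_id z := C.res_id z
  res_comp f g z := C.res_comp id id f g z
  res_map φ f z := C.res_map φ id f z
  Full z := C.Full z
  full_res f _ h := C.full_res id f h
  full_map φ z := C.full_map φ z

/-- the diagonal -/
def diag : CF p k where
  Z n := C.Z n n
  res g z := C.res g g z
  res_id z := C.res_id z
  res_comp f g z := C.res_comp f g f g z
  res_map φ f z := C.res_map φ f f z
  Full z := C.Full z
  full_res f _ h := C.full_res f f h
  full_map φ z := C.full_map φ z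

/-- the natural functions -/
def bi : Cs.Bi.{1} k where
  X m n := (C.col m).Fn n
  map f g :=
    { toFun := fun x => ⟨fun T z => x.1 T (C.res f g z), fun T T' φ z =>
        (congrArg (x.1 T') (C.res_map φ f g z)).trans (x.2.1 T T' φ _),
        fun T _ hz => x.2.2 T _ (C.full_res f g hz)⟩
      map_add' := fun _ _ => rfl
      map_smul' := fun _ _ => rfl }
  map_id _ _ x := Subtype.ext (funext fun T => funext fun z => congrArg (x.1 T) (C.res_id z))
  map_comp f g f' g' x :=
    Subtype.ext (funext fun T => funext fun z => congrArg (x.1 T) (C.res_comp f g f' g' z))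

/-- the steps -/
def step (b : ℝ) : Cs.BiSub C.bi where
  S m n := ((C.col m).step b).S n
  stab _ _ _ hx T _ := hx T _

/-- almost acyclic columns give an almost acyclic diagonal -/
theorem aac (h : ∀ m, (C.col m).AAc) : C.diag.AAc := fun s β ε hβ hε => by
  have hd : 0 < ε / (s + 1) := by positivity
  have H := Cs.All.ghostsub k C.bi (fun i => C.step (β + i * (ε / (s + 1)))) s
    (fun i m n x hx T z => T.F.le (hx T z) (by push_cast; nlinarith))
    (fun i _ m j _ => by
      have h1 := h m j (β + i * (ε / (s + 1))) (ε / (s + 1)) (by positivity) hd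
      rw [show β + ((i + 1 : ℕ) : ℝ) * (ε / (s + 1)) = β + i * (ε / (s + 1)) + ε / (s + 1) by push_cast; ring]
      exact h1)
  rw [show β + ((0 : ℕ) : ℝ) * (ε / (s + 1)) = β by simp,
    show β + ((s + 1 : ℕ) : ℝ) * (ε / (s + 1)) = β + ε by push_cast; field_simp] at H
  exact H

end BCF

namespace FlocAux

variable (B : CF p k) {κ : Type} (D : κ → Dir B) (md : κ → Mode)

/-- the configurations with modes -/
def bcf : BCF p k where
  Z m n := (fconf B D m n).sub ⟨fun z => ∀ c i, (md c = .on → (FConf.w z c i).isSome = true) ∧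
      (md c = .off → ¬(FConf.w z c i).isSome = true), fun φ z h c i => by
    show (_ → ((FConf.w z c i).map _).isSome = true) ∧ (_ → ¬((FConf.w z c i).map _).isSome = true)
    rw [Option.isSome_map]
    exact h c i⟩
  res f g z := ⟨FConf.res f g z.1, fun c i => by
    show (_ → ((FConf.w z.1 c (g i)).map _).isSome = true) ∧
      (_ → ¬((FConf.w z.1 c (g i)).map _).isSome = true)
    rw [Option.isSome_map]
    exact z.2 c (g i)⟩
  res_id z := Subtype.ext (FConf.ext (B.res_id _) (funext fun c => funext fun _ => opt_id (D c).V.res_id _))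
  res_comp f g _ _ z := Subtype.ext (FConf.ext (B.res_comp f g _) (funext fun c => funext fun _ =>
    opt_comp ((D c).V.res_comp f g) _))
  res_map φ f _ z := Subtype.ext (FConf.ext (B.res_map φ f _) (funext fun c => funext fun _ =>
    opt_sq ((D c).V.res_map φ f) _))
  Full z := ∃ c, md c = .red ∧ ∀ i, (FConf.w z.1 c i).isSome = true
  full_res f g z := fun ⟨c, hc, h⟩ => ⟨c, hc, fun i => by
    show ((FConf.w z.1 c (g i)).map _).isSome = true
    rw [Option.isSome_map]
    exact h _⟩
  full_map φ z := exists_congr fun c => and_congr_right fun _ => forall_congr' fun i => by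
    show ((FConf.w z.1 c i).map _).isSome = true ↔ _
    rw [Option.isSome_map]

variable (m : ℕ)

/-- the vertices of the column -/
def vf : PF p k where
  obj T := (B.Z m).obj T × ∀ c, Option (((D c).V.Z m).obj T)
  map φ v := ((B.Z m).map φ v.1, fun c => (v.2 c).map (((D c).V.Z m).map φ))
  map_id T _ := Prod.ext ((B.Z m).map_id T _) (funext fun c => opt_id (((D c).V.Z m).map_id T) _)
  map_comp g f _ :=
    Prod.ext ((B.Z m).map_comp g f _) (funext fun c => opt_comp (((D c).V.Z m).map_comp g f) _)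

/-- the system of the column -/
def sys : Sys p k where
  X := B.Z m
  V := vf B D m
  ok1 b v := v.1 = b
  ok2 _ _ := True
  ok1_map φ _ _ h := congrArg ((B.Z m).map φ) h
  ok2_map _ _ _ h := h

variable {B D m}

open Classical in
/-- the vertex given by a compatible pair -/
def vtx {T : FP p k} (c : κ) (b : (B.Z m).obj T) (v : ((D c).V.Z m).obj T) : (vf B D m).obj T :=
  (b, update (fun _ => none) c (some v))

theorem vtx_self {T : FP p k} (c : κ) (b : (B.Z m).obj T) (v : ((D c).V.Z m).obj T) :
    (vtx c b v).2 c = some v := by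
  simp [vtx]

theorem vtx_map {T T' : FP p k} (φ : T.Hom T') (c : κ) (b : (B.Z m).obj T) (v : ((D c).V.Z m).obj T) :
    (vf B D m).map φ (vtx c b v) = vtx c ((B.Z m).map φ b) (((D c).V.Z m).map φ v) := by
  refine Prod.ext rfl (funext fun c' => ?_)
  show ((vtx c b v).2 c').map _ = _
  by_cases h : c' = c
  · subst h
    rw [vtx_self, vtx_self]
    rfl
  · simp [vtx, h]

variable (B D m) in
/-- the colours -/
def clr (c : κ) : Col (sys B D m).V where
  P u := ∃ b v, (D c).ok b v ∧ u = vtx c b v
  map φ _ := fun ⟨b, v, h, e⟩ => ⟨_, _, (D c).ok_map φ h, e ▸ vtx_map φ c b v⟩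

variable (B D m) in
/-- from the column to the system -/
def toS : ((bcf B D md).col m).Map ((sys B D m).cf (clr B D m) md) where
  f z := ⟨FConf.b z.1, fun c i => (FConf.w z.1 c i).map (vtx c (FConf.b z.1)), fun c i v h => by
      obtain ⟨u, hu, rfl⟩ := Option.map_eq_some_iff.1 h
      exact ⟨⟨_, u, FConf.ok z.1 c i u hu, rfl⟩, rfl⟩, fun _ _ _ _ _ _ _ _ => trivial,
    fun c i h => Option.isSome_map.trans ((z.2 c i).1 h), fun c i h => by
      rw [Option.not_isSome_iff_eq_none.1 ((z.2 c i).2 h)]
      rfl⟩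
  map φ z := Sys.Conf.ext rfl (funext fun c => funext fun _ => opt_sq (fun v => (vtx_map φ c _ v).symm) _)
  res g z := Sys.Conf.ext (B.res_id _) (funext fun c => funext fun i => by
    show ((FConf.w z.1 c (g i)).map ((D c).V.res id)).map (vtx c (B.res id (FConf.b z.1))) = _
    rw [opt_id (D c).V.res_id, B.res_id]
    rfl)
  full _ := fun ⟨c, hc, h⟩ => ⟨c, hc, fun i => Option.isSome_map.trans (h i)⟩

theorem some_bind {n : ℕ} {T : FP p k} (z : (sys B D m).Conf (clr B D m) md n T) (c : κ) (i : Fin n) :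
    ((z.w c i).bind fun u => u.2 c).isSome = (z.w c i).isSome := by
  cases h : z.w c i with
  | none => rfl
  | some u =>
    obtain ⟨⟨b, v, -, rfl⟩, -⟩ := z.col c i u h
    exact congrArg Option.isSome (vtx_self c b v)

variable (B D m) in
/-- from the system to the column -/
def ofS : ((sys B D m).cf (clr B D m) md).Map ((bcf B D md).col m) where
  f z := ⟨⟨Sys.Conf.x z, fun c i => (Sys.Conf.w z c i).bind fun u => u.2 c, fun c i v h => by
      obtain ⟨u, hu, hv⟩ := Option.bind_eq_some_iff.1 h
      obtain ⟨⟨b, v', hok, rfl⟩, e⟩ := Sys.Conf.col z c i u hu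
      rw [vtx_self] at hv
      cases hv
      exact (show b = Sys.Conf.x z from e) ▸ hok⟩, fun c i =>
    ⟨fun h => (some_bind md z c i).trans (Sys.Conf.on z c i h), fun h e => by
      have h1 := (some_bind md z c i).symm.trans e
      rw [Sys.Conf.off z c i h] at h1
      cases h1⟩⟩
  map φ z := Subtype.ext (FConf.ext rfl (funext fun c => funext fun i => by
    show ((Sys.Conf.w z c i).map _).bind _ = ((Sys.Conf.w z c i).bind _).map _
    cases Sys.Conf.w z c i <;> rfl))
  res g z := Subtype.ext (FConf.ext (B.res_id _).symm (funext fun c => funext fun _ =>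
    (opt_id (D c).V.res_id _).symm))
  full z := fun ⟨c, hc, h⟩ => ⟨c, hc, fun i => (some_bind md z c i).trans (h i)⟩

theorem rp (H : SH p k) (hF : FREP p k) [Finite κ] (hB : (B.Z m).FRep) (hD : ∀ c, (D c).Rp) :
    (sys B D m).Rp (clr B D m) where
  fin := inferInstance
  base := hB
  col c := (H.rep1 H.pf).2.2.1 ((D c).pair.Z m) _
    ⟨fun z => ⟨vtx c z.1.1 z.1.2, _, _, z.2, rfl⟩, fun φ _ => Subtype.ext (vtx_map φ c _ _).symm⟩
    (fun _ => ⟨fun z z' e => by
      have e1 : vtx c z.1.1 z.1.2 = vtx c z'.1.1 z'.1.2 := congrArg Subtype.val e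
      have e2 := congrArg (fun u => u.2 c) e1
      simp only [vtx_self, Option.some.injEq] at e2
      exact Subtype.ext (Prod.ext (congrArg (fun u => u.1) e1) e2),
      fun ⟨_, b, v, h, e⟩ => ⟨⟨(b, v), h⟩, Subtype.ext e.symm⟩⟩) (hD c m)
  ok1 c := (H.cut ((B.Z m).prod (B.Z m))).2.2.2.2.2.2.2.2.1
    ((sys B D m).X.prod ((sys B D m).V.sub (clr B D m c))) ⟨fun z => (z.2.1.1, z.1), fun _ _ => rfl⟩ _
    ((hF H).1 _ hB)
  ok2 _ _ := (H.cut _).1 _ fun _ _ _ _ => Iff.rfl

end FlocAux

open FlocAux in
theorem floc : FLOC p k := by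
  intro H hF B κ _ D md hB hD h
  classical
  refine (bcf B D md).aac fun m => ?_
  obtain ⟨d⟩ := H.retract _ _ (CF.Act.triv _) (CF.Act.triv _) (toS B D md m) (ofS B D md m)
    (fun n T z => Subtype.ext (FConf.ext rfl (funext fun c => funext fun i => by
      show ((FConf.w z.1 c i).map _).bind _ = _
      cases FConf.w z.1 c i
      · rfl
      · exact vtx_self ..))) fun _ _ _ _ _ => rfl
  refine (H.domg _ _ d).2.2.1 ?_
  refine H.secloc H.pf (sys B D m) κ (clr B D m) md (fun c => md c = .red) (rp H hF (hB m) hD)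
    fun n T w e z => (h m T w e z.x fun c hc => ?_).mono ?_
  · obtain ⟨u, hu⟩ := Option.isSome_iff_exists.1 (z.on c 0 (by simp [Sys.drop, hc]))
    obtain ⟨⟨b, v, hok, rfl⟩, e⟩ := z.col c 0 u hu
    exact ⟨v, (show b = z.x from e) ▸ hok⟩
  · rintro T' f ⟨c, hc, v, hv⟩
    exact ⟨c, hc, hc, vtx c _ v, ⟨⟨_, v, hv, rfl⟩, rfl, fun _ _ _ _ => ⟨trivial, trivial⟩⟩, trivial,
      fun _ _ _ _ _ _ _ => ⟨trivial, trivial⟩⟩

end P261.C2
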