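import Vale.Agent.P261Z.C2.MC
import Vale.Agent.P261Z.S.Rep2

/-!
# P261Z, block C2: representability
-/

noncomputable section

namespace P261.C2

open Function SS.R44

variable {p : ℕ} [Fact p.Prime] {k : Type} [Field k]

namespace F44

section Eq

variable {X : PF p k} {ι : Type} (r : X.MRep ι)

/-- the point comes from the piece `i` -/
def Has (i : ι) {T : FP p k} (x : X.obj T) : Prop := ∃ φ : (r.U i).Hom T, X.map φ (r.u i) = x

theorem uniq {i j : ι} {T : FP p k} {φ : (r.U i).Hom T} {φ' : (r.U j).Hom T}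
    (h : X.map φ (r.u i) = X.map φ' (r.u j)) : (⟨i, φ⟩ : Σ i, (r.U i).Hom T) = ⟨j, φ'⟩ :=
  (r.lift T _).unique h rfl

theorem has_map (i : ι) {T T' : FP p k} (ψ : T.Hom T') (x : X.obj T) :
    Has r i (X.map ψ x) ↔ Has r i x := by
  refine ⟨fun ⟨φ, h⟩ => ?_, fun ⟨φ, h⟩ => ⟨ψ.comp φ, (X.map_comp _ _ _).trans (congrArg _ h)⟩⟩
  obtain ⟨⟨j, φ'⟩, h', -⟩ := r.lift T x
  obtain rfl : i = j := congrArg Sigma.fst (uniq r (φ' := ψ.comp φ')
    (h.trans ((X.map_comp _ _ _).trans (congrArg _ h')).symm))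
  exact ⟨φ', h'⟩

open Classical in
/-- the coordinates -/
def crd (i : ι) (a : (r.U i).K) : X.Nf where
  f x := if h : Has r i x then h.choose.f a else 0
  map ψ x := by
    by_cases h : Has r i x
    · have h' := (has_map r i ψ x).2 h
      rw [dif_pos h, dif_pos h', eq_of_heq (Sigma.mk.inj (uniq r (φ := h'.choose)
        (φ' := ψ.comp h.choose) (h'.choose_spec.trans
          ((X.map_comp _ _ _).trans (congrArg _ h.choose_spec)).symm))).2]
      rfl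
    · rw [dif_neg h, dif_neg fun h' => h ((has_map r i ψ x).1 h'), map_zero]

theorem eq_of {T : FP p k} {x x' : X.obj T} (h1 : ∀ i, Has r i x ↔ Has r i x')
    (h2 : ∀ a : Σ i, (r.U i).K, (crd r a.1 a.2).f x = (crd r a.1 a.2).f x') : x = x' := by
  obtain ⟨⟨i, φ⟩, h, -⟩ := r.lift T x
  have h3 : Has r i x := ⟨φ, h⟩
  have h4 := (h1 i).1 h3
  rw [← h3.choose_spec, ← h4.choose_spec]
  refine congrArg (fun ψ => X.map ψ (r.u i)) (FP.Hom.ext (AlgHom.ext fun a => ?_))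
  exact (dif_pos h3).symm.trans ((h2 ⟨i, a⟩).trans (dif_pos h4))

end Eq

/-- pull back of natural functions -/
def pull {X Y : PF p k} (t : Y.Tr X) (g : X.Nf) : Y.Nf :=
  ⟨fun y => g.f (t.f y), fun φ y => (congrArg g.f (t.map φ y)).trans (g.map φ _)⟩

variable (H : SH p k)
include H

theorem eqcut {X : PF p k} (h : X.FRep) : (X.prod X).Cut fun z => z.1 = z.2 := by
  obtain ⟨ι, -, ⟨r⟩⟩ := h
  refine (H.cut _).2.2.2.2.2.2.2.1 _ _ (fun T z => ⟨fun h => eq_of r h.1 h.2,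
    fun h => ⟨fun i => (congrArg (Has r i) h).to_iff, fun a => congrArg (crd r a.1 a.2).f h⟩⟩)
    ((H.cut _).2.2.2.1 _ _ ((H.cut _).1 _ fun T T' φ z => forall_congr' fun i =>
      iff_congr (has_map r i φ _) (has_map r i φ _)) ((H.cut _).2.2.2.2.1 _ _ fun a : Σ i, (r.U i).K =>
        (H.cut _).2.2.1 (pull (X.fst X) (crd r a.1 a.2)) (pull (X.snd X) (crd r a.1 a.2))))

theorem eqcut' {X Z : PF p k} (h : X.FRep) (t t' : Z.Tr X) : Z.Cut fun z => t.f z = t'.f z := by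
  have := comap H.cut Z ⟨fun z => (t.f z, t'.f z), fun φ z =>
    congrArg₂ Prod.mk (t.map φ z) (t'.map φ z)⟩ (eqcut H h)
  exact this

theorem units {X : PF p k} {J : Type} (g : J → X.Nf) (Q : Col X) (hX : X.FRep)
    (hQ : ∀ (T : FP p k) (x : X.obj T), Q.P x ↔ ∀ j, ∃ t ∈ T.F.F 0, (g j).f x * t = 1) :
    (X.sub Q).FRep := by
  let A : Col (PF.free p k J) := ⟨fun {T} y => ∀ j, y j ∈ T.F.F 0, fun φ _ h j => φ.mem _ _ (h j)⟩
  have hA : ((PF.free p k J).sub A).FRep := (H.rep0 H.pf).2.2.2 _ J ⟨fun y => y, fun _ _ => rfl⟩ A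
    (fun _ => injective_id) (fun _ v _ => ⟨v, rfl⟩) ((H.cut _).2.2.2.2.1 _ _ fun j =>
      (H.cut (PF.free p k J)).2.1 ⟨fun y => y j, fun _ _ => rfl⟩ 0) fun j => ⟨0, fun _ _ h => h j⟩
  let e : J → (X.prod ((PF.free p k J).sub A)).Nf := fun j =>
    ⟨fun z => (g j).f z.1 * z.2.1 j, fun φ z =>
      (congrArg (· * φ.f (z.2.1 j)) ((g j).map φ z.1)).trans (map_mul φ.f _ _).symm⟩
  let W : Col (X.prod ((PF.free p k J).sub A)) := ⟨fun z => ∀ j, (e j).f z = 1, fun φ z h j =>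
    ((e j).map φ z).trans ((congrArg φ.f (h j)).trans (map_one _))⟩
  refine (H.rep1 H.pf).2.2.1 ((X.prod _).sub W) _ ⟨fun {T} z => ⟨z.1.1, (hQ T _).2 fun j =>
    ⟨z.1.2.1 j, z.1.2.2 j, z.2 j⟩⟩, fun _ _ => rfl⟩ (fun T => ⟨fun z z' h => ?_, fun x => ?_⟩)
    ((H.rep1 H.pf).2.1 _ W ((H.rep1 H.pf).1 _ _ hX hA) ((H.cut _).2.2.2.2.1 _ _ fun j =>
      (H.cut _).2.2.1 (e j) ⟨fun _ => 1, fun φ _ => (map_one φ.f).symm⟩))
  · have h1 : z.1.1 = z'.1.1 := congrArg Subtype.val h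
    refine Subtype.ext (Prod.ext h1 (Subtype.ext (funext fun j => ?_)))
    have h2 : (g j).f z.1.1 * z.1.2.1 j = 1 := z.2 j
    have h3 : (g j).f z'.1.1 * z'.1.2.1 j = 1 := z'.2 j
    rw [← h1] at h3
    exact left_inv_eq_right_inv ((mul_comm _ _).trans h2) h3
  · choose t ht ht' using (hQ T x.1).1 x.2
    exact ⟨⟨(x.1, ⟨t, ht⟩), ht'⟩, rfl⟩

theorem bc_rp {B B' : CF p k} (t : B'.Map B) (D : Dir B) (hB : ∀ m, (B.Z m).FRep)
    (hB' : ∀ m, (B'.Z m).FRep) (hD : D.Rp) : (D.bc t).Rp := fun m => by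
  let W : Col ((B'.Z m).prod (D.pair.Z m)) := ⟨fun z => t.f z.1 = z.2.1.1, fun φ z h =>
    (t.map φ z.1).trans (congrArg ((B.Z m).map φ) h)⟩
  refine iso' H.rep1 H.pf (Y := (PF.prod _ _).sub W)
    ⟨fun z => ⟨(z.1.1, ⟨(t.f z.1.1, z.1.2), z.2⟩), rfl⟩, fun φ z => Subtype.ext
      (Prod.ext rfl (Subtype.ext (Prod.ext (t.map φ z.1.1) rfl)))⟩
    (fun T => ⟨fun z z' h => ?_, fun z => ?_⟩) ((H.rep1 H.pf).2.1 _ W
      ((H.rep1 H.pf).1 _ _ (hB' m) (hD m)) (eqcut' H (Z := (B'.Z m).prod (D.pair.Z m)) (hB m)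
        ⟨fun z => t.f z.1, fun φ z => t.map φ z.1⟩ ⟨fun z => z.2.1.1, fun _ _ => rfl⟩))
  · have h1 := congrArg Subtype.val h
    exact Subtype.ext (Prod.ext (congrArg (fun w => w.1) h1 :) (congrArg (fun w => w.2.1.2) h1 :))
  · obtain ⟨⟨b', ⟨b, v⟩, h1⟩, h2⟩ := z
    obtain rfl : t.f b' = b := h2
    exact ⟨⟨(b', v), h1⟩, rfl⟩

theorem psi_rp {B : CF p k} {ι : Type} [Finite ι] (L : Lab B ι)
    (g : ∀ m, ι → Fin (m + 1) → (B.Z m).Nf) (hB : ∀ m, (B.Z m).FRep)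
    (hg : ∀ j m (T : FP p k) (b : (B.Z m).obj T) i,
      L.U j b i ↔ ∃ t ∈ T.F.F 0, (g m j i).f b * t = 1) : L.psi.Rp := fun m => by
  refine (H.rep1 H.pf).2.2.2 _ (Fin (m + 1) → ι) (fun z => z.1.2) (fun _ _ _ _ => rfl) fun ψ => ?_
  let Q : Col (B.Z m) := ⟨fun b => ∀ i, L.U (ψ i) b i, fun φ _ h i => L.U_map _ φ (h i)⟩
  refine (H.rep1 H.pf).2.2.1 ((B.Z m).sub Q) _ ⟨fun b => ⟨⟨(b.1, ψ), b.2⟩, rfl⟩, fun _ _ => rfl⟩
    (fun T => ⟨fun b b' h => Subtype.ext (congrArg (fun w => w.1.1.1) h), fun z => ?_⟩)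
    (units H (fun i => g m (ψ i) i) Q (hB m) fun T b => forall_congr' fun i => hg _ m T b i)
  obtain ⟨⟨⟨b, ψ'⟩, h1⟩, h2⟩ := z
  obtain rfl : ψ' = ψ := h2
  exact ⟨⟨b, h1⟩, rfl⟩

theorem fconf_rep {B : CF p k} {κ : Type} [Finite κ] (D : κ → Dir B) (hB : ∀ m, (B.Z m).FRep)
    (hD : ∀ c, (D c).Rp) (m n : ℕ) : (fconf B D m n).FRep := by
  let Z := (B.Z m).prod (pi fun a : κ × Fin (n + 1) => opt ((D a.1).pair.Z m))
  let W : Col Z := ⟨fun z => ∀ a y, z.2 a = some y → z.1 = y.1.1, fun φ z h a y hy => by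
    obtain ⟨u, hu, rfl⟩ := Option.map_eq_some_iff.1 hy
    exact congrArg ((B.Z m).map φ) (h a u hu)⟩
  refine (H.rep1 H.pf).2.2.1 (Z.sub W) _ ⟨fun z => ⟨z.1.1,
    fun c i => Option.map (fun y => y.1.2) (z.1.2 (c, i)), fun c i v hv => ?_⟩,
    fun φ z => FConf.ext rfl (funext fun c => funext fun i => ?_)⟩
    (fun T => ⟨fun z z' h => ?_, fun z => ⟨⟨(z.b, fun a => (z.w a.1 a.2).pmap
      (fun v h => ⟨(z.b, v), h⟩) (z.ok a.1 a.2)), fun a y hy => ?_⟩,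
      FConf.ext rfl (funext fun c => funext fun i => ?_)⟩⟩)
    ((H.rep1 H.pf).2.1 _ W ((H.rep1 H.pf).1 _ _ (hB m) (pi_rep H.rep1 H.rep0 H.pf _ _ fun a =>
      opt_rep H.rep1 H.rep0 H.pf (hD a.1 m))) ((H.cut _).2.2.2.2.1 _ _ fun a => ?_))
  · obtain ⟨u, hu, rfl⟩ := Option.map_eq_some_iff.1 hv
    exact (z.2 _ u hu).symm ▸ u.2
  · have : ∀ o : Option (((D c).pair.Z m).obj _), (o.map (((D c).pair.Z m).map φ)).map
        (fun y => y.1.2) = (o.map fun y => y.1.2).map (((D c).V.Z m).map φ) :=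
      fun o => by cases o <;> rfl
    exact this _
  · have h1 : z.1.1 = z'.1.1 := congrArg FConf.b h
    refine Subtype.ext (Prod.ext h1 (funext fun a => ?_))
    have key : ∀ o o' : Option (((D a.1).pair.Z m).obj T), (∀ y, o = some y → z.1.1 = y.1.1) →
        (∀ y, o' = some y → z'.1.1 = y.1.1) →
        o.map (fun y => y.1.2) = o'.map (fun y => y.1.2) → o = o' := by
      rintro (_ | y) (_ | y') h2 h3 h4
      · rfl
      · cases h4
      · cases h4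
      · exact congrArg some (Subtype.ext (Prod.ext ((h2 y rfl).symm.trans (h1.trans (h3 y' rfl)))
          (Option.some_injective _ h4)))
    exact key _ _ (z.2 a) (z'.2 a) (congrArg (fun w => FConf.w w a.1 a.2) h)
  · obtain ⟨v, _, rfl⟩ := Option.pmap_eq_some_iff.1 hy |>.imp fun _ h => h.imp fun _ h => h.2
    rfl
  · have : ∀ (o : Option (((D c).V.Z m).obj T)) (h : ∀ v, o = some v → (D c).ok z.b v),
        (o.pmap (fun v h => (⟨(z.b, v), h⟩ : ((D c).pair.Z m).obj T)) h).map (fun y => y.1.2) = o :=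
      fun o h => by cases o <;> rfl
    exact this _ _
  · exact optcut H.cut (Z := Z) (Y := (D a.1).pair.Z m) ⟨fun z => z.2 a, fun _ _ => rfl⟩
      (eqcut' H (Z := Z.prod ((D a.1).pair.Z m)) (hB m) ⟨fun z => z.1.1, fun _ _ => rfl⟩
        ⟨fun z => z.2.1.1, fun _ _ => rfl⟩)

end F44

open F44 in
theorem frep : FREP p k := fun H =>
  ⟨fun _ h => eqcut H h, fun _ g Q hX hQ => units H (fun _ : Unit => g) Q hX fun T x =>
    (hQ T x).trans ⟨fun h _ => h, fun h => h ()⟩, fun _ _ t D => bc_rp H t D,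
    fun _ _ _ L g => psi_rp H L g, fun B _ _ D hB hD _ m =>
      (H.rep1 H.pf).2.1 _ _ (fconf_rep H D hB hD m m) ((H.cut _).1 _ fun _ _ φ z =>
        forall₂_congr fun c i => and_congr (imp_congr_right fun _ => (fd B D).pres_map c φ z i)
          (imp_congr_right fun _ => not_congr ((fd B D).pres_map c φ z i)))⟩

end P261.C2
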