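import Vale.Agent.P261Z.C2.MC

/-!
# P261Z, block C2: marks at the points
-/

noncomputable section

namespace P261.C2

variable {p : ℕ} [Fact p.Prime] {k : Type} [Field k]

namespace Lb

variable {B : CF p k} {ι : Type} (L : Lab B ι)

/-- configurations with optional marks and optional families of marks -/
@[ext] structure LC (n : ℕ) (T : FP p k) where
  /-- the base -/
  b : (B.Z n).obj T
  /-- the marks -/
  χ : Fin (n + 1) → Option ι
  /-- the families -/
  w : Fin (n + 1) → Option (Fin (n + 1) → ι)
  hχ : ∀ i j, χ i = some j → L.U j b i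
  hw : ∀ i ψ, w i = some ψ → ∀ l, L.U (ψ l) b l

variable {L}

/-- change of the base -/
def LC.mp {n : ℕ} {T T' : FP p k} (z : LC L n T) (b : (B.Z n).obj T')
    (h : ∀ j i, L.U j z.b i → L.U j b i) : LC L n T' :=
  ⟨b, z.χ, z.w, fun i j e => h _ _ (z.hχ i j e), fun i ψ e l => h _ _ (z.hw i ψ e l)⟩

/-- restriction -/
def LC.res {m n : ℕ} {T : FP p k} (f : Fin (m + 1) → Fin (n + 1)) (z : LC L n T) : LC L m T where
  b := B.res f z.b
  χ i := z.χ (f i)
  w i := (z.w (f i)).map fun ψ => ψ ∘ f
  hχ i j e := L.U_res _ f (z.hχ _ j e)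
  hw i ψ e l := by
    obtain ⟨u, hu, rfl⟩ := Option.map_eq_some_iff.1 e
    exact L.U_res _ f (z.hw _ u hu _)

/-- erasing at the points of colour `false` -/
def ers {α β : Type} (col : α → Bool) (x : α → Option β) : α → Option β :=
  fun i => bif col i then x i else none

theorem ers_some {α β : Type} {col : α → Bool} {x : α → Option β} {i : α} {j : β}
    (h : ers col x i = some j) : x i = some j := by
  unfold ers at h
  cases hc : col i <;> simp_all

theorem ers_id {α β : Type} {col : α → Bool} {x : α → Option β}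
    (h : ∀ i, col i = false → ¬(x i).isSome) : ers col x = x := by
  funext i
  unfold ers
  cases hc : col i
  · exact (Option.not_isSome_iff_eq_none.1 (h i hc)).symm
  · rfl

theorem ers_isSome {α β : Type} (col : α → Bool) (x : α → Option β) (i : α) :
    (ers col x i).isSome ↔ (x i).isSome ∧ col i = true := by
  unfold ers
  cases col i <;> simp

/-- presence of the data -/
def LC.pres {n : ℕ} {T : FP p k} (z : LC L n T) (i : Fin (n + 1)) : Bool → Prop
  | false => (z.χ i).isSome
  | true => (z.w i).isSome

/-- erasing the data -/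
def LC.er {n : ℕ} {T : FP p k} (col : Fin (n + 1) → Bool) (z : LC L n T) : Bool → LC L n T
  | false => ⟨z.b, ers col z.χ, z.w, fun i j e => z.hχ i j (ers_some e), z.hw⟩
  | true => ⟨z.b, z.χ, ers col z.w, z.hχ, fun i j e => z.hw i j (ers_some e)⟩

variable (L) in
/-- the configuration functor with two directions -/
def M : MCF p k Bool where
  C :=
    { Z := fun n => ⟨LC L n, fun φ z => z.mp ((B.Z n).map φ z.b) fun j _ => L.U_map j φ,
        fun T _ => LC.ext ((B.Z n).map_id T _) rfl rfl,
        fun g f _ => LC.ext ((B.Z n).map_comp g f _) rfl rfl⟩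
      res := LC.res
      res_id := fun _ => LC.ext (B.res_id _) rfl (funext fun _ => opt_id (fun _ => rfl) _)
      res_comp := fun f g _ => LC.ext (B.res_comp f g _) rfl
        (funext fun _ => opt_comp (g := fun ψ => ψ ∘ f) (g' := fun ψ => ψ ∘ g) (fun _ => rfl) _)
      res_map := fun φ f _ => LC.ext (B.res_map φ f _) rfl rfl
      Full := fun _ => False
      full_res := fun _ _ h => h
      full_map := fun _ _ => Iff.rfl }
  pres c _ _ z i := LC.pres z i c
  pres_map c _ _ _ _ _ _ := by cases c <;> exact Iff.rfl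
  pres_res c _ _ _ f z i := by
    cases c
    · exact Iff.rfl
    · show ((LC.w z (f i)).map _).isSome ↔ _
      rw [Option.isSome_map]
      exact Iff.rfl
  er c _ _ col z := LC.er col z c
  er_map c _ _ _ _ _ _ := by cases c <;> rfl
  er_res c _ _ _ f col z := by
    cases c
    · rfl
    · refine LC.ext rfl rfl (funext fun i => ?_)
      show (bif col (f i) then Option.map _ _ else none) =
        Option.map _ (bif col (f i) then _ else none)
      cases col (f i) <;> rfl
  er_id c _ _ col z h := by
    cases c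
    · exact LC.ext rfl (ers_id h) rfl
    · exact LC.ext rfl rfl (ers_id h)
  pres_er c c' _ _ col z i := by
    cases c <;> cases c'
    · exact (ers_isSome _ _ _).trans (and_congr_right fun _ => by simp)
    · exact ⟨fun h => ⟨h, fun e => by simp at e⟩, fun h => h.1⟩
    · exact ⟨fun h => ⟨h, fun e => by simp at e⟩, fun h => h.1⟩
    · exact (ers_isSome _ _ _).trans (and_congr_right fun _ => by simp)

/-- the operators -/
def act {a : B.Act} (h : L.Stab a) : (M L).Act where
  a :=
    { e := fun s =>
        { f := fun z => LC.mp z ((a.e s).f (LC.b z)) fun j i => h j s _ _ _ i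
          map := fun φ _ => LC.ext ((a.e s).map φ _) rfl rfl
          res := fun g _ => LC.ext ((a.e s).res g _) rfl rfl
          full := fun _ h => h }
      one := fun n T _ => LC.ext (a.one n T _) rfl rfl
      mul := fun s t hs ht n T _ => LC.ext (a.mul s t hs ht n T _) rfl rfl }
  pres c _ _ _ _ _ := by cases c <;> exact Iff.rfl
  er c _ _ _ _ _ := by cases c <;> rfl

/-- the modes -/
def mm (x y : Mode) : Bool → Mode
  | false => x
  | true => y

theorem full_w {x : Mode} (hx : x ≠ .red) {n : ℕ} {T : FP p k}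
    {z : (((M L).cf (mm x .red)).Z n).obj T} :
    ((M L).cf (mm x .red)).Full z ↔ ∀ i, (LC.w z.1 i).isSome :=
  ⟨fun ⟨c, hc, h⟩ => by
    cases c
    · exact absurd hc hx
    · exact h, fun h => ⟨true, rfl, h⟩⟩

theorem full_χ {x : Mode} (hx : x ≠ .red) {n : ℕ} {T : FP p k}
    {z : (((M L).cf (mm .red x)).Z n).obj T} :
    ((M L).cf (mm .red x)).Full z ↔ ∀ i, (LC.χ z.1 i).isSome :=
  ⟨fun ⟨c, hc, h⟩ => by
    cases c
    · exact h
    · exact absurd hc hx, fun h => ⟨false, rfl, h⟩⟩

variable {a : B.Act} {q : ℕ}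

theorem off_red (H : SH p k) (h : L.Stab a) (hG : G1 h.psi q) :
    ((act h).fa (mm .off .red)).Good q := by
  let G : ((M L).cf (mm .off .red)).Map ((fd B fun _ : Unit => L.psi).cf fun _ => .red) :=
    { f := fun z => ⟨⟨LC.b z.1, fun _ i => LC.w z.1 i, fun _ i => LC.hw z.1 i⟩,
        fun _ _ => ⟨nofun, nofun⟩⟩
      map := fun _ _ => Subtype.ext (FConf.ext rfl (funext fun _ => funext fun _ =>
        (opt_id (fun _ => rfl) _).symm))
      res := fun _ _ => rfl
      full := fun _ hz => ⟨(), rfl, (full_w (x := .off) nofun).1 hz⟩ }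
  let F : ((fd B fun _ : Unit => L.psi).cf fun _ => .red).Map ((M L).cf (mm .off .red)) :=
    { f := fun z => ⟨⟨FConf.b z.1, fun _ => none, FConf.w z.1 (), nofun, FConf.ok z.1 ()⟩,
        fun c _ => by
          cases c
          · exact ⟨nofun, fun _ => nofun⟩
          · exact ⟨nofun, nofun⟩⟩
      map := fun _ _ => Subtype.ext (LC.ext rfl rfl (funext fun _ => opt_id (fun _ => rfl) _))
      res := fun _ _ => rfl
      full := fun _ ⟨_, _, hz⟩ => (full_w (x := .off) nofun).2 hz }
  obtain ⟨d⟩ := H.retract _ _ ((act h).cf _) ((fdAct fun _ => h.psi).cf _) G F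
    (fun _ _ z => Subtype.ext (LC.ext rfl (funext fun i =>
      (Option.not_isSome_iff_eq_none.1 ((z.2 false i).2 rfl)).symm) rfl))
    fun _ _ _ _ _ => Subtype.ext (FConf.ext rfl (funext fun _ => funext fun _ =>
      (opt_id (fun _ => rfl) _).symm))
  exact (H.domg _ _ d).2.2.2 q hG

theorem on_red (H : SH p k) (hc : CTR p k) : ((M L).cf (mm .on .red)).AAc := by
  refine hc H _ (fun n T col z => ⟨⟨LC.b z.1, LC.χ z.1, fun i => bif col i then
    some (fun l => (LC.χ z.1 l).get ((z.2 false l).1 rfl)) else LC.w z.1 i, LC.hχ z.1,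
      fun i ψ e l => ?_⟩, fun c i => ?_⟩) (fun _ _ _ _ _ _ => rfl) (fun m n T f col z => ?_)
    (fun n T col z hz => (full_w (x := .on) nofun).2 fun i => ?_) (fun _ _ _ => rfl)
    fun _ _ _ => (full_w (x := .on) nofun).2 fun _ => rfl
  · cases hi : col i <;> rw [hi] at e
    · exact LC.hw z.1 i ψ e l
    · obtain rfl := Option.some.inj e
      exact LC.hχ z.1 l _ (Option.some_get _).symm
  · cases c
    · exact z.2 false i
    · exact ⟨nofun, nofun⟩
  · refine Subtype.ext (LC.ext rfl rfl (funext fun i => ?_))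
    show (bif col (f i) then some _ else Option.map _ _) =
      Option.map _ (bif col (f i) then some _ else _)
    cases col (f i) <;> rfl
  · show (bif col i then some _ else LC.w z.1 i).isSome
    cases col i
    · exact (full_w (x := .on) nofun).1 hz i
    · rfl

theorem red_on (H : SH p k) (hc : CTR p k) : ((M L).cf (mm .red .on)).AAc := by
  refine hc H _ (fun n T col z => ⟨⟨LC.b z.1, fun i => bif col i then
    (LC.w z.1 i).map (fun ψ => ψ i) else LC.χ z.1 i, LC.w z.1, fun i j e => ?_, LC.hw z.1⟩,
      fun c i => ?_⟩) (fun _ _ _ _ _ _ => rfl) (fun m n T f col z => ?_)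
    (fun n T col z hz => (full_χ (x := .on) nofun).2 fun i => ?_) (fun _ _ _ => rfl)
    fun _ _ z => (full_χ (x := .on) nofun).2 fun i => Option.isSome_map.trans ((z.2 true i).1 rfl)
  · cases hi : col i <;> rw [hi] at e
    · exact LC.hχ z.1 i j e
    · obtain ⟨ψ, hψ, rfl⟩ := Option.map_eq_some_iff.1 e
      exact LC.hw z.1 i ψ hψ i
  · cases c
    · exact ⟨nofun, nofun⟩
    · exact z.2 true i
  · refine Subtype.ext (LC.ext rfl (funext fun i => ?_) rfl)
    show (bif col (f i) then Option.map _ (Option.map _ _) else _) =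
      bif col (f i) then Option.map _ _ else _
    cases col (f i)
    · rfl
    · exact Option.map_map _ _ _
  · show (bif col i then Option.map _ _ else LC.χ z.1 i).isSome
    cases col i
    · exact (full_χ (x := .on) nofun).1 hz i
    · exact Option.isSome_map.trans ((z.2 true i).1 rfl)

theorem of_red_off (H : SH p k) (h : L.Stab a) (hG : ((act h).fa (mm .red .off)).Good q) :
    (L.cf.fa h.cf).Good q := by
  let G : L.cf.Map ((M L).cf (mm .red .off)) :=
    { f := fun z => ⟨⟨z.1.1, z.1.2, fun _ => none, z.2, nofun⟩, fun c _ => by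
        cases c
        · exact ⟨nofun, nofun⟩
        · exact ⟨nofun, fun _ => nofun⟩⟩
      map := fun _ _ => rfl
      res := fun _ _ => rfl
      full := fun _ hz => (full_χ (x := .off) nofun).2 fun i => Option.isSome_iff_ne_none.2 (hz i) }
  let F : ((M L).cf (mm .red .off)).Map L.cf :=
    { f := fun z => ⟨(LC.b z.1, LC.χ z.1), LC.hχ z.1⟩
      map := fun _ _ => rfl
      res := fun _ _ => rfl
      full := fun _ hz i => Option.isSome_iff_ne_none.1 ((full_χ (x := .off) nofun).1 hz i) }
  obtain ⟨d⟩ := H.retract _ _ h.cf ((act h).cf _) G F (fun _ _ _ => rfl) fun _ _ _ _ _ => rfl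
  exact (H.domg _ _ d).2.2.2 q hG

end Lb

open Lb

theorem lab : LAB p k := by
  intro H hc hd B a ι L h q hq hG
  have h1 : ((act h).fa (mm .red .red)).Good q :=
    (hd H Bool (M L) (act h) false (mm .red .red) (mm .off .red) (mm .on .red) rfl rfl rfl
      (fun c hc => by
        cases c
        · exact absurd rfl hc
        · exact ⟨rfl, rfl⟩) q hq).2.2 (off_red H h hG) ((H.aacg _ q).2 (on_red H hc))
  exact of_red_off H h ((hd H Bool (M L) (act h) true (mm .red .red) (mm .red .off) (mm .red .on)
    rfl rfl rfl (fun c hc => by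
      cases c
      · exact ⟨rfl, rfl⟩
      · exact absurd rfl hc) q hq).2.1 h1 ((H.aacg _ q).2 (red_on H hc)))

end P261.C2
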