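import Vale.Agent.P261Z.C2.Cq

/-!
# P261Z, block C2: existence of the normal form
-/

open Matrix WittVector

noncomputable section

namespace P261.C2

variable {p : ℕ} [hp : Fact p.Prime]

namespace Nfe

section lin

variable {A : Type} [CommRing A] {d : ℕ}

theorem cm_mulVec (c y : Fin (d + 1) → A) :
    Cm c *ᵥ y = Fin.cons 0 (Fin.init y) + y (Fin.last d) • c := by
  funext i
  rw [mulVec, dotProduct, Fin.sum_univ_castSucc, Pi.add_apply, Pi.smul_apply, smul_eq_mul]
  congr 1
  · refine Fin.cases ?_ (fun i => ?_) i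
    · exact Finset.sum_eq_zero fun j _ => by
        simp [Cm, show (j : ℕ) ≠ d from j.2.ne]
    · rw [Finset.sum_eq_single i]
      · simp [Cm, Fin.init]
      · intro j _ hj
        simp [Cm, show (j : ℕ) ≠ d from j.2.ne, Fin.val_inj, hj.symm]
      · simp
  · simp [Cm, show (i : ℕ) ≠ d + 1 from i.2.ne, mul_comm]

theorem det_cm (c : Fin (d + 1) → A) : (Cm c).det = (-1) ^ d * c 0 := by
  rw [det_succ_row_zero, Fin.sum_univ_castSucc, Finset.sum_eq_zero fun j _ => by
    simp [Cm, show (j : ℕ) ≠ d from j.2.ne], zero_add]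
  have e : (Cm c).submatrix Fin.succ (Fin.last d).succAbove = 1 := by
    ext i j
    simp [Cm, show (j : ℕ) ≠ d from j.2.ne, one_apply, Fin.val_inj]
  rw [e]
  simp [Cm]

/-- the shift to the left -/
def sl (z : Fin (d + 1) → A) : Fin (d + 1) → A := Fin.snoc (α := fun _ => A) (Fin.tail z) 0

@[simp] theorem sl_last (z : Fin (d + 1) → A) : sl z (Fin.last d) = 0 := by simp [sl]

@[simp] theorem sl_castSucc (z : Fin (d + 1) → A) (i : Fin d) : sl z i.castSucc = z i.succ := by
  simp [sl, Fin.tail]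

end lin

section op

variable {R R' : Type} [CommRing R] [CommRing R'] [Ch p R] [Ch p R'] {d : ℕ} {I J : Ideal R}
  {v v' z z' a a' : Fin (d + 1) → WittVector p R}

/-- the operator `V⁻¹`, where `v = F e₀` -/
def F1 (v z : Fin (d + 1) → WittVector p R) : Fin (d + 1) → WittVector p R :=
  fun i => (z 0).shift 1 * v i + sg p R (sl z i)

theorem F1_cq (hv : ∀ i, Cq I (v i) (v' i)) (hz : ∀ i, Cq I (z i) (z' i)) (i : Fin (d + 1)) :
    Cq I (F1 v z i) (F1 v' z' i) := by
  refine ((hz 0).shift.mul (hv i)).add (Cq.sg ?_)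
  refine Fin.lastCases ?_ (fun i => ?_) i
  · rw [sl_last, sl_last]; rfl
  · rw [sl_castSucc, sl_castSucc]; exact hz _

theorem F1_map (f : R →+* R') (v z : Fin (d + 1) → WittVector p R) (i : Fin (d + 1)) :
    wm p f (F1 v z i) = F1 (fun j => wm p f (v j)) (fun j => wm p f (z j)) i := by
  rw [F1, map_add, map_mul, wm_sg, F1]
  congr 2
  refine Fin.lastCases ?_ (fun i => ?_) i <;> simp

/-- the coefficient -/
def cf (a z : Fin (d + 1) → WittVector p R) : R := (z 0).coeff 0 * Ring.inverse ((a 0).coeff 0)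

/-- the Horner scheme -/
def ch (v a : Fin (d + 1) → WittVector p R) : ℕ → Fin (d + 1) → WittVector p R
  | 0 => F1 v fun i => p * a i
  | k + 1 => F1 v fun i => ch v a k i - tm p (cf a (ch v a k)) * a i

omit [Ch p R] in
theorem cf_sub (ha : Cq I (a 0) (a' 0)) (hz : Cq (J * I) (z 0) (z' 0)) (h0 : (z 0).coeff 0 ∈ J)
    (hu : IsUnit ((a 0).coeff 0)) (hu' : IsUnit ((a' 0).coeff 0)) : cf a z - cf a' z' ∈ J * I := by
  obtain ⟨u, hu⟩ := hu
  obtain ⟨u', hu'⟩ := hu'
  have h1 := cq_iff'.1 ha 0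
  rw [← hu, ← hu'] at h1
  rw [cf, cf, ← hu, ← hu', Ring.inverse_unit, Ring.inverse_unit,
    show (z 0).coeff 0 * ↑u⁻¹ - (z' 0).coeff 0 * ↑u'⁻¹ = ((z 0).coeff 0 - (z' 0).coeff 0) * ↑u'⁻¹ -
      (z 0).coeff 0 * ((u : R) - u') * (↑u⁻¹ * ↑u'⁻¹) by
      linear_combination ((z 0).coeff 0 * ↑u'⁻¹) * u.mul_inv - ((z 0).coeff 0 * ↑u⁻¹) * u'.mul_inv]
  exact sub_mem (Ideal.mul_mem_right _ _ (cq_iff'.1 hz 0))
    (Ideal.mul_mem_right _ _ (Ideal.mul_mem_mul h0 h1))

theorem ch_cq (hI : I ≤ J) (ha : ∀ i, Cq I (a i) (a' i)) (hu : IsUnit ((a 0).coeff 0))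
    (hu' : IsUnit ((a' 0).coeff 0)) (k : ℕ) (h0 : ∀ l < k, (ch v a l 0).coeff 0 ∈ J) :
    ∀ i, Cq (J * I) (ch v a k i) (ch v a' k i) := by
  induction k with
  | zero => exact F1_cq (fun _ => rfl) fun i => (ha i).p_mul hI
  | succ k ih =>
    have h1 := ih fun l hl => h0 l (by omega)
    refine F1_cq (fun _ => rfl) fun i => (h1 i).sub ?_
    exact ((ha i).tm_mul (Ideal.mul_mem_right _ _ (h0 k k.lt_succ_self))).trans
      ((Cq.tm (cf_sub (ha 0) (h1 0) (h0 k k.lt_succ_self) hu hu')).mul (.refl _))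

/-- the fixed point of the Horner scheme -/
theorem exists_fix [IsAdicComplete J R] (v : Fin (d + 1) → WittVector p R)
    (y : ℕ → Fin (d + 1) → WittVector p R) (hu : IsUnit ((y 0 0).coeff 0))
    (h1 : ∀ i, Cq J (F1 v (fun i => p * y 0 i) i) (y d i))
    (h2 : ∀ k < d, (y (k + 1) 0).coeff 0 ∈ J ∧ ∀ i, Cq J (F1 v (y (k + 1)) i) (y k i)) :
    ∃ a, (∀ i, Cq J (a i) (y 0 i)) ∧ IsUnit ((a 0).coeff 0) ∧ ch v a d = a ∧
      ∀ l < d, (ch v a l 0).coeff 0 ∈ J := by
  have h3 : ∀ a : Fin (d + 1) → WittVector p R, (∀ i, Cq J (a i) (y 0 i)) →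
      IsUnit ((a 0).coeff 0) := fun a ha =>
    unit_of_sub (IsAdicComplete.le_jacobson_bot J) (cq_iff'.1 (ha 0) 0) hu
  have h4 : ∀ a : Fin (d + 1) → WittVector p R, (∀ i, Cq J (a i) (y 0 i)) → ∀ k l, k + l = d →
      ∀ i, Cq J (ch v a k i) (y l i) := by
    intro a ha k
    induction k with
    | zero =>
      rintro l hl i
      obtain rfl : l = d := by omega
      exact (F1_cq (fun _ => rfl) (fun j => (Cq.refl _).mul (ha j)) i).trans (h1 i)
    | succ k ih =>
      intro l hl i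
      have h5 := ih (l + 1) (by omega)
      obtain ⟨h6, h7⟩ := h2 l (by omega)
      refine (F1_cq (fun _ => rfl) (fun j => ?_) i).trans (h7 i)
      have h8 : cf a (ch v a k) - 0 ∈ J := by
        rw [sub_zero]
        exact Ideal.mul_mem_right _ _ ((Submodule.sub_mem_iff_left _ h6).1 (cq_iff'.1 (h5 0) 0))
      simpa using (h5 j).sub ((Cq.tm (p := p) h8).mul (.refl (a j)))
  have h5 : ∀ a : Fin (d + 1) → WittVector p R, (∀ i, Cq J (a i) (y 0 i)) → ∀ l < d,
      (ch v a l 0).coeff 0 ∈ J := fun a ha l hl =>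
    (Submodule.sub_mem_iff_left _ (h2 (d - l - 1) (by omega)).1).1
      (cq_iff'.1 (h4 a ha l _ (by omega) 0) 0)
  obtain ⟨a, ha, e⟩ := fix (J := J) (fun a => ch v a d) (y 0) (h4 _ (fun _ => rfl) d 0 rfl)
    fun t a a' ha ha' h i => by
      rw [pow_succ' J (t + 1)]
      exact ch_cq (Ideal.pow_le_self t.succ_ne_zero) h (h3 a ha) (h3 a' ha') d (h5 a ha) i
  exact ⟨a, ha, h3 a ha, e, h5 a ha⟩

end op

section pf

variable {S : Type} [CommRing S] [Pf p S] {d : ℕ}

/-- the operator `V` -/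
def Vop (A : Matrix (Fin d) (Fin d) (WittVector p S)) (y : Fin d → WittVector p S) :
    Fin d → WittVector p S := A *ᵥ fun i => si p S (y i)

theorem Vop_iter (A : Matrix (Fin d) (Fin d) (WittVector p S)) (k : ℕ) (u : S)
    (x y : Fin d → WittVector p S) : (Vop A)^[k] (x - tm p u • y) =
      (Vop A)^[k] x - tm p ((rt p S ^ k) u) • (Vop A)^[k] y := by
  induction k with
  | zero => rfl
  | succ k ih =>
    simp only [Function.iterate_succ_apply', ih, Vop]
    rw [← mulVec_smul, ← mulVec_sub, pow_succ']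
    congr 1
    funext i
    simp [si_tm]

theorem sg_Vop (A : Matrix (Fin d) (Fin d) (WittVector p S)) (k : ℕ) (y : Fin d → WittVector p S)
    (i : Fin d) : (sg p S ^ (k + 1)) (Vop A y i) =
      ∑ j, (sg p S ^ k) (sg p S (A i j)) * (sg p S ^ k) (y j) := by
  simp [Vop, mulVec, dotProduct, pow_succ]

theorem itw_iff {A T : Matrix (Fin (d + 1)) (Fin (d + 1)) (WittVector p S)}
    {c : Fin (d + 1) → WittVector p S} : Itw A T (Cm c) ↔
      (∀ j : Fin (d + 1), Tᵀ j = (Vop A)^[j] (Tᵀ 0)) ∧ (Vop A)^[d + 1] (Tᵀ 0) = T *ᵥ c := by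
  have e1 : ∀ j, (A * T.map (si p S))ᵀ j = Vop A (Tᵀ j) := fun _ => rfl
  have e2 : ∀ j : Fin d, (T * Cm c)ᵀ j.castSucc = Tᵀ j.succ := fun j => funext fun i => by
    rw [transpose_apply, mul_apply, Finset.sum_eq_single j.succ]
    · simp [Cm]
    · intro l _ hl
      have : (l : ℕ) ≠ j + 1 := fun e => hl (Fin.ext e)
      simp [Cm, this, show (j : ℕ) ≠ d from j.2.ne]
    · simp
  have e3 : (T * Cm c)ᵀ (Fin.last d) = T *ᵥ c := funext fun i => by
    rw [transpose_apply, mul_apply, mulVec, dotProduct]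
    exact Finset.sum_congr rfl fun l _ => by simp [Cm, show (l : ℕ) ≠ d + 1 from l.2.ne]
  constructor
  · intro h
    have h1 : ∀ j : Fin (d + 1), Tᵀ j = (Vop A)^[j] (Tᵀ 0) := by
      intro j
      induction j using Fin.induction with
      | zero => rfl
      | succ j ih => rw [← e2, ← h, e1, ih, Fin.val_succ, Function.iterate_succ_apply']; rfl
    exact ⟨h1, by rw [← e3, ← h, e1, h1 (Fin.last d), Function.iterate_succ_apply']; rfl⟩
  · rintro ⟨h1, h2⟩
    refine transpose_injective (funext fun j => ?_)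
    refine Fin.lastCases ?_ (fun j => ?_) j
    · rw [e1, e3, ← h2, h1 (Fin.last d), Function.iterate_succ_apply']; rfl
    · rw [e1, e2, h1 j.succ, h1 j.castSucc, Fin.val_succ, Function.iterate_succ_apply']; rfl

variable {c v : Fin (d + 1) → WittVector p S} {s s' : WittVector p S}

theorem V_F1 (hc : c 0 = p * s) (hs : s * s' = 1)
    (hv : ∀ i, v i = sg p S (s' * ((if i = Fin.last d then 1 else 0) - sl c i)))
    {z : Fin (d + 1) → WittVector p S} (hz : (z 0).coeff 0 = 0) : Vop (Cm c) (F1 v z) = z := by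
  have e : (p : WittVector p S) * si p S ((z 0).shift 1) = z 0 := by
    rw [← p_mul_dv hz, shift_p_mul, si_sg]
  funext i
  rw [Vop, cm_mulVec]
  refine Fin.cases ?_ (fun i => ?_) i
  · simp only [F1, hv, Pi.add_apply, Fin.cons_zero, Pi.smul_apply, smul_eq_mul, map_add, map_mul,
      si_sg, sl_last, if_true, hc]
    linear_combination e + (p : WittVector p S) * si p S ((z 0).shift 1) * hs
  · simp only [F1, hv, Pi.add_apply, Fin.cons_succ, Fin.init, Pi.smul_apply, smul_eq_mul, map_add,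
      map_mul, si_sg, sl_last, sl_castSucc, if_true, if_neg (Fin.castSucc_lt_last i).ne]
    ring

theorem F1_V (hc : c 0 = p * s) (hs : s * s' = 1)
    (hv : ∀ i, v i = sg p S (s' * ((if i = Fin.last d then 1 else 0) - sl c i)))
    (y : Fin (d + 1) → WittVector p S) :
    (Vop (Cm c) y 0).coeff 0 = 0 ∧ F1 v (Vop (Cm c) y) = y := by
  have e : Vop (Cm c) y 0 = p * (s * si p S (y (Fin.last d))) := by
    rw [Vop, cm_mulVec]
    simp only [Pi.add_apply, Fin.cons_zero, Pi.smul_apply, smul_eq_mul, hc]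
    ring
  have hs' : sg p S s * sg p S s' = 1 := by rw [← map_mul, hs, map_one]
  refine ⟨by rw [e, coeff_p_mul_zero], funext fun i => ?_⟩
  rw [F1, e, shift_p_mul, hv]
  refine Fin.lastCases ?_ (fun i => ?_) i
  · simp only [map_mul, sg_si, sl_last, if_true, sub_zero, map_one, map_zero]
    linear_combination y (Fin.last d) * hs'
  · rw [sl_castSucc, sl_castSucc, Vop, cm_mulVec]
    simp only [Pi.add_apply, Fin.cons_succ, Fin.init, Pi.smul_apply, smul_eq_mul, map_add,
      map_mul, sg_si, if_neg (Fin.castSucc_lt_last i).ne, map_sub, map_zero]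
    linear_combination (-(y (Fin.last d) * sg p S (c i.succ))) * hs'

/-- the Horner identity -/
theorem horner {B : Type} [CommRing B] [Ch p B] (f : B →+* S) (hc : c 0 = p * s) (hs : s * s' = 1)
    {v a : Fin (d + 1) → WittVector p B}
    (hv : ∀ i, wm p f (v i) = sg p S (s' * ((if i = Fin.last d then 1 else 0) - sl c i)))
    (hu : IsUnit ((a 0).coeff 0)) (k : ℕ) :
    (Vop (Cm c))^[k + 1] (fun i => wm p f (ch v a k i)) =
      (p : WittVector p S) • (fun i => wm p f (a i)) - ∑ l ∈ Finset.range k,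
        tm p ((rt p S ^ (l + 1)) (f (cf a (ch v a l)))) •
          (Vop (Cm c))^[l + 1] fun i => wm p f (a i) := by
  induction k with
  | zero =>
    simp only [ch, F1_map, zero_add, Function.iterate_one, Finset.range_zero, Finset.sum_empty,
      sub_zero]
    rw [V_F1 hc hs hv (by simp)]
    funext i
    simp
  | succ k ih =>
    rw [Function.iterate_succ_apply, Finset.sum_range_succ, ← sub_sub, ← ih, ← Vop_iter]
    congr 1
    simp only [ch, F1_map]
    rw [V_F1 hc hs hv]
    · funext i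
      simp [map_teichmuller]
    · have e := map_sub (constantCoeff : WittVector p B →+* B) (ch v a k 0)
        (tm p (cf a (ch v a k)) * a 0)
      simp only [constantCoeff_apply] at e
      rw [map_coeff, e, mul_coeff_zero, teichmuller_coeff_zero, cf, mul_assoc,
        Ring.inverse_mul_cancel _ hu, mul_one, sub_self, map_zero]

end pf

/-- the lifts of `σ ^ k V ^ k a` -/
def lf {B : Type} [CommRing B] [Ch p B] {d : ℕ} (E : Matrix (Fin d) (Fin d) (WittVector p B))
    (a : Fin d → WittVector p B) : ℕ → Fin d → WittVector p B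
  | 0 => a
  | k + 1 => fun i => ∑ j, (sg p B ^ k) (E i j) * lf E a k j

theorem wm_sg_pow {R R' : Type} [CommRing R] [CommRing R'] [Ch p R] [Ch p R'] (f : R →+* R')
    (k : ℕ) (x : WittVector p R) : wm p f ((sg p R ^ k) x) = (sg p R' ^ k) (wm p f x) := by
  induction k with
  | zero => rfl
  | succ k ih => rw [pow_succ', pow_succ']; exact (wm_sg f _).trans (congrArg _ ih)

end Nfe

open Nfe

/-- **NFE** -/
theorem nfe' (n : ℕ) (S₀ B S : Type) [CommRing S₀] [Pf p S₀] [CommRing B] [CommRing S] [Pf p S]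
    (J : Ideal B) [IsAdicComplete J B] (g : S₀ →+* B) (f : B →+* S) (c₀ : Fin n → WittVector p S₀)
    (T₀ T₀' : Matrix (Fin n) (Fin n) (WittVector p S₀)) (c : Fin n → WittVector p S)
    (δ : Fin n → WittVector p B) (hT : T₀ * T₀' = 1) (hI : Itw (Cm c₀) T₀ (Au p n 0))
    (hδ : ∀ i, WI J (δ i)) (hδ0 : ∀ i : Fin n, (i : ℕ) = 0 → δ i = 0)
    (hc : ∀ i, sg p S (c i - wm p (f.comp g) (c₀ i)) = wm p f (δ i)) :
    ∃ (T T' : Matrix (Fin n) (Fin n) (WittVector p B)) (U : ℕ → B), T * T' = 1 ∧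
      MI J (T - (T₀.map ⇑(sg p S₀ ^ n)).map (wm p g)) ∧ (∀ i, U i ∈ J) ∧
      Itw (Cm c) ((T.map (wm p f)).map ⇑(si p S ^ n))
        (Au p n fun i => (rt p S ^ i) (f (U i))) := by
  have : Ch p B := Ch.of_hom g
  rcases n with _ | d
  · exact ⟨1, 1, 0, mul_one _, fun i => i.elim0, fun _ => zero_mem _, Subsingleton.elim _ _⟩
  have hD : T₀.det * T₀'.det = 1 := by rw [← det_mul, hT, det_one]
  obtain ⟨s, s', hc0, hs⟩ : ∃ s s', c₀ 0 = p * s ∧ s * s' = 1 := by
    have h1 := congrArg det hI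
    rw [det_mul, det_mul, Au, det_cm, det_cm, ← RingHom.mapMatrix_apply, ← RingHom.map_det] at h1
    have h2 : si p S₀ T₀.det * si p S₀ T₀'.det = 1 := by rw [← map_mul, hD, map_one]
    have h3 : ((-1 : WittVector p S₀) ^ d) * (-1) ^ d = 1 := by rw [← mul_pow]; simp
    simp only [Fin.val_zero, if_true] at h1
    refine ⟨T₀.det * si p S₀ T₀'.det, T₀'.det * si p S₀ T₀.det, ?_, ?_⟩
    · linear_combination ((-1) ^ d * si p S₀ T₀'.det) * h1 - c₀ 0 * h2 -
        (c₀ 0 * si p S₀ T₀.det * si p S₀ T₀'.det - T₀.det * p * si p S₀ T₀'.det) * h3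
    · linear_combination (si p S₀ T₀.det * si p S₀ T₀'.det) * hD + h2
  obtain ⟨h1, h2⟩ := itw_iff.1 hI
  set c' : Fin (d + 1) → WittVector p B := fun i => wm p g (sg p S₀ (c₀ i)) + δ i with hc'
  have e1 : ∀ i, wm p f (c' i) = sg p S (c i) := fun i => by
    rw [hc', map_add, ← hc, map_sub, wm_comp, wm_sg, add_sub_cancel]
  have e2 : ∀ i, Cq J (c' i) (wm p g (sg p S₀ (c₀ i))) := fun i => by
    simpa using (Cq.refl (wm p g (sg p S₀ (c₀ i)))).add (wi_iff.1 (hδ i))
  set v : Fin (d + 1) → WittVector p B := fun i =>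
    wm p g (sg p S₀ s') * ((if i = Fin.last d then 1 else 0) - sl c' i) with hv
  set v₀ : Fin (d + 1) → WittVector p S₀ := fun i =>
    sg p S₀ (s' * ((if i = Fin.last d then 1 else 0) - sl c₀ i)) with hv₀
  have e3 : ∀ i, Cq J (v i) (wm p g (v₀ i)) := fun i => by
    rw [hv, hv₀]
    simp only [map_mul, map_sub]
    refine (Cq.refl _).mul (Cq.sub ?_ ?_)
    · split_ifs <;> simp [Cq]
    · refine Fin.lastCases ?_ (fun i => ?_) i
      · simp [Cq]
      · simpa using e2 i.succ
  have e4 := F1_V hc0 hs (v := v₀) fun _ => rfl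
  have e5 : ∀ (y : Fin (d + 1) → WittVector p S₀) i,
      Cq J (F1 v (fun j => wm p g (Vop (Cm c₀) y j)) i) (wm p g (y i)) := fun y i =>
    (F1_cq e3 (fun _ => rfl) i).trans (by rw [← F1_map, (e4 y).2]; rfl)
  have e6 : ∀ i, Vop (Cm c₀) ((Vop (Cm c₀))^[d] (T₀ᵀ 0)) i = p * T₀ i 0 := fun i => by
    rw [← Function.iterate_succ_apply' (Vop _), h2, mulVec, dotProduct, Fin.sum_univ_succ]
    simp [mul_comm]
  obtain ⟨a, ha, hu, hf, hU⟩ := exists_fix (J := J) v
    (fun k i => wm p g ((Vop (Cm c₀))^[k] (T₀ᵀ 0) i)) (by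
      have h3 := congrArg constantCoeff (congrFun (congrFun hT 0) 0)
      rw [mul_apply, Fin.sum_univ_succ, map_add, map_sum, Finset.sum_eq_zero, add_zero, map_mul,
        one_apply_eq, map_one] at h3
      · exact (IsUnit.of_mul_eq_one _ h3).map g
      · intro j _
        have h4 := congrFun (h1 j.succ) 0
        rw [Fin.val_succ, Function.iterate_succ_apply', transpose_apply] at h4
        rw [map_mul, h4, constantCoeff_apply, (e4 _).1, zero_mul])
    (fun i => by simpa [e6] using e5 ((Vop (Cm c₀))^[d] (T₀ᵀ 0)) i)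
    fun k _ => by
      simp only [Function.iterate_succ_apply']
      exact ⟨by rw [map_coeff, (e4 _).1, map_zero]; exact zero_mem _, e5 _⟩
  have e7 : ∀ k i, wm p f (lf (Cm c') a k i) =
      (sg p S ^ k) ((Vop (Cm c))^[k] (fun i => wm p f (a i)) i) := by
    intro k
    induction k with
    | zero => exact fun _ => rfl
    | succ k ih =>
      intro i
      rw [Function.iterate_succ_apply', sg_Vop, lf, map_sum]
      refine Finset.sum_congr rfl fun j _ => ?_
      rw [map_mul, ih, wm_sg_pow]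
      congr 2
      simp [Cm, apply_ite (wm p f), apply_ite (sg p S), e1]
  have e8 : ∀ k i, Cq J (lf (Cm c') a k i)
      (wm p g ((sg p S₀ ^ k) ((Vop (Cm c₀))^[k] (T₀ᵀ 0) i))) := by
    intro k
    induction k with
    | zero => exact ha
    | succ k ih =>
      intro i
      rw [Function.iterate_succ_apply', sg_Vop, lf, map_sum]
      refine Cq.sum fun j _ => ?_
      rw [map_mul, wm_sg_pow]
      refine (Cq.sg_pow ?_ k).mul (ih j)
      simp only [Cm, of_apply]
      split_ifs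
      · simp [Cq]
      · exact e2 i
      · simp [Cq]
  set T : Matrix (Fin (d + 1)) (Fin (d + 1)) (WittVector p B) :=
    Matrix.of fun i j => (sg p B ^ (d + 1 - j)) (lf (Cm c') a j i) with hTd
  have e9 : ∀ i j, Cq J (T i j) ((T₀.map ⇑(sg p S₀ ^ (d + 1))).map (wm p g) i j) := fun i j => by
    have h3 := (e8 j i).sg_pow (d + 1 - j)
    rw [← h1 j, ← wm_sg_pow, ← RingHom.comp_apply (sg p S₀ ^ (d + 1 - j)), ← RingHom.mul_def,
      ← pow_add, Nat.sub_add_cancel j.2.le] at h3
    exact h3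
  have hdet : IsUnit T.det := by
    refine isUnit_of_coeff0 (unit_of_sub (IsAdicComplete.le_jacobson_bot J)
      (cq_iff'.1 (Cq.det e9) 0) ?_)
    rw [← RingHom.mapMatrix_apply, ← RingHom.map_det, ← RingHom.mapMatrix_apply, ← RingHom.map_det]
    exact (((IsUnit.of_mul_eq_one _ hD).map (sg p S₀ ^ (d + 1))).map (wm p g)).map
      (constantCoeff : WittVector p B →+* B)
  have e10 : ∀ j : Fin (d + 1), ((T.map (wm p f)).map ⇑(si p S ^ (d + 1)))ᵀ j =
      (Vop (Cm c))^[j] fun i => wm p f (a i) := fun j => funext fun i => by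
    simp only [transpose_apply, map_apply, hTd, of_apply]
    rw [wm_sg_pow, e7, ← RingHom.comp_apply (sg p S ^ (d + 1 - j)), ← RingHom.mul_def, ← pow_add,
      Nat.sub_add_cancel j.2.le, si_sg_pow]
  refine ⟨T, T⁻¹, fun l => if 0 < l ∧ l ≤ d then cf a (ch v a (l - 1)) else 0,
    mul_nonsing_inv _ hdet, fun i j => wi_sub.2 (e9 i j), fun l => ?_,
    itw_iff.2 ⟨fun j => by rw [e10, e10]; rfl, ?_⟩⟩
  · beta_reduce
    split_ifs with h
    exacts [Ideal.mul_mem_right _ _ (hU _ (by omega)), zero_mem _]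
  · have h3 := horner (c := c) (s := wm p (f.comp g) s) (s' := wm p (f.comp g) s') f ?_
      (by rw [← map_mul, hs, map_one]) (v := v) (fun i => ?_) hu d
    · rw [hf] at h3
      rw [e10]
      refine h3.trans (funext fun i => ?_)
      rw [mulVec, dotProduct, Fin.sum_univ_succ, Pi.sub_apply, Finset.sum_apply, sub_eq_add_neg,
        ← Finset.sum_neg_distrib, Finset.sum_range]
      congr 1
      · exact (mul_comm _ _).trans (congrArg (· * _) (congrFun (e10 0) i).symm)
      · refine Finset.sum_congr rfl fun l _ => ?_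
        have h4 := congrFun (e10 l.succ) i
        rw [transpose_apply] at h4
        rw [h4]
        simp [mul_comm, show (l : ℕ) + 1 ≤ d from l.2]
    · have h4 := congrArg (si p S) (hc 0)
      rw [hδ0 0 rfl, map_zero, map_zero, si_sg, sub_eq_zero] at h4
      rw [h4, hc0, map_mul, map_natCast]
    · rw [hv]
      simp only [map_mul, map_sub, wm_comp, wm_sg]
      congr 2
      · split_ifs <;> simp
      · refine Fin.lastCases ?_ (fun i => ?_) i
        · simp
        · simpa using e1 i.succ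

theorem nfe : NFE p := fun n S₀ B S _ _ _ _ _ J _ => nfe' n S₀ B S J

end P261.C2
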