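import Vale.Agent.P261Z.C2.Y
import Vale.Agent.P261Z.C2.Lang
import Vale.Agent.P261Z.C2.Nfe
import Vale.Agent.P261Z.W.Aic
import Vale.Agent.P261Z.C1.Cpl
import Vale.Agent.P261Z.Sw.Alg

/-!
# P261Z, block C2: normal forms exist locally along the supersingular locus
-/

set_option linter.unusedSectionVars false

open Matrix

noncomputable section

namespace P261.C2

open C1 Sw Vale.Agent.P261Z.N

variable {p : ℕ} [hp : Fact p.Prime] {k : Type} [Field k]

namespace Lz

variable {E : Type} [Fintype E] [DecidableEq E] {h n : ℕ} (e : E ⊕ Fin h ≃ Fin n)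

/-- a lattice which is nowhere supersingular or in normal form -/
def Gl (T : FP p k) (a : E → T.W) : Prop := ∃ s : LV p E h T.K, s.IsZ T.F ∧ s.a = a ∧
  (UI T.F s ⊤ ∨ s.φ = 0 ∧ s.ix = 0 ∧ ∃ u, s.mA = (Au p n u).submatrix e e)

variable {T : FP p k} {v : LV p E h T.K} {c : Fin n → T.W}

/-- the coefficients without their first digits -/
def cut {S : Type} [CommRing S] (c : Fin n → WittVector p S) (l : Fin n) : WittVector p S :=
  c l - tm p ((c l).coeff 0)

theorem tm_zero {S : Type} [CommRing S] : tm p (0 : S) = 0 := WittVector.teichmuller_zero p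

theorem neg_tm {S : Type} [CommRing S] (x : S) : (-tm p x).coeff 0 = -x :=
  (map_neg (WittVector.constantCoeff : WittVector p S →+* S) _).trans
    (congrArg Neg.neg (WittVector.teichmuller_coeff_zero p x))

theorem cut_map {S S' : Type} [CommRing S] [CommRing S'] (f : S →+* S') (c : Fin n → WittVector p S)
    (l : Fin n) : wm p f (cut c l) = cut (fun l => wm p f (c l)) l := by
  rw [cut, map_sub, WittVector.map_teichmuller]
  rfl

theorem cut_zero {S : Type} [CommRing S] (c : Fin n → WittVector p S) (l : Fin n) :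
    (cut c l).coeff 0 = 0 := by
  change WittVector.constantCoeff (c l - _) = 0
  rw [map_sub]
  exact sub_eq_zero.2 (WittVector.teichmuller_coeff_zero p _).symm

theorem mA_map {T' : FP p k} (f : T.Hom T') (hc : v.mA = (Cm c).submatrix e e) :
    (v.map f.r).mA = (Cm fun l => f.w (c l)).submatrix e e := by
  rw [LV.mA_map, hc, ← Cm_map, submatrix_map]

theorem over_w {T' : FP p k} {f : T.Hom T'} {D : Type} [CommRing D] [Algebra T.F.zero D]
    (o : FP.Over f D) (x : WittVector p T.F.zero) :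
    wm p o.ψ (wm p (algebraMap T.F.zero D) x) = f.w (wm p T.F.zero.subtype x) :=
  WittVector.ext fun _ => o.alg _

theorem basis {A' : Matrix (Fin n) (Fin n) T.W} (hv : v.IsZ T.F) (hc : v.mA = (Cm c).submatrix e e)
    {P P' : Matrix (Fin n) (Fin n) T.W} (hP : T.F.MW 0 P) (hP' : T.F.MW 0 P') (h1 : P * P' = 1)
    (H : Itw (Cm c) P A') :
    ∃ s : LV p E h T.K, s.IsZ T.F ∧ s.a = v.a ∧ s.φ = 0 ∧ s.ix = 0 ∧ s.mA = A'.submatrix e e := by
  refine rebase hv e (P := P.submatrix e id) (P' := P'.submatrix id e) (fun _ _ => hP _ _)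
    (fun _ _ => hP' _ _) ?_ ?_
  · have := submatrix_mul P P' e id e Function.bijective_id
    rw [← this, h1, submatrix_one_equiv]
  · have h2 := submatrix_mul P A' e id id Function.bijective_id
    rw [submatrix_id_id] at h2
    rw [Itw, hc, ← h2, ← H, ← submatrix_mul_equiv _ _ _ e]
    rfl

/-- the last step -/
theorem loc4 (hh : 1 ≤ h) (hv : v.IsZ T.F) (hc : v.mA = (Cm c).submatrix e e)
    {P P' : Matrix (Fin n) (Fin n) T.W} (hP : T.F.MW 0 P) (hP' : T.F.MW 0 P') (h1 : P * P' = 1)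
    (H : Itw (Cm (cut c)) P (Au p n 0)) : FLoc T fun T' f => Gl e T' fun i => f.w (v.a i) := by
  have := pf0 T.F
  obtain ⟨c', hc'⟩ := c_lift hv hc
  obtain ⟨Q, rfl⟩ := mw_lift hP
  obtain ⟨Q', rfl⟩ := mw_lift hP'
  have h2 : Q * Q' = 1 := map_inj _ (by
    rw [Matrix.map_mul, h1, Matrix.map_one _ (map_zero _) (map_one _)])
  have h3 : Itw (Cm (cut c')) Q (Au p n 0) := map_inj _ (by
    have e1 : (fun l => wm p T.F.zero.subtype (cut c' l)) = cut c :=
      funext fun l => by rw [cut_map, funext hc']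
    have e2 : (fun i : ℕ => T.F.zero.subtype ((0 : ℕ → T.F.zero) i)) = 0 := rfl
    rw [Matrix.map_mul, Matrix.map_mul, Cm_map, Au_map, e1, e2, ← H]
    exact congrArg (_ * ·) (Matrix.ext fun i j => wm_si _ _))
  let g : Fin n → T.F.zero := fun l => (c' l).coeff 0
  have hg : ∀ l, (g l : T.K) = (c l).coeff 0 := fun l => by rw [← hc']; rfl
  obtain ⟨D, _, _, _, hD, hs, hi⟩ := cpl p T.F.zero _ g
  refine .iso _ g D hs hi (fun T' f _ o => .here ?_) fun T' f _ ⟨l, t, ht, e'⟩ => .here ?_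
  · obtain ⟨R, R', U, r1, -, -, r2⟩ := nfe n T.F.zero D T'.K
      ((Ideal.span (Set.range g)).map (algebraMap _ D)) (algebraMap _ D) o.ψ (cut c') Q Q'
      (fun l => f.w (c l)) (fun l => tm p (algebraMap _ D (g l) ^ p)) h2 h3
      (fun l j => by
        rcases j.eq_zero_or_pos with rfl | hj
        · rw [WittVector.teichmuller_coeff_zero]
          exact Ideal.pow_mem_of_mem _
            (Ideal.mem_map_of_mem _ (Ideal.subset_span (Set.mem_range_self l))) _ p_pos
        · rw [WittVector.teichmuller_coeff_pos p _ j hj]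
          exact zero_mem _)
      (fun l hl => by
        rw [show g l = 0 from Subtype.ext ((hg l).trans (c_low hv.inv hc l (by omega))), map_zero,
          zero_pow hp.out.ne_zero, tm_zero])
      (fun l => by
        rw [← wm_comp, over_w o, cut_map, funext hc', ← map_sub, cut, sub_sub_cancel,
          WittVector.map_teichmuller, WittVector.map_teichmuller, sg_tm, map_pow, o.alg, hg]
        rfl)
    obtain ⟨s, s1, s2, s3, s4, s5⟩ := basis e (hv.map f) (mA_map e f hc)
      (mw_si_pow (mw_of o.mem R) n) (mw_si_pow (mw_of o.mem R') n)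
      (map_inv _ (map_inv _ r1)) r2
    exact ⟨s, s1, s2, Or.inr ⟨s3, s4, _, s5⟩⟩
  · refine ⟨v.map f.r, hv.map f, rfl, Or.inl (ui_of_unit hh T'.cl (hv.map f) (mA_map e f hc)
      (l := l) ht ?_)⟩
    rw [hg] at e'
    exact e'

/-- trivialisation of the special fibre -/
theorem loc3 (hh : 1 ≤ h) (hv : v.IsZ T.F) (hc : v.mA = (Cm c).submatrix e e) :
    FLoc T fun T' f => Gl e T' fun i => f.w (v.a i) := by
  have := pf0 T.F
  obtain ⟨c', hc'⟩ := c_lift hv hc
  obtain ⟨D, _, _, S, _, _, π, hD, hS, hπ⟩ := exists_pf_aic (p := p) T.F.zero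
  refine .ff D fun T' f _ o => ?_
  have := pf0 T'.F
  have := Pf.isReduced (p := p) (K := T'.F.zero)
  obtain ⟨ψ, hψ⟩ := hπ T'.F.zero (o.ψ.codRestrict T'.F.zero o.mem)
  let ι : T.F.zero →+* S := π.comp (algebraMap _ D)
  let χ : S →+* T'.K := T'.F.zero.subtype.comp ψ
  have hχ : ∀ x, wm p χ (wm p ι x) = f.w (wm p T.F.zero.subtype x) := fun x =>
    WittVector.ext fun j => (congrArg Subtype.val (RingHom.congr_fun hψ _)).trans (o.alg _)
  obtain ⟨Q, Q', h1, h2⟩ := lang0 n S hS (cut fun l => wm p ι (c' l)) (cut_zero _) fun l hl => by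
    obtain ⟨s, hs⟩ := c_zero hh hv hc hc' l hl
    refine ⟨Units.map (wm p ι : _ →* _) s, ?_⟩
    rw [← cut_map, cut, hs, coeff_p_mul_zero, tm_zero, sub_zero, map_mul,
      map_natCast]
    rfl
  have h3 := itw_map χ h2
  have e1 : (fun l => wm p χ (cut (fun l => wm p ι (c' l)) l)) = cut fun l => f.w (c l) :=
    funext fun l => by simp only [cut_map, hχ, hc']
  have e2 : (fun i : ℕ => χ ((0 : ℕ → S) i)) = 0 := funext fun _ => map_zero _
  rw [Cm_map, Au_map, e1, e2] at h3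
  exact loc4 e hh (hv.map f) (mA_map e f hc) (mw_of (fun d => (ψ d).2) Q)
    (mw_of (fun d => (ψ d).2) Q') (map_inv _ h1) h3

/-- cyclic vectors -/
theorem loc2 (hh : 1 ≤ h) (hv : v.IsZ T.F) {i j : E ⊕ Fin h} {t : T.K} (ht : t ∈ T.F.F 0)
    (h1 : (v.mB i j).coeff 0 * t = 1) : FLoc T fun T' f => Gl e T' fun i => f.w (v.a i) := by
  have := pf0 T.F
  obtain ⟨A, B, r, hA, hB, a1, a2, a3⟩ := data hh hv
  let g : (E → ZMod p) × (E ⊕ Fin h) → T.F.zero := fun q =>
    ⟨v.eb q.1 q.2, (eps E h T.K T.F v T.cl hv).2 _ _⟩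
  obtain ⟨D, _, _, _, hD, hs, hi⟩ := cpl p T.F.zero _ g
  refine .iso _ g D hs hi (fun T' f _ o => ?_) fun T' f _ ⟨q, t, ht, e'⟩ => .here ?_
  · let w := wm p (algebraMap T.F.zero D)
    have hp1 : ((p : WittVector p T.F.zero) • (1 : Matrix (E ⊕ Fin h) (E ⊕ Fin h) _)).map w =
        (p : WittVector p D) • 1 := by
      ext1 i j
      simp [Matrix.one_apply, apply_ite w]
    obtain ⟨N, hN⟩ := nil hh T.cl hv hA
    have hle : ss T.F v ≤ Ideal.span (Set.range g) := Ideal.span_mono fun y ⟨l, i, e⟩ =>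
      ⟨(l, i), Subtype.ext e.symm⟩
    obtain ⟨c, P, P', b1, -, b2, -, -⟩ := (cyc p n D _ (A.map w) (B.map w)
      (Units.map (w : _ →* _) r) (by simpa using Fintype.card_congr e)
      (by rw [← Matrix.map_mul, a1, hp1]) (by rw [← Matrix.map_mul, a2, hp1]) (by
        rw [← RingHom.mapMatrix_apply, ← RingHom.map_det, a3, map_mul, map_natCast]
        rfl)).2 ((Ideal.span (Set.range g)).map (algebraMap _ D)) N i j
      (IsAdicComplete.le_jacobson_bot _)
      ((IsUnit.of_mul_eq_one (a := (B i j).coeff 0) ⟨t, ht⟩ (Subtype.ext (by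
        rw [← hB] at h1
        exact h1))).map (algebraMap _ D))
      (fun a b => by
        rw [← tpw_map]
        exact Ideal.map_radical_le _ (Ideal.mem_map_of_mem _ (Ideal.radical_mono hle (hN a b))))
    have b3 := itw_map o.ψ b2
    have b4 : (A.map w).map (wm p o.ψ) = (v.map f.r).mA := by
      rw [LV.mA_map, ← hA]
      exact Matrix.ext fun a b => over_w o _
    rw [b4, Cm_map] at b3
    obtain ⟨s, s1, s2, -, -, s5⟩ := rebase (hv.map f) e (mw_of o.mem P) (mw_of o.mem P')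
      (map_inv _ b1) b3
    have := loc3 e hh s1 s5
    rw [s2] at this
    exact this
  · refine ⟨v.map f.r, hv.map f, rfl, Or.inl (ui_single _ (l := q.1) (i := q.2) trivial ht ?_)⟩
    rw [LV.eb_map]
    exact e'

theorem loc1 (hh : 1 ≤ h) (hv : v.IsZ T.F) : FLoc T fun T' f => Gl e T' fun i => f.w (v.a i) := by
  have := pf0 T.F
  obtain ⟨A, B, r, -, hB, a1, a2, a3⟩ := data hh hv
  refine .zar _ _ (cyc p n T.F.zero _ A B r (by simpa using Fintype.card_congr e) a1 a2 a3).1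
    fun T' f _ ⟨q, t, ht, e'⟩ => ?_
  refine loc2 e hh (hv.map f) (i := q.1) (j := q.2) ht ?_
  rw [LV.mB_map, ← hB]
  exact e'

end Lz

section nf

variable {h c : ℕ} {S : Type} [CommRing S] [Pf p S] {F : Fil p S} {v : LV p (Fin c) h S}

theorem yv_eq (hh : 1 ≤ h) {u : ℕ → S}
    (hu : v.mA = (Au p (h + c) u).submatrix (rx h c) (rx h c)) (j : Fin c) :
    yv v j = u (h + j) ^ p ^ (h + j) := by
  have h1 : ∀ a : Fin c, ((rx h c (.inl a) : Fin (h + c)) : ℕ) = h + a := fun _ => rfl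
  have := j.2
  rw [yv, hu, submatrix_apply, Au, Cm, of_apply, h1, h1, if_neg (by dsimp only; omega),
    if_pos (by dsimp only; omega), if_neg (by omega), Lz.neg_tm, neg_neg]

theorem isNF_of (hh : 1 ≤ h) (hv : v.IsZ F) (h1 : v.φ = 0) (h2 : v.ix = 0) {u : ℕ → S}
    (hu : v.mA = (Au p (h + c) u).submatrix (rx h c) (rx h c)) : IsNF F v := by
  refine ⟨hv, h1, h2, hu.trans ?_⟩
  rw [Au, Au]
  congr 2
  funext i
  split_ifs with h0
  · rfl
  congr 2
  by_cases hi : (i : ℕ) < h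
  · have h3 := c_low hv.inv hu i hi
    rw [if_neg h0, Lz.neg_tm, neg_eq_zero] at h3
    rw [uy, exh, dif_neg (by omega), map_zero, h3]
  · obtain ⟨j, hj⟩ : ∃ j : Fin c, (i : ℕ) = h + j := ⟨⟨i - h, by omega⟩, by dsimp only; omega⟩
    rw [hj, uy, exh_add, yv_eq hh hu, rt_pow_pp']

end nf

theorem lz' (h c : ℕ) (hh : 1 ≤ h) (T : FP p k) (z : LV p (Fin c) h T.K) (hz : z.IsZ T.F) :
    FLoc T fun T' f => ∃ s : LV p (Fin c) h T'.K,
      s.a = (z.map f.r).a ∧ (IsNF T'.F s ∨ (cJ k h {⊤}).P s) := by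
  refine (Lz.loc1 (rx h c) hh hz).mono ?_
  rintro T' f ⟨s, s1, s2, s3 | ⟨s3, s4, u, s5⟩⟩
  · obtain ⟨w, w1, w2, w3, w4⟩ := (forms (Fin c) h T'.K T'.F).2.1 s {⊤} s1 fun U hU => hU ▸ s3
    exact ⟨w, w4.trans s2, Or.inr ⟨w1, w2, w3⟩⟩
  · exact ⟨s, s2, Or.inl (isNF_of hh s1 s3 s4 s5)⟩

theorem lz : LZ p k := fun _ h c hh _ T _ z hz => lz' h c hh T z hz

end P261.C2
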