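import Vale.Agent.P261Z.C2.MC
import Vale.Agent.P261Z.NM.Ring

/-!
# P261Z, block C2: the complex `N` is a retract of a complex of natural functions
-/

set_option linter.all false

noncomputable section

namespace P261.C2

open P261.NM P261.NM.Act P261.NM.Act.Mod

variable {p : ℕ} [hp : Fact p.Prime] {R G ι : Type} [CommRing R] [Group G] [TopologicalSpace G]
  [Ch p R] [Algebra (ZMod p) R] {A : Act (ZMod p) R G ι} {AA : Type} [CommRing AA] [Algebra R AA]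
  [Pf p AA] (V : A.Mod AA) [V.IsAlg] (hP : PBs (P261.fr p R) A.m A.m) (F : Fil p AA)
  (M : ℝ → Submodule R AA) (hM : ∀ t x, x ∈ M t ↔ x ∈ F.F t) (hs : ∀ t, V.Stab (M t))

/-- configurations are points of the rings of cochains, and the rings of fractions carry
configurations -/
structure PT {B : CF p (ZMod p)} (L : Lab B ι) : Type 1 where
  /-- the point -/
  c : ∀ {n : ℕ} {T : FP p (ZMod p)}, (B.Z n).obj T → V.Coch (Fin (n + 1)) →+* T.K
  c_map : ∀ {n : ℕ} {T T' : FP p (ZMod p)} (φ : T.Hom T') (b : (B.Z n).obj T) x,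
    c ((B.Z n).map φ b) x = φ.f (c b x)
  c_res : ∀ {m n : ℕ} {T : FP p (ZMod p)} (f : Fin (m + 1) → Fin (n + 1)) (b : (B.Z n).obj T) x,
    c (B.res f b) x = c b (V.pullR f x)
  c_gam : ∀ {n : ℕ} {T : FP p (ZMod p)} (b : (B.Z n).obj T) (e : A.Gam (Fin (n + 1))),
    c b (algebraMap _ _ e) ∈ T.F.F 0
  c_vx : ∀ {n : ℕ} {T : FP p (ZMod p)} (b : (B.Z n).obj T) t x, x ∈ F.F t →
    c b (V.vxR 0 x) ∈ T.F.F t
  c_U : ∀ j {n : ℕ} {T : FP p (ZMod p)} (b : (B.Z n).obj T) i, L.U j b i →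
    ∃ y ∈ T.F.F 0, c b (algebraMap _ _ (A.vx i (A.u j))) * y = 1
  /-- the configuration over the ring of fractions -/
  b0 : ∀ {n : ℕ} (χ : Fin (n + 1) → Option ι), (B.Z n).obj (test V hP F M hM 0 χ)
  c_b0 : ∀ {n : ℕ} (χ : Fin (n + 1) → Option ι) x, c (b0 χ) x = V.toLoc χ x
  U_b0 : ∀ {n : ℕ} (χ : Fin (n + 1) → Option ι) i j, χ i = some j → L.U j (b0 χ) i
  res_b0 : ∀ {m n : ℕ} (f : Fin (m + 1) → Fin (n + 1)) (χ : Fin (n + 1) → Option ι),
    B.res f (b0 χ) = (B.Z m).map (testMap V hP F M hM hs 0 0 f χ) (b0 (χ ∘ f))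

namespace PT

variable {V hP F M hM hs} {B : CF p (ZMod p)} {L : Lab B ι} (D : PT V hP F M hM hs L) {n : ℕ}
  {T : FP p (ZMod p)}

/-- the marks -/
def lb (z : (L.cf.Z n).obj T) : Fin (n + 1) → Option ι := z.1.2

/-- the base configuration -/
def bs (z : (L.cf.Z n).obj T) : (B.Z n).obj T := z.1.1

theorem ex_cl (z : (L.cf.Z n).obj T) :
    ∃ c' : V.Loc (lb z) →+* T.K, ∀ x, c' (V.toLoc _ x) = D.c (bs z) x :=
  loc_lift _ fun i j e => by
    obtain ⟨y, -, hy⟩ := D.c_U j _ i (z.2 i j e)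
    exact V.vxR_alg i _ ▸ IsUnit.of_mul_eq_one y hy

/-- the point of the ring of fractions -/
def cl (z : (L.cf.Z n).obj T) : V.Loc (lb z) →+* T.K := (D.ex_cl z).choose

theorem cl_toLoc (z : (L.cf.Z n).obj T) (x) : D.cl z (V.toLoc _ x) = D.c (bs z) x :=
  (D.ex_cl z).choose_spec x

theorem cl_eq (z : (L.cf.Z n).obj T) {c : V.Loc (lb z) →+* T.K}
    (h : ∀ x, c (V.toLoc _ x) = D.c (bs z) x) (y) : D.cl z y = c y :=
  RingHom.congr_fun (loc_ext fun x => (D.cl_toLoc z x).trans (h x).symm) y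

/-- the inclusion -/
def i : Cs.Hom V.N L.cf.cos where
  app n :=
    { toFun := fun x => ⟨fun T z => D.cl z (x.1 (lb z)), fun T T' φ z =>
        D.cl_eq ((L.cf.Z n).map φ z) (c := φ.r.comp (D.cl z))
          (fun y => (congrArg φ.f (D.cl_toLoc z y)).trans (D.c_map φ _ y).symm) _,
        fun T z hz => (congrArg (D.cl z) (x.2 _ hz)).trans (map_zero _)⟩
      map_add' := fun x y => Subtype.ext (funext fun T => funext fun z => map_add (D.cl z) _ _)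
      map_smul' := fun a x => Subtype.ext (funext fun T => funext fun z =>
        ZMod.map_smul (D.cl z) a _) }
  nat f x := Subtype.ext (funext fun T => funext fun z =>
    (D.cl_eq (L.cf.res f z) (c := (D.cl z).comp (V.lpullR f (lb z)))
      (fun y => (D.cl_toLoc z _).trans (D.c_res f _ y).symm) _).symm)

/-- the universal configuration -/
def z0 (χ : Fin (n + 1) → Option ι) : (L.cf.Z n).obj (test V hP F M hM 0 χ) :=
  ⟨(D.b0 χ, χ), D.U_b0 χ⟩

theorem res_z0 {m : ℕ} (f : Fin (m + 1) → Fin (n + 1)) (χ : Fin (n + 1) → Option ι) :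
    L.cf.res f (D.z0 χ) = (L.cf.Z m).map (testMap V hP F M hM hs 0 0 f χ) (D.z0 (χ ∘ f)) :=
  Subtype.ext (Prod.ext (D.res_b0 f χ) rfl)

/-- the evaluation -/
def r : Cs.Hom L.cf.cos V.N where
  app n :=
    { toFun := fun g => ⟨fun χ => g.1 _ (D.z0 χ), fun χ h => g.2.2 _ _ h⟩
      map_add' := fun _ _ => rfl
      map_smul' := fun _ _ => rfl }
  nat f g := Subtype.ext (funext fun χ =>
    (congrArg (g.1 _) (D.res_z0 f χ)).trans
      (g.2.1 _ _ (testMap V hP F M hM hs 0 0 f χ) (D.z0 (χ ∘ f))))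

theorem r_i (x : V.N.X n) : D.r.app n (D.i.app n x) = x :=
  Subtype.ext (funext fun χ => D.cl_eq (D.z0 χ) (c := RingHom.id _) (fun y => (D.c_b0 χ y).symm) _)

theorem r_mem {β ε : ℝ} (hε : 0 < ε) {g : L.cf.cos.X n} (h : g ∈ (L.cf.step β).S n) :
    D.r.app n g ∈ V.NS (M (β + ε)) n := fun χ _ => h _ (D.z0 χ) ε hε

theorem inv_mem (z : (L.cf.Z n).obj T) (s : A.Den (lb z)) : D.cl z (Mod.fr 1 s) ∈ T.F.F 0 := by
  have h1 : ∃ y ∈ T.F.F 0, D.c (bs z) (algebraMap _ _ s.1) * y = 1 := by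
    obtain ⟨s, hs⟩ := s
    induction hs using Submonoid.closure_induction with
    | mem _ h => obtain ⟨i, j, e, rfl⟩ := h; exact D.c_U j _ i (z.2 i j e)
    | one => exact ⟨1, T.F.one_mem, by simp⟩
    | mul a b _ _ ha hb =>
      obtain ⟨y, h1, h2⟩ := ha
      obtain ⟨y', h1', h2'⟩ := hb
      exact ⟨y * y', T.F.mul_le h1 h1' (add_zero _).le, by
        rw [map_mul, map_mul, mul_mul_mul_comm, h2, h2', mul_one]⟩
  obtain ⟨y, h1, h2⟩ := h1
  have h3 := congrArg (D.cl z) (den_mul_fr 1 s)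
  rw [map_mul, map_one, map_one, ← V.toLoc_alg, cl_toLoc] at h3
  rwa [← one_mul (D.cl z _), ← h2, mul_right_comm, h3, one_mul]

variable [IsTopologicalGroup G] [IsNoetherianRing R] [IsAdicComplete A.m R]

theorem i_mem {β : ℝ} {x : V.N.X n} (h : x ∈ V.NS (M β) n) :
    D.i.app n x ∈ (L.cf.step β).S n := fun T z => by
  obtain ⟨H, s, e, h1⟩ := V.mem_NS.1 h (lb z)
  obtain ⟨a, c, y, h2, rfl⟩ := gen V 0 H h1
  change D.cl z (x.1 (lb z)) ∈ _
  rw [e, ← one_mul (∑ j, _), ← mul_one s, ← fr_mul_fr, map_mul, ← toLoc_apply, cl_toLoc, map_sum]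
  refine T.F.mul_le (D.inv_mem z s) (sum_mem fun j _ => ?_) (zero_add β).le
  rw [Algebra.smul_def, map_mul]
  exact T.F.mul_le (D.c_gam _ _) (D.c_vx _ β _ ((hM _ _).1 (h2 j))) (zero_add β).le

omit [IsNoetherianRing R] [IsAdicComplete A.m R] in
theorem act_i (t : L.cf.Map L.cf) (ht : ∀ {T} (z : (L.cf.Z n).obj T), lb (t.f z) = lb z)
    (γ : AA →ₐ[R] AA) (hγ : ∀ g x, γ (V.ρ g x) = V.ρ g (γ x))
    (h1 : ∀ {T} (z : (L.cf.Z n).obj T) (e : A.Gam (Fin (n + 1))),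
      D.c (bs (t.f z)) (algebraMap _ _ e) = D.c (bs z) (algebraMap _ _ e))
    (h2 : ∀ {T} (z : (L.cf.Z n).obj T) x, D.c (bs (t.f z)) (V.vxR 0 (γ x)) = D.c (bs z) (V.vxR 0 x))
    (x : V.N.X n) : t.pull.app n (D.i.app n (op V V γ.toLinearMap n x)) = D.i.app n x := by
  let f : LHom V V := ⟨γ.toLinearMap, hγ⟩
  refine Subtype.ext (funext fun T => funext fun z => ?_)
  change D.cl (t.f z) ((op V V f.Φ n x).1 _) = D.cl z (x.1 _)
  have h3 := h1 z
  have h4 := h2 z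
  have h5 := ht z
  generalize t.f z = z' at h3 h4 h5
  obtain ⟨⟨b', χ'⟩, hz'⟩ := z'
  obtain ⟨⟨b, χ⟩, hz⟩ := z
  obtain rfl : χ' = χ := h5
  rw [op_eq]
  refine (D.cl_eq ⟨(b, χ'), hz⟩ (c := (D.cl ⟨(b', χ'), hz'⟩).comp
    (f.locR (map_one γ) (map_mul γ) χ')) (fun y => (D.cl_toLoc ⟨(b', χ'), hz'⟩ _).trans ?_) _).symm
  refine RingHom.congr_fun (f := (D.c b').comp (f.cochR (map_one γ) (map_mul γ) _))
    (ring_ext 0 (fun e => ?_) fun y => ?_) y
  · refine (congrArg (D.c b') (Subtype.ext (funext fun g => ?_))).trans (h3 e)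
    exact (congrArg γ (alg_val e g)).trans ((γ.commutes _).trans (alg_val e g).symm)
  · exact (congrArg (D.c b') (f.coch_vx 0 y)).trans (h4 y)

end PT

variable [Algebra (ZMod p) AA] [IsScalarTower (ZMod p) R AA] [Finite ι] [IsTopologicalGroup G]
  [IsNoetherianRing R] [IsAdicComplete A.m R] {h : ℕ} {v : R} {φ : G → R →+* R}
  {Φ : G →* (AA →+* AA)} {Γ : Type} [Group Γ] {H : PC.GF p}

omit [Finite ι] [IsTopologicalGroup G] [IsNoetherianRing R] [IsAdicComplete A.m R] [Pf p AA]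
  [Algebra (ZMod p) AA] [IsScalarTower (ZMod p) R AA] [V.IsAlg] in
theorem stab_M (hV : ∀ g x, V.ρ g x = Φ g x) {vi : AA} {γ : Γ → AA →ₐ[R] AA}
    (F : P.FlD p v vi (fun g => Φ g) γ) (t : ℝ) : V.Stab (F.M t) :=
  fun g x hx => hV g x ▸ F.b_Φ g t x hx

/-- **the last step of the bridge** -/
theorem good_N (hD : DOMI.{0, 1} p (ZMod p)) (hV : ∀ g x, V.ρ g x = Φ g x)
    (I : P.IgD p h v AA φ Φ Γ H) (F : P.FlD p v I.vi (fun g => Φ g) fun δ => I.γ δ)
    {B : CF p (ZMod p)} {L : Lab B ι} {a : B.Act} (hL : L.Stab a)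
    (D : PT V hP F.b F.M (fun _ _ => Iff.rfl) (stab_M V hV F) L)
    (h1 : ∀ s, s % p = 1 → ∀ n T (b : (B.Z n).obj T) (e : A.Gam (Fin (n + 1))),
      D.c ((a.e s).f b) (algebraMap _ _ e) = D.c b (algebraMap _ _ e))
    (h2 : ∀ s, s % p = 1 → ∀ n T (b : (B.Z n).obj T) x,
      D.c ((a.e s).f b) (V.vxR 0 (I.γ (I.a s) x)) = D.c b (V.vxR 0 x))
    {q : ℕ} (hG : (L.cf.fa hL.cf).Good q) : (P.fa I F (nf V hV hP)).Good q :=
  hD (P.fa I F (nf V hV hP)) (L.cf.fa hL.cf) D.i D.r (fun _ _ _ hx => D.i_mem hx)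
    (fun _ _ _ hε _ hx => D.r_mem hε hx) (fun _ => D.r_i) (fun s hs n x =>
      D.act_i (hL.cf.e s) (fun _ => rfl) _ (fun g y => by rw [hV, hV, I.comm])
        (fun z => h1 s hs n _ (PT.bs z)) (fun z => h2 s hs n _ (PT.bs z)) x) q hG

end P261.C2
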