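import Vale.Agent.P261Z.C2.TGa
import Vale.Agent.P261Z.N.Prod
import Vale.Agent.P261Z.Ig.Evo

/-!
# P261Z, block C2: points of the rings of cochains
-/

set_option linter.all false

open Matrix MvPowerSeries

noncomputable section

namespace P261.C2

open Vale.Agent.P251.F Vale.Agent.P261Z Vale.Agent.P261Z.N

variable {p : ℕ} [hp : Fact p.Prime]

namespace Tg

section ext

variable {B B' Y : Type} [CommRing B] [CommRing B'] {I I' : Type}

theorem ph_ext [Ch p B] [Ch p B'] [IsReduced B'] (f : Y → B →+* B')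
    (hf : ∀ b, (∀ y, f y b = 0) → b = 0) {x x' : PH p B}
    (h : ∀ y, PH.map (f y) x = PH.map (f y) x') : x = x' := by
  obtain ⟨k, b, e⟩ := PH.exists_pow (x - x')
  refine sub_eq_zero.1 (eq_zero_of_pow (e.trans ?_))
  rw [hf b fun y => (PH.of_eq_zero (p := p).1 ?_).eq_zero, map_zero]
  rw [← PH.map_of, ← e, map_pow, map_sub, h, sub_self, zero_pow (pow_ne_zero _ hp.out.ne_zero)]

theorem mat_ext (f : Y → B →+* B') (hf : ∀ b b', (∀ y, f y b = f y b') → b = b')
    {M M' : Matrix I I' (WittVector p B)} (h : ∀ y, M.map (wm p (f y)) = M'.map (wm p (f y))) :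
    M = M' :=
  Matrix.ext fun i j => WittVector.ext fun l => hf _ _ fun y =>
    congrArg (fun z => WittVector.coeff z l) (congrFun₂ (h y) i j)

theorem itw_of_ev [Pf p B] [Pf p B'] [Fintype I] [Fintype I'] (f : Y → B →+* B')
    (hf : ∀ b b', (∀ y, f y b = f y b') → b = b') {A : Matrix I I (WittVector p B)}
    {T : Matrix I I' (WittVector p B)} {A' : Matrix I' I' (WittVector p B)}
    (h : ∀ y, Itw (A.map (wm p (f y))) (T.map (wm p (f y))) (A'.map (wm p (f y)))) : Itw A T A' :=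
  mat_ext f hf fun y => by
    rw [Matrix.map_mul, Matrix.map_mul, ← h y]
    congr 1
    ext1 i j
    exact wm_si _ _

end ext

variable {h c : ℕ} {G : Type} [Group G] [TopologicalSpace G] [IsTopologicalGroup G] {K : Type}
  [Field K] {k₀ ι' : Type} [CommRing k₀] [Algebra k₀ (RR c K)] {A : RG p h c G K}
  {A' : NM.Act k₀ (RR c K) G ι'} {I : Type}

variable (A') in
/-- evaluation of cochains -/
def evG (g : I → G) : A'.Gam I →+* RR c K := (Pi.evalRingHom _ g).comp (A'.Gam I).subtype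

theorem evG_ext {a b : A'.Gam I} (e : ∀ g, evG A' g a = evG A' g b) : a = b :=
  Subtype.ext (funext e)

theorem evG_vx (hA : IsAct A A') (g : I → G) (i : I) : (evG A' g).comp (A'.vx i) = A.ph (g i) :=
  hA.φ (g i)

/-- the series from the vertex `j` to the vertex `i` -/
def usI (hA : IsAct A A') (i j : I) : InvSeries (A'.Gam I) :=
  let f : I → I → ℕ → A'.Gam I := fun i j m =>
    ⟨fun g => A'.φ (g i) ((A.ser ((g i)⁻¹ * g j)).c m),
      A'.lc_φ (continuous_apply i) (NM.lc_comp (f := fun γ => (A.ser γ).c m)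
        (hA.m ▸ lc_iff.2 (A.cont_ser m)) (by fun_prop)),
      fun γ g => by simp only [A'.φ_mul, _root_.mul_inv_rev, mul_assoc, inv_mul_cancel_left]⟩
  InvSeries.ofCoeff (f i j) (IsUnit.of_mul_eq_one (f j i 0) (evG_ext fun g => by
    have e := A.t_mul ((g i)⁻¹ * g j) ((g j)⁻¹ * g i)
    rw [mul_assoc, mul_inv_cancel_left, inv_mul_cancel, A.t_one] at e
    have e2 := congrArg (A.phi (g i)) e
    rw [Units.val_one, map_one, map_mul, ← AlgHom.mul_apply, ← map_mul, mul_inv_cancel_left] at e2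
    change A'.φ _ _ * A'.φ _ _ = 1
    rw [hA.φ, hA.φ]
    exact e2.symm))

theorem usI_ev (hA : IsAct A A') (i j : I) (g : I → G) : InvSeries.map (evG A' g) (usI hA i j) =
    InvSeries.map (A.ph (g i)) (A.ser ((g i)⁻¹ * g j)) := InvSeries.ext_c fun m => by
  rw [InvSeries.c_map, InvSeries.c_map, usI, InvSeries.c_ofCoeff, ← hA.φ]
  rfl

/-- cochains as functions with the vertex `i` fixed -/
def resG [DecidableEq I] (hA : IsAct A A') (i : I) : A'.Gam I →+* CR c (I → G) K where
  toFun a := fam (fun y => a.1 (Function.update y i 1))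
    (lc_iff.1 (NM.lc_comp (hA.m ▸ a.2.1) (continuous_id.update i continuous_const)))
  map_one' := evp_ext fun t => by rw [evp_fam, map_one]; rfl
  map_mul' a b := evp_ext fun t => by rw [map_mul, evp_fam, evp_fam, evp_fam]; rfl
  map_zero' := evp_ext fun t => by rw [evp_fam, map_zero]; rfl
  map_add' a b := evp_ext fun t => by rw [map_add, evp_fam, evp_fam, evp_fam]; rfl

theorem evp_resG [DecidableEq I] (hA : IsAct A A') (i : I) (y : I → G) :
    (evp y).comp (resG hA i) = evG A' (Function.update y i 1) :=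
  RingHom.ext fun _ => MvPowerSeries.ext fun _ => rfl

/-- the coordinate `j` with the vertex `i` fixed -/
def prU [DecidableEq I] (i j : I) : C(I → G, G) :=
  ⟨fun y => Function.update y i 1 j,
    (continuous_apply j).comp (continuous_id.update i continuous_const)⟩

theorem resG_vx [DecidableEq I] (hA : IsAct A A') (i j : I) (r : RR c K) :
    resG hA i (A'.vx j r) = A.co (prU i j) r := evp_ext fun y => by
  rw [A.evp_co, ← RingHom.comp_apply, evp_resG, ← RingHom.comp_apply, evG_vx hA]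
  rfl

theorem resG_us [DecidableEq I] (hA : IsAct A A') (i j : I) :
    InvSeries.map (resG hA i) (usI hA i j) = A.us (prU i j) :=
  InvSeries.ext_c fun m => evp_ext fun y => by
    rw [← InvSeries.c_map, ← InvSeries.c_map, InvSeries.map_map, evp_resG, usI_ev, A.evp_us,
      Function.update_self, A.ph_one, InvSeries.map_id, inv_one, one_mul]
    rfl

/-- the cochain given by a function -/
def extG (hA : IsAct A A') (i : I) : CR c (I → G) K →+* A'.Gam I :=
  (RingHom.pi fun g : I → G => (A'.φ (g i)).comp (evp fun j => (g i)⁻¹ * g j)).codRestrict _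
    fun b => ⟨A'.lc_φ (continuous_apply i) (NM.lc_comp (f := fun y => evp y b)
      (hA.m ▸ lc_iff.2 fun d => (coeff d b).isLocallyConstant) (by fun_prop)), fun γ g => by
        simp only [RingHom.pi_apply, RingHom.comp_apply, A'.φ_mul, _root_.mul_inv_rev, mul_assoc,
          inv_mul_cancel_left]⟩

theorem evG_extG (hA : IsAct A A') (i : I) (g : I → G) (b : CR c (I → G) K) :
    evG A' g (extG hA i b) = A.ph (g i) (evp (fun j => (g i)⁻¹ * g j) b) := by
  rw [← hA.φ]; rfl

theorem extG_surj (hA : IsAct A A') (i : I) : Function.Surjective (extG hA i) := fun a =>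
  ⟨fam a.1 (lc_iff.1 (hA.m ▸ a.2.1)), evG_ext fun g => by
    rw [evG_extG, evp_fam, ← hA.φ, ← a.2.2]
    simp only [mul_inv_cancel_left]
    rfl⟩

theorem extG_cst (hA : IsAct A A') (i : I) (r : RR c K) : extG hA i (cst _ r) = A'.vx i r :=
  evG_ext fun g => by rw [evG_extG, evp_cst, ← evG_vx hA]; rfl

theorem extG_us (hA : IsAct A A') (i j : I) :
    InvSeries.map (extG hA i) (A.us (pr j)) = usI hA i j :=
  InvSeries.ext_c fun m => evG_ext fun g => by
    rw [InvSeries.c_map, evG_extG, ← InvSeries.c_map, ← InvSeries.c_map, A.evp_us,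
      ← InvSeries.c_map, usI_ev]
    rfl

variable [Pf p K] {h1 : 1 ≤ h} (Θ : TGd A h1) (hA : IsAct A A')

theorem phG_ext (x x' : PH p (A'.Gam I))
    (e : ∀ g, PH.map (evG A' g) x = PH.map (evG A' g) x') : x = x' :=
  ph_ext (evG A') (fun b hb => evG_ext fun g => (hb g).trans (map_zero _).symm) e

theorem thI_ev (i j : I) (g : I → G) :
    (Θ.thI hA i j).map (wm p (evG A' g)) = (Θ.th ((g i)⁻¹ * g j)).map (wm p (A.ph (g i))) := by
  rw [← hA.φ]; rfl

theorem TI_ev (i j : I) (g : I → G) : (Θ.TI hA i j).map (wm p (PH.map (evG A' g))) =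
    (Θ.T ((g i)⁻¹ * g j)).map (wm p (PH.map (A.ph (g i)))) := by
  rw [TGd.TI, up_map, thI_ev, TGd.T, up_map]

theorem thI_self (i : I) : Θ.thI hA i i = 1 :=
  mat_ext (evG A') (fun _ _ => evG_ext) fun g => by
    rw [thI_ev, inv_mul_cancel, Θ.one, Matrix.map_one _ (map_zero _) (map_one _),
      Matrix.map_one _ (map_zero _) (map_one _)]

theorem thI_mul (i j l : I) : Θ.thI hA i j * Θ.thI hA j l = Θ.thI hA i l :=
  mat_ext (evG A') (fun _ _ => evG_ext) fun g => by
    have e : (g i)⁻¹ * g l = (g i)⁻¹ * g j * ((g j)⁻¹ * g l) := by group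
    have e' : A.ph (g j) = (A.ph (g i)).comp (A.ph ((g i)⁻¹ * g j)) := by
      rw [← A.ph_mul, mul_inv_cancel_left]
    rw [Matrix.map_mul, thI_ev, thI_ev, thI_ev, e, Θ.mul (_ * _), Matrix.map_mul, e']
    rfl

theorem TI_itw (i j : I) : Itw (Au p (h + c) fun l => PH.map (A'.vx i) (uu p h c K l))
    (Θ.TI hA i j) (Au p (h + c) fun l => PH.map (A'.vx j) (uu p h c K l)) :=
  itw_of_ev (fun g => PH.map (evG A' g)) phG_ext fun g => by
    have e := Mt.itw_map (PH.map (A.ph (g i))) (Θ.T_itw ((g i)⁻¹ * g j))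
    simp only [Au_map, PH.map_map, ← A.ph_mul, mul_inv_cancel_left] at e
    simp only [Au_map, PH.map_map, evG_vx hA, TI_ev]
    exact e

theorem TI_crv (i j : I) : cT (pos_add h1 c) (pos_add h1 c)
    (fun l => PH.map (A'.vx i) (uu p h c K l)) (Θ.TI hA i j) =
      PowerSeries.map (algebraMap _ _) (usI hA i j).val := by
  ext m
  refine phG_ext _ _ fun g => ?_
  rw [← PowerSeries.coeff_map, ← cT_map, TI_ev]
  simp only [PH.map_map, evG_vx hA]
  rw [cT_map, Θ.T_crv, PowerSeries.coeff_map, PowerSeries.coeff_map, PowerSeries.coeff_map,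
    PH.map_of, PH.map_of, ← PowerSeries.coeff_map (evG A' g), ← InvSeries.map_val, usI_ev,
    InvSeries.map_val, PowerSeries.coeff_map]

variable {S : Type} [CommRing S] [Pf p S] (τ : A'.Gam I →+* S)

theorem lift_uu (i : I) : (fun l => PH.lift τ (PH.map (A'.vx i) (uu p h c K l))) =
    uy h fun j => τ (A'.vx i (X j)) := by
  have := uu_map (h := h) ((PH.lift τ).comp (PH.map (A'.vx i)))
  simpa only [RingHom.comp_apply, PH.map_of, PH.lift_of] using this

theorem pt_itw (i j : I) : Itw (Au p (h + c) (uy h fun l => τ (A'.vx i (X l))))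
    ((Θ.TI hA i j).map (wm p (PH.lift τ))) (Au p (h + c) (uy h fun l => τ (A'.vx j (X l)))) := by
  have e := Mt.itw_map (PH.lift τ) (TI_itw Θ hA i j)
  rwa [Au_map, Au_map, lift_uu, lift_uu] at e

theorem pt_crv (i j : I) : cT (pos_add h1 c) (pos_add h1 c) (uy h fun l => τ (A'.vx i (X l)))
    ((Θ.TI hA i j).map (wm p (PH.lift τ))) = (InvSeries.map τ (usI hA i j)).val := by
  rw [← lift_uu, cT_map, TI_crv]
  ext m
  simp only [PowerSeries.coeff_map, InvSeries.map_val, PH.lift_of]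

theorem pt_mul (i j l : I) : (Θ.TI hA i j).map (wm p (PH.lift τ)) *
    (Θ.TI hA j l).map (wm p (PH.lift τ)) = (Θ.TI hA i l).map (wm p (PH.lift τ)) := by
  rw [← Matrix.map_mul, TGd.TI, TGd.TI, ← up_mul, thI_mul, TGd.TI]

end Tg

open Tg

theorem ul0 : UL0 p := fun _ _ _ _ _ _ _ _ _ _ _ Θ _ _ _ _ _ hA _ =>
  ⟨thI_self Θ hA, thI_mul Θ hA, TI_itw Θ hA⟩

theorem ulu : ULU p := by
  intro h c h1 k _ D hD K _ _ ι A hT Θ k₀ ι' _ _ A' hA I _ hI S _ _ J _ τ τ' e1 e2 e3 e4
  obtain ⟨i⟩ := hI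
  obtain ⟨J', -, h2, h3, N, h4⟩ := exists_ideal J (Set.finite_range fun l => τ (A'.vx i (X l)))
    (by rintro _ ⟨l, rfl⟩; exact e3 i l)
  have := haus_of_pow h4
  have hX : ∀ (σ : A'.Gam I →+* S) l, σ.comp (extG hA i) (X l) = σ (A'.vx i (X l)) := fun σ l => by
    rw [RingHom.comp_apply, ← cst_X, extG_cst]
  have hc : ∀ (σ : A'.Gam I →+* S) a,
      σ (extG hA i (C (LocallyConstant.const _ a))) = σ (A'.vx i (C a)) := fun σ a => by
    rw [← cst_C, extG_cst]
  have key : ∀ (σ : A'.Gam I →+* S), (∀ l, σ (A'.vx i (X l)) ∈ J.radical) → ∀ j m,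
      (InvSeries.map σ (usI hA i j)).c m - σ (extG hA i (C ((cfK D ι (m + 1)).comap (pr j)))) ∈
        J.radical := fun σ hσ j m => by
    have := map_mem (σ.comp (extG hA i)) (fun l => (hX σ l).symm ▸ hσ l)
      (f := (A.us (pr j)).c m - C ((cfK D ι (m + 1)).comap (pr j))) (by
        rw [map_sub, hT.cc_us, constantCoeff_C, sub_self])
    rwa [map_sub, ← InvSeries.c_map, ← InvSeries.map_map, extG_us] at this
  have fx : ∀ (σ : A'.Gam I →+* S) (j : I) m,
      σ (extG hA i (C ((cfK D ι m).comap (pr j)))) ^ p ^ (h + c) =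
        σ (extG hA i (C ((cfK D ι m).comap (pr j)))) := fun σ j m => by
    rw [← map_pow, ← map_pow, ← map_pow]
    exact congrArg (fun z => σ (extG hA i (C z)))
      ((map_pow (LocallyConstant.comapRingHom (pr j)) _ _).symm.trans
        (congrArg _ (cfK_pow D ι m)))
  have hb : τ.comp (extG hA i) = τ'.comp (extG hA i) := by
    refine Ev.hom_ext J' (DFunLike.congr_fun (lc_prod_ext
      (Θ := (τ.comp (extG hA i)).comp C) (Θ' := (τ'.comp (extG hA i)).comp C)
      (fun a => ((hc τ a).trans (e1 i a)).trans (hc τ' a).symm) fun j => DFunLike.congr_fun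
        (aut_ext D ι
          (θ := ((τ.comp (extG hA i)).comp C).comp (LocallyConstant.comapRingHom (pr j)))
          (θ' := ((τ'.comp (extG hA i)).comp C).comp (LocallyConstant.comapRingHom (pr j)))
          (fun a => ((hc τ a).trans (e1 i a)).trans (hc τ' a).symm) fun m => ?_)))
      (fun l => by rw [hX, hX, e2]) fun l => (hX τ l).symm ▸ h2 _ ⟨l, rfl⟩
    have e5 : InvSeries.map τ (usI hA i j) = InvSeries.map τ' (usI hA i j) := InvSeries.ext (by
      rw [← pt_crv Θ, ← pt_crv Θ, e4]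
      simp only [e2])
    have := sub_mem (key τ' (fun l => e2 i l ▸ e3 i l) j m) (key τ (e3 i) j m)
    rw [e5, sub_sub_sub_cancel_left] at this
    exact eq_of_fix (pos_add h1 c) (fx τ j _) (fx τ' j _) this
  refine RingHom.ext fun a => ?_
  obtain ⟨b, rfl⟩ := extG_surj hA i a
  exact RingHom.congr_fun hb b

theorem ule : ULE p := by
  intro h c h1 k _ D hD K _ _ ι A hT Θ k₀ ι' _ _ A' hA I _ hI S _ _ κ J _ x U U' e1 e2 e3 e4
  classical
  obtain ⟨i⟩ := hI
  have hn := pos_add h1 c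
  obtain ⟨J', h0, h2, h3, N, h4⟩ := exists_ideal J (Set.finite_range fun z : I × Fin c => x z.1 z.2)
    (by rintro _ ⟨z, rfl⟩; exact e1 _ _)
  have := Ig.complete_of_pow h0 h4
  have hx : ∀ j l, x j l ∈ J' := fun j l => h2 _ ⟨(j, l), rfl⟩
  have hu : ∀ j m, uy h (x j) m ∈ J'.radical := fun j => uy_mem h fun l => Ideal.le_radical (hx j l)
  have hun : ∀ j, IsUnit ((U i j ⟨0, hn⟩ ⟨0, hn⟩).coeff 0) := fun j => by
    rw [← cT_lead (u := uy h (x i))]
    exact cT_unit hn (e3 i j) (e2 i j)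
  have hθ : ∀ j, ∃ θ : LocallyConstant D.GG K →+* S, (∀ b, θ (LocallyConstant.const _ b) = κ b) ∧
      ∀ m, (iT hn (uy h (x i)) (U i j) (hun j)).c m - θ (cfK D ι (m + 1)) ∈ J'.radical := fun j => by
    obtain ⟨T₀, a1, a2⟩ := (nfg (h + c) S J').1 _ _ (U i j) (fun m _ _ => hu i m)
      (fun m _ _ => hu j m) (e3 i j)
    have a3 : IsUnit ((T₀ ⟨0, hn⟩ ⟨0, hn⟩).coeff 0) := by
      have b := Nfu.wi_sub.1 (a2 ⟨0, hn⟩ ⟨0, hn⟩) 0
      refine unit_of_sub (J := J'.radical) ?_ (by simpa using neg_mem b) (hun j)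
      exact (Ideal.radical_mono (IsAdicComplete.le_jacobson_bot J')).trans
        (Ideal.isRadical_jacobson _)
    obtain ⟨θ, ⟨b1, b2⟩, -⟩ := Tu_rep hD ι κ a1 a3
    refine ⟨θ, b1, fun m => ?_⟩
    have := cT_sub (u' := 0) hn _ (hu i) (fun _ => zero_mem _) a2 (m + 1)
    rwa [← b2, Tu_coeff] at this
  choose θ hθ1 hθ2 using hθ
  obtain ⟨Θ', a1, a2⟩ := lc_prod κ θ hθ1
  have hU : U i i = 1 := by
    rw [← Matrix.one_mul (U i i), ← mul_eq_one_comm.1 (e2 i i), Matrix.mul_assoc, e4]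
  have hβ : ∀ l, Ev.ev J' Θ' (x i) (X l) = x i l := Ev.ev_X Θ' (hx i)
  have key : ∀ j, (∀ l, x j l = Ev.ev J' Θ' (x i) (A.co (prU i j) (X l))) ∧
      iT hn (uy h (x i)) (U i j) (hun j) = InvSeries.map (Ev.ev J' Θ' (x i)) (A.us (prU i j)) := by
    intro j
    refine hT.fam_uniq h1 rfl (prU i j) J' _ (fun l => (hβ l).symm ▸ hx i l) (hx j) ?_ fun m => ?_
    · simp only [hβ]
      rw [← lw_uy, ← lw_uy]
      exact iT_smul hn (e3 i j) (hun j)
    · rw [Ev.ev_C]
      by_cases hj : j = i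
      · subst hj
        have b1 : (cfK D ι (m + 1)).comap (prU j j) =
            LocallyConstant.const _ (ι ((1 : D.GG).cf (m + 1))) :=
          LocallyConstant.ext fun y => congrArg (cfK D ι (m + 1)) (Function.update_self j 1 y)
        have b2 : (iT hn (uy h (x j)) (U j j) (hun j)).c m = κ (ι ((1 : D.GG).cf (m + 1))) := by
          change PowerSeries.coeff (m + 1) (cT hn hn _ (U j j)) = _
          rw [hU, cT_one, AutF.cf, AutF.val_one, PowerSeries.coeff_X, PowerSeries.coeff_X]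
          split_ifs <;> simp
        rw [b1, a1, b2, sub_self]
        exact zero_mem _
      · rw [show prU i j = pr j from ContinuousMap.ext fun y => Function.update_of_ne hj 1 y, a2]
        exact hθ2 j m
  have hX : ∀ j l, (Ev.ev J' Θ' (x i)).comp (resG hA i) (A'.vx j (X l)) = x j l := fun j l => by
    rw [RingHom.comp_apply, resG_vx, ← (key j).1]
  have hW : ∀ j, U i j = (Θ.TI hA i j).map (wm p (PH.lift ((Ev.ev J' Θ' (x i)).comp (resG hA i)))) :=
    fun j => by
      have b1 := pt_itw Θ hA ((Ev.ev J' Θ' (x i)).comp (resG hA i)) i j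
      have b2 := pt_crv Θ hA ((Ev.ev J' Θ' (x i)).comp (resG hA i)) i j
      simp only [hX] at b1 b2
      refine itw_eq hn J' (hu i) (hu j) (e2 i j) (e3 i j) b1 ?_
      rw [b2, ← InvSeries.map_map, resG_us, ← (key j).2]
      rfl
  refine ⟨(Ev.ev J' Θ' (x i)).comp (resG hA i), fun j a => ?_, hX, fun j l => ?_⟩
  · rw [RingHom.comp_apply, resG_vx, A.co_C, Ev.ev_C, a1]
  · have b := pt_mul Θ hA ((Ev.ev J' Θ' (x i)).comp (resG hA i)) i j l
    rw [← hW, ← hW, ← e4 i j l] at b
    rw [← Matrix.one_mul (U j l), ← mul_eq_one_comm.1 (e2 i j), Matrix.mul_assoc, ← b,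
      ← Matrix.mul_assoc, mul_eq_one_comm.1 (e2 i j), Matrix.one_mul]

end P261.C2
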