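import Vale.Agent.P261Z.C2.Br
import Vale.Agent.P261Z.C2.Ev
import Vale.Agent.P261Z.C2.TGb
import Vale.Agent.P261Z.C1.Bas
import Vale.Agent.P261Z.Ig.Sk1

/-!
# P261Z, block C2: the universal configurations over the rings of fractions
-/

set_option linter.all false

open Matrix MvPowerSeries

noncomputable section

namespace P261.C2

open Vale.Agent.P251.F Vale.Agent.P261Z Vale.Agent.P261Z.N P261.Ig P261.NM P261.NM.Act
  P261.NM.Act.Mod

variable {p : ℕ} [hp : Fact p.Prime] {h c : ℕ}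

namespace Pt

variable {S : Type} [CommRing S] [Pf p S] {F : Fil p S}

theorem mmul {I J L : Type} [Fintype J] {M : Matrix I J (WittVector p S)}
    {M' : Matrix J L (WittVector p S)} {s t : ℝ} (hM : F.MW s M) (hM' : F.MW t M') :
    F.MW (s + t) (M * M') := fun i j => sum_mem fun l _ => Fil.WL_mul (hM i l) (hM' l j)

theorem yv_eq (h1 : 1 ≤ h) {v : LV p (Fin c) h S} {x : Fin c → S}
    (e : v.mA = (Au p (h + c) (uy h x)).submatrix (rx h c) (rx h c)) : yv v = x := by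
  funext j
  have := j.2
  have e1 : ∀ i : Fin c, ((rx h c (.inl i) : Fin (h + c)) : ℕ) = h + i := fun _ => rfl
  rw [yv, e, submatrix_apply, Au, Cm, of_apply, e1, e1, if_neg (by simp only []; omega),
    if_pos (by simp only []; omega), if_neg (by omega), ← WittVector.constantCoeff_apply, map_neg,
    neg_neg, WittVector.constantCoeff_apply, WittVector.teichmuller_coeff_zero, uy, rt_pow_pp,
    exh_add]

theorem mA_vtx {A : Matrix (Fin (h + c)) (Fin (h + c)) (WittVector p S)} {μ ν}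
    (H : Iso (V0 p (Fin c) h _) A μ ν) (a : Fin c → WittVector p S) :
    (vtx a μ ν).mA = A.submatrix (rx h c) (rx h c) := by
  rw [← Matrix.one_mul A, ← H.nm, Matrix.mul_assoc ν, ← H.eq, ← Matrix.mul_assoc]
  rfl

theorem isZ_a {v v' : LV p (Fin c) h S} (H : v.IsZ F) (H' : v'.IsZ F) (e : F.MW 0 (v.ν * v'.μ))
    (e' : F.MW 0 (v'.ν * v.μ)) : LV.IsZ F { v with a := v'.a } :=
  ⟨H'.isA, H.lat, H.inv, H.hA, H.hB, by
    have := mmul H'.b1 e'
    rwa [add_zero, Matrix.mul_assoc, ← Matrix.mul_assoc v'.μ, H'.inv, Matrix.one_mul] at this, by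
    have := mmul e H'.b2
    rwa [zero_add, ← Matrix.mul_assoc, Matrix.mul_assoc v.ν, H'.inv, Matrix.mul_one] at this⟩

theorem lift_mem {B : Type} [CommRing B] [Ch p B] {f : B →+* S} (hf : ∀ b, f b ∈ F.F 0)
    (x : PH p B) : PH.lift f x ∈ F.F 0 := by
  obtain ⟨N, b, e⟩ := PH.exists_pow x
  refine Fil.root_pow N ?_
  rw [mul_zero, ← map_pow, e, PH.lift_of]
  exact hf b

end Pt

open Pt

variable {G : Type} [Group G] [TopologicalSpace G] [IsTopologicalGroup G] {K : Type} [Field K]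
  [Pf p K] [Algebra (ZMod p) K] {A : RG p h c G K} {h1 : 1 ≤ h} {Θ : TGd A h1}
  {A' : NM.Act (ZMod p) (RR c K) G (Fin c)} {AA : Type} [CommRing AA] [Algebra (RR c K) AA]
  [Pf p AA] {V : A'.Mod AA} [V.IsAlg]

namespace UD

variable (U : UD Θ V) {I S : Type} [CommRing S] [Pf p S]

/-- the bases at two vertices -/
theorem mu_vx (τ : V.Coch I →+* S) (i j : I) : mw (τ.comp (V.vxR j)) U.mu =
    mw (τ.comp (V.vxR i)) U.mu * mw (PH.lift (τ.comp (algebraMap _ _))) (Θ.TI U.act i j) := by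
  have := pf_coch V U.pbs I
  have e : PH.lift (τ.comp (algebraMap (A'.Gam I) _)) = τ.comp (PH.lift (algebraMap _ _)) :=
    PH.hom_ext fun a => by simp only [PH.lift_of, RingHom.comp_apply]
  rw [e, ← mw_mw τ, ← mw_mw τ, ← mw_mw τ, ← mw_mul]
  refine congrArg _ (Tg.mat_ext V.evR (fun _ _ e => Subtype.ext (funext e)) fun g => ?_)
  have e' : (V.evR g).comp (PH.lift (algebraMap (A'.Gam I) _)) =
      (PH.lift (algebraMap (RR c K) AA)).comp (PH.map (Tg.evG A' g)) :=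
    PH.hom_ext fun a => by
      simp only [PH.lift_of, RingHom.comp_apply, PH.map_of]
      exact alg_val a g
  change mw (V.ρR (g j)) U.mu = mw (V.evR g) (_ * _)
  rw [mw_mul, mw_mw _ (PH.lift _), e', ← mw_mw _ (PH.map _), mw.eq_1 (PH.map _), Tg.TI_ev, U.ρ_mu,
    ← mul_inv_cancel_left (g i) (g j), Θ.T_mul, mw_mul, ← Matrix.mul_assoc, ← U.ρ_mu,
    mul_inv_cancel_left]
  rfl

theorem iso_map (f : AA →+* S) : Iso (V0 p (Fin c) h _)
    (Au p (h + c) (uy h fun j => f (algebraMap (RR c K) AA (X j)))) (mw f U.mu) (mw f U.nu) := by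
  have := U.iso.map f
  rwa [mw_V0, mw_Au, uy_map] at this

theorem nu_mu (τ : V.Coch I →+* S) (i j : I) : mw (τ.comp (V.vxR i)) U.nu * mw (τ.comp (V.vxR j)) U.mu =
    mw (PH.lift (τ.comp (algebraMap _ _))) (Θ.TI U.act i j) := by
  rw [U.mu_vx τ i j, ← Matrix.mul_assoc, (U.iso_map _).nm, Matrix.one_mul]

include U in
theorem vx_C (i j : I) (a : K) : V.vxR i (algebraMap (RR c K) AA (C a)) =
    V.vxR j (algebraMap (RR c K) AA (C a)) := by
  rw [vxR_alg, vxR_alg]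
  refine congrArg _ (Subtype.ext (funext fun g => ?_))
  rw [Act.vx_val, Act.vx_val, U.act.φ, U.act.φ]
  exact (Un.phi_C A _ a).trans (Un.phi_C A _ a).symm

/-- the vertex at the point `i` -/
def pv (τ : V.Coch I →+* S) (i : I) : LV p (Fin c) h S :=
  (C2.vtx U.a U.mu U.nu).map (τ.comp (V.vxR i))

theorem pv_eq (τ : V.Coch I →+* S) (i : I) : U.pv τ i = C2.vtx (U.pv τ i).a
    (mw (τ.comp (V.vxR i)) U.mu) (mw (τ.comp (V.vxR i)) U.nu) := vtx_map _ _ _ _

theorem mA_pv (τ : V.Coch I →+* S) (i : I) : (U.pv τ i).mA = (Au p (h + c)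
    (uy h fun j => τ (V.vxR i (algebraMap (RR c K) AA (X j))))).submatrix (rx h c) (rx h c) := by
  rw [pv_eq]
  exact mA_vtx (U.iso_map _) _

theorem yv_pv (τ : V.Coch I →+* S) (i : I) :
    yv (U.pv τ i) = fun j => τ (V.vxR i (algebraMap (RR c K) AA (X j))) := yv_eq h1 (U.mA_pv τ i)

variable {F : Fil p S} {τ : V.Coch I →+* S} (hg : ∀ e : A'.Gam I, τ (algebraMap _ _ e) ∈ F.F 0)
  (hv : ∀ i, Fil.Maps (τ.comp (V.vxR i)) U.b F)

include hv in
theorem nf_pv (i : I) : IsNF F (U.pv τ i) :=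
  ⟨C1.Bas.isZ_map (hv i) U.taut, by rw [pv_eq]; rfl, rfl, by rw [yv_pv, mA_pv]⟩

include hg in
theorem lat_pv (i j : I) : F.MW 0 ((U.pv τ i).ν * (U.pv τ j).μ) := fun a b => by
  have := congrFun₂ (U.nu_mu τ i j) (rx h c a) (rx h c b)
  refine (show _ = ((U.pv τ i).ν * (U.pv τ j).μ) a b from this.symm) ▸ Fil.mem_WL.2 fun l => ?_
  rw [mul_zero]
  exact lift_mem hg _

include hg hv in
theorem ok_pv (hF : F.Closed) (i j : I) : (U.pv τ i).Ok F (U.pv τ j) := by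
  have Z := fun i => (U.nf_pv hv i).isZ
  have L := U.lat_pv hg
  refine ⟨(U.univ S F hF (τ.comp (V.vxR i)) (U.pv τ j).a (fun r => ?_) ?_).2, fun _ _ => L i j⟩
  · rw [RingHom.comp_apply, vxR_alg]
    exact hg _
  · have Z' := isZ_a (Z i) (Z j) (L i j) (L j i)
    exact ⟨Z'.isA, rfl, Z'.inv, Z'.hA, Z'.hB, Z'.b1, Z'.b2⟩

variable {n : ℕ}

/-- the family of normal forms of a point -/
def yOf (T : FP p (ZMod p)) (τ : V.Coch (Fin (n + 1)) →+* T.K)
    (hg : ∀ e : A'.Gam (Fin (n + 1)), τ (algebraMap _ _ e) ∈ T.F.F 0)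
    (hv : ∀ i, Fil.Maps (τ.comp (V.vxR i)) U.b T.F) : (U.tau.pair.Z n).obj T :=
  ⟨(⟨⟨{ (τ.comp (V.vxR 0)).comp ((algebraMap (RR c K) AA).comp C) with
      commutes' := fun a => RingHom.congr_fun (Subsingleton.elim
        (((τ.comp (V.vxR 0)).comp ((algebraMap (RR c K) AA).comp C)).comp
          (algebraMap (ZMod p) K)) (algebraMap (ZMod p) _)) a }, fun a => by
      change τ (V.vxR 0 (algebraMap (RR c K) AA (C a))) ∈ _
      rw [vxR_alg]
      exact hg _⟩, U.pv τ, U.nf_pv hv, U.ok_pv hg hv T.cl⟩, τ),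
    hg, fun i a => congrArg τ (U.vx_C i 0 a), U.pv_eq τ⟩

variable (χ : Fin (n + 1) → Option (Fin c))

/-- the test objects -/
abbrev TT : FP p (ZMod p) := test V U.pbs U.b U.M U.hM 0 χ

theorem gam0 (e : A'.Gam (Fin (n + 1))) : V.toLoc χ (algebraMap _ _ e) ∈ (U.TT χ).F.F 0 := by
  rw [toLoc_alg]
  exact Fil.le_cl (hp := hp.out.pos) (alg_mem_filL V U.b U.M U.hM 0 χ e)

theorem vx0 (i : Fin (n + 1)) : Fil.Maps ((V.toLoc χ).comp (V.vxR i)) U.b (U.TT χ).F :=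
  fun _ _ hx => Fil.le_cl (hp := hp.out.pos) (vx_mem_filL V U.b U.M U.hM 0 χ U.stab i hx)

variable (H : ∀ (n : ℕ) (T : FP p (ZMod p)) (y : YConf h c K n T)
  (τ : V.Coch (Fin (n + 1)) →+* T.K), U.Ok y τ →
    (∀ i j, yv (y.v i) j = τ (V.vxR i (algebraMap (RR c K) AA (X j)))) ∧
      ∀ i β (F : V.Coch (Fin (n + 1))), (∀ g, V.ρ (g i)⁻¹ (F.1 g) ∈ U.M β) → τ F ∈ T.F.F β)

/-- configurations as points -/
def pt : PT V U.pbs U.b U.M U.hM U.stab U.lab where
  c b := b.1.2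
  c_map _ _ _ := rfl
  c_res _ _ _ := rfl
  c_gam b := Ok.gam b.2
  c_vx b t x hx := (H _ _ _ _ b.2).2 0 t _ fun g => by
    rw [vxR_apply, Mod.vx_val, inv_ρ]
    exact (U.hM _ _).2 hx
  c_U j n T b i := fun ⟨t, ht, e⟩ => ⟨t, ht, by
    rw [← vxR_alg, U.u, ← e]
    exact congrArg (· * t) ((H _ _ _ _ b.2).1 i j).symm⟩
  b0 χ := U.yOf _ (V.toLoc χ) (U.gam0 χ) (U.vx0 χ)
  c_b0 _ _ := rfl
  U_b0 χ i j e := ⟨Mod.fr 1 ⟨_, A'.vx_mem e⟩,
    Fil.le_cl (hp := hp.out.pos) (inv_mem_filL V U.b U.M U.hM 0 χ _), by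
    have := pf_loc V U.pbs χ
    refine Eq.trans ?_ ((den_mul_fr 1 ⟨_, A'.vx_mem e⟩).trans (map_one _))
    refine congrArg (· * _) ((congrFun (U.yv_pv (V.toLoc χ) i) j).trans ?_)
    rw [vxR_alg, toLoc_alg, ← U.u]⟩
  res_b0 f χ := Subtype.ext (Prod.ext (YConf.ext (Subtype.ext (AlgHom.ext fun a =>
    congrArg (V.toLoc χ) (U.vx_C 0 (f 0) a))) rfl) rfl)

variable [IsAdicComplete A'.m (RR c K)]

theorem act_pt (s : ℕ) (y : V.N.X n) : (U.stab_lab.cf.e s).pull.app n ((U.pt H).i.app n y) =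
    (U.pt H).i.app n (op V V (U.σ s).toLinearMap n y) := by
  refine Subtype.ext (funext fun T => funext fun z => ?_)
  change (U.pt H).cl ((U.stab_lab.cf.e s).f z) (y.1 _) = (U.pt H).cl z ((op V V (U.sig s).Φ n y).1 _)
  rw [op_eq]
  exact (U.pt H).cl_eq ((U.stab_lab.cf.e s).f z) (c := ((U.pt H).cl z).comp
    ((U.sig s).locR (map_one (U.σ s)) (map_mul (U.σ s)) _)) (fun x => (U.pt H).cl_toLoc z (U.sigR s _ x)) _

end UD

/-- **FIN** -/
theorem fin : FIN p := by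
  intro hD _ hR h c G _ _ _ K _ _ _ A h1 Θ A' _ AA _ _ _ V _ U Fl mono act hF e1 em ω hFl ha hω q hG
  have H := (hR h c G K A h1 Θ A' AA V U).1
  refine hD _ _ (U.pt H).i (U.pt H).r (fun β n x hx => (U.pt H).i_mem (hFl β n ▸ hx))
    (fun β ε n hε x hx => ?_) (fun _ => (U.pt H).r_i) (fun s hs n x => ?_) q hG
  · change _ ∈ (Fl _).S n
    rw [hFl]
    exact (U.pt H).r_mem hε hx
  · refine (U.act_pt H s _).trans (congrArg _ ?_)
    change op V V _ n ((act s).app n x) = x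
    rw [ha, ← op_comp, show (U.σ s).toLinearMap ∘ₗ ω s = LinearMap.id from LinearMap.ext (hω s hs),
      op_id]

end P261.C2
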