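import Vale.Agent.P261Z.C2.Y
import Vale.Agent.P261Z.S.Rep2
import Vale.Agent.P261Z.S.Rep3

/-!
# P261Z, block C2: the normal forms are representable
-/

set_option linter.all false

noncomputable section

namespace P261.C2

variable {p : ℕ} [hp : Fact p.Prime] {k : Type} [Field k] {h c : ℕ}

namespace RepyH

theorem cut_nf : (LVF p k (Fin c) h).Cut (cNF p k h c).P := by
  have h1 : (LVF p k (Fin c) h).Cut fun v => LV.φ v = 0 :=
    (PF.Cut.all fun U => PF.Cut.all fun l => PF.Cut.all fun i =>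
      PF.Cut.eq (SS.Rep3.nφ U l i) (.zero _)).congr fun _ _ =>
        ⟨fun o => funext fun U => funext fun l => funext (o U l),
          fun o U l i => congrFun (congrFun (congrFun o U) l) i⟩
  have h2 := PF.Cut.meq (X := LVF p k (Fin c) h) (fun v => LV.mA v)
    (fun v => (Au p (h + c) (uy h (yv v))).submatrix (rx h c) (rx h c))
    (fun _ _ φ _ => LV.mA_map φ) fun _ _ φ v => by
      show (Au p (h + c) (uy h (yv (LV.map φ.r v)))).submatrix _ _ = _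
      rw [funext (yv_map φ v), ← uy_map, ← Au_map]
      rfl
  exact (SS.Rep3.cut_isZ.and (h1.and ((PF.Cut.disc SS.Rep3.disc_ix).and h2))).congr
    fun _ _ => ⟨fun ⟨a, b, c, d⟩ => ⟨a, b, c, d⟩, fun ⟨a, b, c, d⟩ => ⟨a, b, c, d⟩⟩

theorem cut_ok {X : PF p k} (s t : X.Tr (LVF p k (Fin c) h)) :
    X.Cut fun {T} x => LV.Ok T.F (s.f x) (t.f x) :=
  SS.Rep3.cut_ok.comap (Y := X) ⟨fun x => (s.f x, t.f x), fun φ x => Prod.ext (s.map φ x) (t.map φ x)⟩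

theorem rep_nf (H : SH p k) : ((LVF p k (Fin c) h).sub (cNF p k h c)).FRep := by
  refine SS.Rep3.frep H.pf H.rep0 true _ cut_nf (fun T v hv => ⟨hv.isZ.lat, hv.ix⟩) fun J => ?_
  obtain ⟨t, h1⟩ := SS.Rep3.bd_Z (p := p) (k := k) (E := Fin c) (h := h) J
  refine ⟨t, fun T v hv => ⟨(h1 T v hv.isZ).1, (h1 T v hv.isZ).2.1, (h1 T v hv.isZ).2.2, ?_⟩⟩
  rw [hv.φ]
  exact fun _ _ _ => zero_mem _

variable (K : Type) [CommRing K] [Algebra k K]

variable (p k h c) in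
/-- families of normal forms -/
def fam (m : ℕ) : PF p k := (PF.base p k K).prod
  (SS.R44.pi fun _ : Fin (m + 1) => (LVF p k (Fin c) h).sub (cNF p k h c))

/-- a member of a family -/
def famV (m : ℕ) (i : Fin (m + 1)) : (fam p k h c K m).Tr (LVF p k (Fin c) h) :=
  ⟨fun z => (z.2 i).1, fun _ _ => rfl⟩

/-- a member of a family -/
def yV (m : ℕ) (i : Fin (m + 1)) : ((Y p k h c K).Z m).Tr (LVF p k (Fin c) h) :=
  ⟨fun y => YConf.v y i, fun _ _ => rfl⟩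

theorem rep_y (H : SH p k) [Pf p K] (m : ℕ) : ((Y p k h c K).Z m).FRep := by
  have h1 : (fam p k h c K m).FRep := (H.rep1 H.pf).1 _ _ ((H.rep0 H.pf).1 K)
    (SS.R44.pi_rep H.rep1 H.rep0 H.pf _ _ fun _ => rep_nf H)
  have h2 := (H.rep1 H.pf).2.1 (fam p k h c K m)
    ⟨fun {T} z => ∀ i j, LV.Ok T.F ((famV K m i).f z) ((famV K m j).f z),
      fun φ _ hz i j => (hz i j).map φ⟩ h1
    (PF.Cut.all fun i => PF.Cut.all fun j => cut_ok (famV K m i) (famV K m j))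
  refine (fun t ht => (H.rep1 H.pf).2.2.1 _ _ t ht h2)
    ⟨fun z => ⟨z.1.1, fun i => (z.1.2 i).1, fun i => (z.1.2 i).2, z.2⟩, fun _ _ => rfl⟩
    fun T => ⟨fun a b e => ?_, fun y => ?_⟩
  · exact Subtype.ext (Prod.ext (congrArg YConf.x e)
      (funext fun i => Subtype.ext (congrFun (congrArg YConf.v e) i)))
  · exact ⟨⟨(y.x, fun i => ⟨y.v i, y.nf i⟩), y.ok⟩, rfl⟩

theorem rep_j (H : SH p k) [Pf p K] (hh : 1 ≤ h) : (JY p k h c K).Rp := fun m => by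
  let X : PF p k := ((Y p k h c K).Z m).prod ((LVF p k (Fin c) h).sub (cJ k h {⊤}))
  let s : Fin (m + 1) → X.Tr (LVF p k (Fin c) h) := fun i =>
    ⟨fun z => YConf.v z.1 i, fun _ _ => rfl⟩
  let t : X.Tr (LVF p k (Fin c) h) := ⟨fun z => z.2.1, fun _ _ => rfl⟩
  have h2 := (H.rep1 H.pf).2.1 X
    ⟨fun {T} z => ∀ i, LV.Ok T.F ((s i).f z) (t.f z) ∧ LV.Ok T.F (t.f z) ((s i).f z),
      fun φ _ hz i => ⟨(hz i).1.map φ, (hz i).2.map φ⟩⟩
    ((H.rep1 H.pf).1 _ _ (rep_y K H m) ((H.rep3 H.pf _ h hh).2.1 _))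
    (PF.Cut.all fun i => (cut_ok (s i) t).and (cut_ok t (s i)))
  refine (fun t ht => (H.rep1 H.pf).2.2.1 _ _ t ht h2)
    ⟨fun z => ⟨(z.1.1, z.1.2.1), z.1.2.2, z.2⟩, fun _ _ => rfl⟩
    fun T => ⟨fun a b e => ?_, fun y => ?_⟩
  · exact Subtype.ext (Prod.ext (congrArg (fun z => z.1.1) e)
      (Subtype.ext (congrArg (fun z => z.1.2) e)))
  · exact ⟨⟨(y.1.1, ⟨y.1.2, y.2.1⟩), y.2.2⟩, rfl⟩

end RepyH

open RepyH in
theorem repy : REPY p k := fun H hF h c hh K _ _ _ =>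
  ⟨rep_nf H, rep_y K H, rep_j K H hh, (hF H).2.2.2.1 _ _ _
    (fun m j i => ⟨fun y => yv (YConf.v y i) j, fun φ _ => yv_map φ _ j⟩) (rep_y K H)
    fun _ _ _ _ _ => Iff.rfl⟩

end P261.C2
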