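import Vale.Agent.P261Z.C2.Br
import Vale.Agent.P261Z.S.Cut
import Vale.Agent.P261Z.S.Rep1
import Vale.Agent.P261Z.NM.Ex

/-!
# P261Z, block C2: compatible points are filtered and representable
-/

set_option linter.all false

open Matrix MvPowerSeries

noncomputable section

namespace P261.C2

open Vale.Agent.P251.F Vale.Agent.P261Z Vale.Agent.P261Z.N P261.Ig P261.NM Function

variable {p : ℕ} [hp : Fact p.Prime] {h c : ℕ}

namespace Rh

theorem yv_vtx {S : Type} [CommRing S] [Pf p S] (h1 : 1 ≤ h) (a : Fin c → WittVector p S)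
    {x : Fin c → S} {μ : Matrix (Fin c ⊕ Fin h) (Fin (h + c)) (WittVector p S)}
    {ν : Matrix (Fin (h + c)) (Fin c ⊕ Fin h) (WittVector p S)}
    (H : Iso (V0 p (Fin c) h _) (Au p (h + c) (uy h x)) μ ν) (j : Fin c) :
    yv (vtx a μ ν) j = x j := by
  have e : (vtx a μ ν).mA = (Au p (h + c) (uy h x)).submatrix (rx h c) (rx h c) := by
    rw [← Matrix.one_mul (Au p (h + c) (uy h x)), ← H.nm, Matrix.mul_assoc, ← H.eq,
      ← Matrix.mul_assoc]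
    rfl
  have hj := j.2
  have r : ∀ l : Fin c, ((rx h c (.inl l) : Fin (h + c)) : ℕ) = h + l := fun _ => rfl
  rw [yv, e, submatrix_apply, Au, Cm, of_apply, r, r, if_neg (by simp; omega),
    if_pos (by simp; omega), if_neg (by omega), ← WittVector.constantCoeff_apply, map_neg,
    neg_neg, WittVector.constantCoeff_apply, WittVector.teichmuller_coeff_zero, uy, rt_pow_pp,
    exh_add]

variable {G : Type} [Group G] [TopologicalSpace G] [IsTopologicalGroup G] {K : Type} [Field K]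
  [Pf p K] [Algebra (ZMod p) K] {A : RG p h c G K} {h1 : 1 ≤ h} {Θ : TGd A h1}
  {A' : NM.Act (ZMod p) (RR c K) G (Fin c)} {AA : Type} [CommRing AA] [Algebra (RR c K) AA]
  [Pf p AA] {V : A'.Mod AA} [V.IsAlg] {U : UD Θ V} {n : ℕ} {T : FP p (ZMod p)}

theorem yv_eq {y : YConf h c K n T} {τ : V.Coch (Fin (n + 1)) →+* T.K} (H : U.Ok y τ) (i j) :
    yv (y.v i) j = τ (V.vxR i (algebraMap (RR c K) AA (X j))) := by
  have e := U.iso.map (τ.comp (V.vxR i))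
  rw [show mw _ (V0 p _ _ _) = _ from V0_map _, show mw _ (Au p _ _) = _ from Au_map p _ _ _,
    uy_map] at e
  rw [H.vtx i, yv_vtx h1 _ e]
  rfl

theorem maps {y : YConf h c K n T} {τ : V.Coch (Fin (n + 1)) →+* T.K} (H : U.Ok y τ) (i) :
    Fil.Maps (τ.comp (V.vxR i)) U.b T.F :=
  (U.univ T.K T.F T.cl _ (y.v i).a (fun r => by
    rw [RingHom.comp_apply, Act.Mod.vxR_alg]
    exact H.gam _) (H.vtx i ▸ (y.nf i).isZ)).1

variable [IsAdicComplete A'.m (RR c K)]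

theorem bound {y : YConf h c K n T} {τ : V.Coch (Fin (n + 1)) →+* T.K} (H : U.Ok y τ) (i β)
    (F : V.Coch (Fin (n + 1))) (hF : ∀ g, V.ρ (g i)⁻¹ (F.1 g) ∈ U.M β) : τ F ∈ T.F.F β := by
  obtain ⟨a, e, x, h2, rfl⟩ := NM.gen V i F hF
  rw [map_sum]
  refine sum_mem fun j _ => ?_
  rw [Algebra.smul_def, map_mul]
  exact Fil.mul_le (H.gam _) (maps H i β _ ((U.hM _ _).1 (h2 j))) (zero_add β).le

variable (U) in
theorem exists_bound (F : V.Coch (Fin (n + 1))) : ∃ β, ∀ g, V.ρ (g 0)⁻¹ (F.1 g) ∈ U.M β := by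
  obtain ⟨a, e, x, rfl⟩ := NM.gen_top V 0 F
  obtain ⟨t, ht⟩ := U.exh.finite x
  exact ⟨t, NM.nor_mem V 0 e fun j => (U.hM _ _).2 (ht.2 j)⟩

/-- bounded ring maps -/
theorem rep_hom (H : SH p (ZMod p)) (B : Type) [CommRing B] (t : B → ℝ) (X : PF p (ZMod p))
    (Q : Col X) (f : ∀ T : FP p (ZMod p), (B →+* T.K) ≃ X.obj T)
    (hf : ∀ (T T' : FP p (ZMod p)) (φ : T.Hom T') τ, f T' (φ.r.comp τ) = X.map φ (f T τ))
    (hQ : ∀ (T : FP p (ZMod p)) τ, Q.P (f T τ) ↔ ∀ b, τ b ∈ T.F.F (t b)) : (X.sub Q).FRep := by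
  let Bd : Col (PF.free p (ZMod p) B) :=
    ⟨fun {T} y => ∀ b, y b ∈ T.F.F (t b), fun φ _ h b => φ.mem _ _ (h b)⟩
  have hB : ((PF.free p (ZMod p) B).sub Bd).FRep := (H.rep0 H.pf).2.2.2 _ B
    ⟨fun y => y, fun _ _ => rfl⟩ Bd (fun _ => injective_id) (fun _ v _ => ⟨v, rfl⟩)
    (PF.Cut.all fun b => PF.Cut.bound (X := PF.free p (ZMod p) B) ⟨fun y => y b, fun _ _ => rfl⟩ _)
    fun b => ⟨t b, fun _ _ h => h b⟩
  let e : B → ((PF.free p (ZMod p) B).sub Bd).Nf := fun b => ⟨fun y => y.1 b, fun _ _ => rfl⟩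
  let W : Col ((PF.free p (ZMod p) B).sub Bd) :=
    ⟨fun y => y.1 1 = 1 ∧ (∀ a b, y.1 (a * b) = y.1 a * y.1 b) ∧ y.1 0 = 0 ∧
      ∀ a b, y.1 (a + b) = y.1 a + y.1 b, fun φ y h =>
      ⟨(congrArg φ.f h.1).trans (map_one _),
        fun a b => (congrArg φ.f (h.2.1 a b)).trans (map_mul _ _ _),
        (congrArg φ.f h.2.2.1).trans (map_zero _),
        fun a b => (congrArg φ.f (h.2.2.2 a b)).trans (map_add _ _ _)⟩⟩
  have hW := PF.FRep.sub (Q := W) hB ((PF.Cut.eq (e 1) (.one _)).and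
    ((PF.Cut.all fun a => PF.Cut.all fun b => PF.Cut.eq (e (a * b)) ((e a).mul (e b))).and
      ((PF.Cut.eq (e 0) (.zero _)).and
        (PF.Cut.all fun a => PF.Cut.all fun b => PF.Cut.eq (e (a + b)) ((e a).add (e b))))))
  refine PF.FRep.iso (X := PF.sub _ W) ⟨fun {T} z => ⟨f T ⟨⟨⟨z.1.1, z.2.1⟩, z.2.2.1⟩, z.2.2.2.1, z.2.2.2.2⟩,
    (hQ T _).2 z.1.2⟩, fun φ z => Subtype.ext
      (hf _ _ φ ⟨⟨⟨z.1.1, z.2.1⟩, z.2.2.1⟩, z.2.2.2.1, z.2.2.2.2⟩)⟩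
    (fun T => ⟨fun z z' e => ?_, fun x => ?_⟩) hW
  · exact Subtype.ext (Subtype.ext (congrArg DFunLike.coe ((f T).injective (congrArg Subtype.val e))))
  · obtain ⟨x, hx⟩ := x
    obtain ⟨τ, rfl⟩ := (f T).surjective x
    exact ⟨⟨⟨fun b => τ b, (hQ T τ).1 hx⟩, map_one τ, map_mul τ, map_zero τ, map_add τ⟩, rfl⟩

variable (U) in
theorem rp (H : SH p (ZMod p)) (hY : ∀ m, ((Y p (ZMod p) h c K).Z m).FRep) : U.tau.Rp := fun m => by
  have := H.pf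
  choose t ht using exists_bound (n := m) U
  let Bd : Col ((tauC V).Z m) := ⟨fun {T} τ => ∀ b, (show V.Coch _ →+* T.K from τ) b ∈ T.F.F (t b),
    fun φ _ h b => φ.mem _ _ (h b)⟩
  have hB : (((tauC V).Z m).sub Bd).FRep :=
    rep_hom H _ t _ Bd (fun _ => Equiv.refl _) (fun _ _ _ _ => rfl) fun _ _ => Iff.rfl
  let Z := ((Y p (ZMod p) h c K).Z m).prod (((tauC V).Z m).sub Bd)
  let e : V.Coch (Fin (m + 1)) → Z.Nf := fun b =>
    ⟨fun {T} z => (show V.Coch _ →+* T.K from z.2.1) b, fun _ _ => rfl⟩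
  let W : Col Z := ⟨fun z => U.Ok z.1 z.2.1, fun φ _ h => U.tau.ok_map φ h⟩
  have hW : Z.Cut W.P := by
    refine PF.Cut.congr (fun T z => ?_) ((PF.Cut.all fun b : A'.Gam (Fin (m + 1)) =>
      PF.Cut.bound (e (algebraMap _ _ b)) 0).and ((PF.Cut.all fun i => PF.Cut.all fun a : K =>
        PF.Cut.eq (e (V.vxR i (algebraMap (RR c K) AA (C a))))
          ⟨fun z => (YConf.x z.1).1 a, fun _ _ => rfl⟩).and (PF.Cut.all fun i =>
      (PF.Cut.meq (X := Z) (fun z => (YConf.v z.1 i).μ)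
        (fun {T} z => (mw ((show V.Coch _ →+* T.K from z.2.1).comp (V.vxR i)) U.mu).submatrix id (rx h c))
        (fun _ _ _ _ => rfl) fun _ _ _ _ => rfl).and
      (PF.Cut.meq (X := Z) (fun z => (YConf.v z.1 i).ν)
        (fun {T} z => (mw ((show V.Coch _ →+* T.K from z.2.1).comp (V.vxR i)) U.nu).submatrix (rx h c) id)
        (fun _ _ _ _ => rfl) fun _ _ _ _ => rfl))))
    exact ⟨fun o => ⟨o.1, o.2.1, fun i => LV.ext rfl (z.1.nf i).isZ.lat (o.2.2 i).1 (o.2.2 i).2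
      (z.1.nf i).φ (z.1.nf i).ix⟩, fun o => ⟨o.gam, o.base, fun i =>
        ⟨congrArg LV.μ (o.vtx i), congrArg LV.ν (o.vtx i)⟩⟩⟩
  refine PF.FRep.iso (X := Z.sub W) ⟨fun z => ⟨(z.1.1, z.1.2.1), z.2⟩, fun _ _ => rfl⟩
    (fun T => ⟨fun z z' o => ?_, fun z => ⟨⟨(z.1.1, ⟨z.1.2, fun b => bound z.2 0 _ b (ht b)⟩), z.2⟩,
      rfl⟩⟩) (((hY m).prod hB).sub hW)
  exact Subtype.ext (Prod.ext (congrArg (fun w => w.1.1) o)
    (Subtype.ext (congrArg (fun w => w.1.2) o)))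

end Rh

theorem rho : RHO p := fun _ _ _ _ _ _ _ _ _ _ _ _ _ _ _ _ _ _ _ _ _ U =>
  ⟨fun _ _ _ _ H => ⟨Rh.yv_eq H, Rh.bound H⟩, Rh.rp U⟩

end P261.C2
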