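import Vale.Agent.P261Z.C2.Y
import Vale.Agent.P261Z.C1.Okz

/-!
# P261Z, block C2: from the statement of block C1 to the normal forms
-/

set_option linter.unusedVariables false
set_option linter.unusedSectionVars false

noncomputable section

namespace P261.C2

variable {p : ℕ} [hp : Fact p.Prime] {k : Type} [Field k] {h c : ℕ}

namespace St1

variable (p k h c) in
/-- the colours -/
def P3 : Option Bool → SC p k (Fin c) h
  | none => sNF p k h c
  | some b => bif b then sJ k h {⊤} else sZ p k (Fin c) h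

/-- the modes -/
def md3 (m : Mode) : Option Bool → Mode
  | none => m
  | some b => bif b then .red else .on

theorem isZ_of {T : FP p k} {o : Option Bool} {v : LV p (Fin c) h T.K}
    (hv : (P3 p k h c o).c.P v) : v.IsZ T.F := by
  rcases o with _ | _ | _
  · exact IsNF.isZ hv
  · exact hv.1
  · exact hv.1

theorem ok_via {T : FP p k} {v v' : LV p (Fin c) h T.K} (z : LV p (Fin c) h T.K)
    (hv : v.IsZ T.F) (hv' : v'.IsZ T.F) (h1 : ∀ i, v.a i - z.a i ∈ T.F.WL 1)
    (h2 : ∀ i, z.a i - v'.a i ∈ T.F.WL 1) : v.Ok T.F v' :=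
  C1.okz _ _ _ T.F v v' T.cl hv hv' fun i => by
    have := add_mem (h1 i) (h2 i)
    rwa [sub_add_sub_cancel] at this

theorem w_of_eq {T : FP p k} {v z : LV p (Fin c) h T.K} (e : v.a = z.a) (i : Fin c) :
    v.a i - z.a i ∈ T.F.WL 1 := by
  rw [e, sub_self]
  exact zero_mem _

theorem cZ_of_nf {T : FP p k} {v : LV p (Fin c) h T.K} (hv : IsNF T.F v) :
    (cJ k h (∅ : Set (Sbs p (Fin c)))).P v :=
  ⟨hv.isZ, ⟨fun U l i => by
    rw [hv.φ]
    exact zero_mem _, fun U l i _ => by
    rw [hv.φ]
    rfl, fun U hU => hU.elim⟩, hv.ix⟩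

variable (K : Type) [CommRing K] [Algebra k K]

variable (p k h c) in
/-- the system -/
abbrev S3 : Sys p k := LS p k (Fin c) h (PF.base p k K)

variable (p k h c) in
/-- the colours -/
abbrev C3 : Option Bool → Col (S3 p k h c K).V := fun o => (P3 p k h c o).c

theorem aac (H : SH p k) (hZ : LZ p k) (h1 : 1 ≤ h) (hc : 0 < c)
    (hR : (S3 p k h c K).Rp (C3 p k h c K)) : (S3 p k h c K).AAc (C3 p k h c K) (md3 .red) := by
  refine H.secloc H.pf _ _ _ _ (fun o => o ≠ some false) hR fun m T _ hT z => ?_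
  obtain ⟨z₀, hz₀⟩ := Option.isSome_iff_exists.1 (z.on (some false) 0 rfl)
  refine (hZ H h c h1 hc T hT z₀ (isZ_of (z.col _ _ _ hz₀).1)).mono ?_
  rintro T' f ⟨s, hs, hs'⟩
  have h2 : (z.map f).w (some false) 0 = some (LV.map f.r z₀) := by
    show (z.w (some false) 0).map _ = _
    rw [hz₀]
    rfl
  have hsZ : s.IsZ T'.F := hs'.elim IsNF.isZ fun h => h.1
  have key : ∀ o, (C3 p k h c K o).P s → SS.Fits (z.map f) o s ∧ (S3 p k h c K).ok2 s s ∧
      ∀ (T'' : FP p k) (g : T'.Hom T'') (c' : Option Bool) (u : (S3 p k h c K).V.obj T''),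
        c' ≠ some false → md3 .red c' ≠ .off → SS.Fits ((z.map f).map g) c' u →
          (S3 p k h c K).ok2 ((S3 p k h c K).V.map g s) u ∧
            (S3 p k h c K).ok2 u ((S3 p k h c K).V.map g s) := by
    intro o ho
    refine ⟨⟨ho, trivial, fun c' i u' hu' => ?_⟩, ok_via s hsZ hsZ (w_of_eq rfl) (w_of_eq rfl),
      fun T'' g c' u _ _ hu => ?_⟩
    · have h3 := isZ_of ((z.map f).col _ _ _ hu').1
      exact ⟨ok_via _ h3 hsZ (LV.Ok.a ((z.map f).ok _ _ _ _ _ _ hu' h2)) (w_of_eq hs.symm),
        ok_via _ hsZ h3 (w_of_eq hs) (LV.Ok.a ((z.map f).ok _ _ _ _ _ _ h2 hu'))⟩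
    · have h3 : ((z.map f).map g).w (some false) 0 = some (LV.map g.r (LV.map f.r z₀)) := by
        show ((z.map f).w (some false) 0).map _ = _
        rw [h2]
        rfl
      have h4 : (LV.map g.r s).a = (LV.map g.r (LV.map f.r z₀)).a :=
        funext fun i => congrArg (wm p g.r) (congrFun hs i)
      have h5 := hu.2.2 _ _ _ h3
      exact ⟨ok_via _ (hsZ.map g) (isZ_of hu.1) (w_of_eq h4) (LV.Ok.a h5.1),
        ok_via _ (isZ_of hu.1) (hsZ.map g) (LV.Ok.a h5.2) (w_of_eq h4.symm)⟩
  rcases hs' with h3 | h3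
  · exact ⟨none, by simp, rfl, s, key none h3⟩
  · exact ⟨some true, by simp, rfl, s, key (some true) h3⟩

variable (p k h c) in
/-- the configurations of normal forms with optional lattices -/
abbrev CY : CF p k :=
  (fd (Y p k h c K) fun _ : Unit => JY p k h c K).cf fun _ => .red

variable (p k h c) in
/-- the configurations of the system -/
abbrev CS : CF p k := (S3 p k h c K).cf (C3 p k h c K) (md3 .on)

/-- the vertices -/
def gw {n : ℕ} {T : FP p k} (z : FConf (Y p k h c K) (fun _ : Unit => JY p k h c K) n n T) :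
    Option Bool → Fin (n + 1) → Option (LV p (Fin c) h T.K)
  | none => fun i => some (YConf.v z.b i)
  | some false => fun i => some (YConf.v z.b i)
  | some true => fun i => z.w () i

theorem gw_ok {n : ℕ} {T : FP p k}
    (z : FConf (Y p k h c K) (fun _ : Unit => JY p k h c K) n n T) (o : Option Bool)
    (i : Fin (n + 1)) (v : LV p (Fin c) h T.K) (hv : gw K z o i = some v) :
    (C3 p k h c K o).P v ∧ v.Ok T.F (YConf.v z.b 0) ∧ (YConf.v z.b 0).Ok T.F v := by
  rcases o with _ | _ | _
  · obtain rfl := Option.some.inj hv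
    exact ⟨YConf.nf z.b i, YConf.ok z.b i 0, YConf.ok z.b 0 i⟩
  · obtain rfl := Option.some.inj hv
    exact ⟨cZ_of_nf (YConf.nf z.b i), YConf.ok z.b i 0, YConf.ok z.b 0 i⟩
  · have := z.ok () i v hv
    exact ⟨this.1, (this.2 0).2, (this.2 0).1⟩

variable (p k h c) in
/-- the normal forms are used twice -/
def G : (CY p k h c K).Map (CS p k h c K) where
  f z :=
    { x := YConf.x (FConf.b z.1)
      w := gw K z.1
      col := fun o i v hv => ⟨(gw_ok K z.1 o i v hv).1, trivial⟩
      ok := fun o i v o' i' v' hv hv' =>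
        ok_via _ (isZ_of (gw_ok K z.1 o i v hv).1) (isZ_of (gw_ok K z.1 o' i' v' hv').1)
          (gw_ok K z.1 o i v hv).2.1.a (gw_ok K z.1 o' i' v' hv').2.2.a
      on := fun o i ho => by
        rcases o with _ | _ | _
        · rfl
        · rfl
        · exact Mode.noConfusion ho
      off := fun o i ho => by
        rcases o with _ | _ | _ <;> exact Mode.noConfusion ho }
  map φ z := Sys.Conf.ext rfl (funext fun o => funext fun i => by
    rcases o with _ | _ | _ <;> rfl)
  res g z := Sys.Conf.ext rfl (funext fun o => funext fun i => by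
    rcases o with _ | _ | _
    · rfl
    · rfl
    · exact opt_id (fun _ => rfl) _)
  full z := fun ⟨_, _, hz⟩ => ⟨some true, rfl, hz⟩

variable (p k h c) in
/-- the first family of vertices is forgotten -/
def F : (CS p k h c K).Map (CY p k h c K) where
  f z := ⟨⟨⟨Sys.Conf.x z, fun i => (Sys.Conf.w z none i).get (Sys.Conf.on z none i rfl),
      fun i => (Sys.Conf.col z none i _ (Option.some_get _).symm).1,
      fun i j => Sys.Conf.ok z none i _ none j _ (Option.some_get _).symm
        (Option.some_get _).symm⟩, fun _ i => Sys.Conf.w z (some true) i,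
      fun _ i v hv => ⟨(Sys.Conf.col z _ i v hv).1, fun j =>
        ⟨Sys.Conf.ok z none j _ _ i v (Option.some_get _).symm hv,
          Sys.Conf.ok z _ i v none j _ hv (Option.some_get _).symm⟩⟩⟩,
    fun _ _ => ⟨fun h => Mode.noConfusion h, fun h => Mode.noConfusion h⟩⟩
  map φ z := Subtype.ext (FConf.ext (YConf.ext rfl (funext fun i => Option.get_map)) rfl)
  res g z := Subtype.ext (FConf.ext rfl (funext fun _ => funext fun i =>
    (opt_id (fun _ => rfl) _).symm))
  full z := by
    rintro ⟨o, ho, hz⟩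
    rcases o with _ | _ | _
    · exact Mode.noConfusion ho
    · exact Mode.noConfusion ho
    · exact ⟨(), rfl, hz⟩

end St1

open St1 in
theorem st1 : ST1 p k := by
  intro H hF hY hZ hL h c h1 hc K _ _ _
  have : Nonempty (Fin c) := ⟨⟨0, hc⟩⟩
  have hq : 1 ≤ p ^ h := Nat.one_le_pow _ _ hp.out.pos
  have hst : ∀ o, (lact p k (Fin c) h (PF.base p k K)).Stab (C3 p k h c K o) := fun o =>
    stab_of_sc (P3 p k h c o).sc
  obtain ⟨-, ⟨d1⟩⟩ := H.reidx (S3 p k h c K) (lact p k (Fin c) h _) Bool (Option Bool)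
    (fun b => (bif b then sJ k h {⊤} else sZ p k (Fin c) h).c) (C3 p k h c K)
    (fun b => bif b then .red else .on) (md3 .off) (fun b => stab_of_sc (SC.sc _)) hst some
    (Option.some_injective _) (fun _ => rfl) (fun o ho => by
      rcases o with _ | b
      · rfl
      · exact absurd ⟨b, rfl⟩ ho) (fun _ _ _ _ => Iff.rfl)
  have g1 := (H.domg _ _ d1).2.2.2 _ (hL (Fin c) h K h1)
  have hR : (S3 p k h c K).Rp (C3 p k h c K) := by
    refine (H.rep3 H.pf (Fin c) h h1).2.2 _ _ _ ((H.rep0 H.pf).1 K) fun o => ?_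
    rcases o with _ | _ | _
    · exact (hY H hF h c h1 K).1
    · exact (H.rep3 H.pf (Fin c) h h1).2.1 _
    · exact (H.rep3 H.pf (Fin c) h h1).2.1 _
  have g2 := (H.aacg ((S3 p k h c K).fa (lact p k (Fin c) h _) _ (md3 .red) hst) (p ^ h)).2
    (aac K H hZ h1 hc hR)
  have g3 := ((H.tog H.pf.char (S3 p k h c K) (lact p k (Fin c) h _) _ _ hst none (md3 .red)
    (md3 .off) (md3 .on) rfl rfl rfl fun o ho => by
      rcases o with _ | b
      · exact absurd rfl ho
      · exact ⟨rfl, rfl⟩).2 _ hq).1 g2 g1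
  obtain ⟨d2⟩ := H.retract (CY p k h c K) (CS p k h c K)
    ((fdAct (D := fun _ : Unit => JY p k h c K) fun _ => eJ p k h c K).cf _)
    ((lact p k (Fin c) h _).cf _ _ hst) (G p k h c K) (F p k h c K) (fun n T z => rfl)
    fun s _ n T z => Sys.Conf.ext rfl (funext fun o => funext fun i => by
      rcases o with _ | _ | _ <;> rfl)
  exact (H.domg _ _ d2).2.2.2 _ g3

end P261.C2
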