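import Vale.Agent.P261Z.C2.MC

/-!
# P261Z, block C2: the rows CTR, DTOG, DOMI, RX
-/

set_option linter.unusedVariables false

noncomputable section

namespace P261.C2

open Function

universe u v

variable {p : ℕ} [hp : Fact p.Prime] {k : Type} [Field k]

theorem ctr : CTR p k := fun h C H h1 h2 h3 h4 h5 => by
  let F : C.Map C := ⟨fun z => H _ _ (fun _ => true) z, fun φ z => h1 _ _ _ φ _ z,
    fun f z => h2 _ _ _ f (fun _ => true) z, fun z _ => h5 _ _ z⟩
  refine (h.aacg _ 0).1 fun n β g hg hd => ?_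
  have h6 := h.ch C C (.id C) F H h1 h2 h3 h4 (fun _ _ _ => rfl) β n g hg hd
  have e : F.pull.app n g = 0 :=
    Subtype.ext (funext fun T => funext fun z => g.2.2 T _ (h5 _ _ z))
  rw [e, zero_sub] at h6
  exact neg_mem_iff.1 h6

namespace Tog

theorem bd_map {A : Cs.Cos.{u} k} {B : Cs.Cos.{v} k} (f : Cs.Hom A B) {P : Cs.Sub A} {Q : Cs.Sub B}
    (hm : ∀ n, ∀ x ∈ P.S n, f.app n x ∈ Q.S n) {n : ℕ} {x : A.X n} (hx : x ∈ P.bd n) :
    f.app n x ∈ Q.bd n := by
  cases n with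
  | zero => rw [(Submodule.mem_bot k).1 hx, map_zero]; exact zero_mem _
  | succ n =>
    obtain ⟨y, hy, rfl⟩ := hx
    exact ⟨_, hm n y hy, (f.map_d n y).symm⟩

/-- the map of complexes given by an equivariant map of configurations -/
def mapOf {C C' : CF p k} {a : C.Act} {a' : C'.Act} (G : C.Map C')
    (hG : ∀ s n T (z : (C.Z n).obj T), G.f ((a.e s).f z) = (a'.e s).f (G.f z)) :
    (C'.fa a').Map (C.fa a) where
  f := G.pull
  mem _ _ _ hx T _ := hx T _
  act s _ n x := Subtype.ext (funext fun T => funext fun z => congrArg (x.1 T) (hG s n T z).symm)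

variable {κ : Type} (M : MCF p k κ)

theorem md_of {m m' : κ → Mode} (h : ∀ c, m' c = .on ∨ m' c = .off → m c = m' c) {n : ℕ}
    {T : FP p k} {z : (M.C.Z n).obj T} (hz : M.Md m z) : M.Md m' z := fun c i =>
  ⟨fun e => (hz c i).1 ((h c (.inl e)).trans e), fun e => (hz c i).2 ((h c (.inr e)).trans e)⟩

/-- inclusions -/
def inc {m m' : κ → Mode} (h : ∀ c, m' c = .on ∨ m' c = .off → m c = m' c)
    (h' : ∀ c, m c = .red → m' c = .red) : (M.cf m).Map (M.cf m') :=
  ⟨fun z => ⟨z.1, md_of M h z.2⟩, fun _ _ => rfl, fun _ _ => rfl,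
    fun _ ⟨c, hc, hz⟩ => ⟨c, h' c hc, hz⟩⟩

variable {M} (a : M.Act) {c : κ} {m m' : κ → Mode}

theorem se {m₁ m₃ : κ → Mode} (h0 : m c = .opt) (h1 : m₁ c = .red) (h3 : m₃ c = .on)
    (e1 : ∀ c', c' ≠ c → m₁ c' = m c') (e3 : ∀ c', c' ≠ c → m₃ c' = m c') :
    Nonempty (FA.SE (a.fa m₁) (a.fa m) (a.fa m₃)) := by
  classical
  have a1 : ∀ c', m₁ c' = .on ∨ m₁ c' = .off → m c' = m₁ c' := fun c' h =>
    (e1 c' (by rintro rfl; simp [h1] at h)).symm
  have a2 : ∀ c', m c' = .on ∨ m c' = .off → m₁ c' = m c' := fun c' h =>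
    e1 c' (by rintro rfl; simp [h0] at h)
  have a3 : ∀ c', m c' = .on ∨ m c' = .off → m₃ c' = m c' := fun c' h =>
    e3 c' (by rintro rfl; simp [h0] at h)
  have b1 : ∀ c', m c' = .red → m₁ c' = .red := fun c' h =>
    (e1 c' (by rintro rfl; simp [h0] at h)).trans h
  have b2 : ∀ c', m₃ c' = .red → m c' = .red := fun c' h =>
    (e3 c' (by rintro rfl; simp [h3] at h)).symm.trans h
  have b3 : ∀ c', m c' = .red → m₃ c' = .red := fun c' h =>
    (e3 c' (by rintro rfl; simp [h0] at h)).trans h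
  have f3 : ∀ {n : ℕ} {T : FP p k} {z : (M.C.Z n).obj T}, M.Md m z → (∀ i, M.pres c z i) →
      M.Md m₃ z := fun hz h c' i => by
    by_cases e : c' = c
    · subst e
      exact ⟨fun _ => h i, fun e => by simp [h3] at e⟩
    · rw [e3 c' e]
      exact hz c' i
  refine ⟨⟨mapOf (inc M a1 b1) fun _ _ _ _ => rfl, mapOf (inc M a3 b2) fun _ _ _ _ => rfl,
    fun n x y e => Subtype.ext (funext fun T => funext fun z =>
      congrArg (fun g => g.1 T ⟨z.1, md_of M a2 z.2⟩) e), fun β n y hy => ?_,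
    fun n x => Subtype.ext (funext fun T => funext fun z =>
      x.2.2 T _ ⟨c, h1, fun i => (z.2 c i).1 h3⟩), fun β n x hx h => ?_⟩⟩
  · refine ⟨⟨fun T z => if h : ∀ i, M.pres c z.1 i then y.1 T ⟨z.1, f3 z.2 h⟩ else 0,
      fun T T' φ z => ?_, fun T z ⟨c', hc, hz⟩ => ?_⟩, fun T z => ?_,
      Subtype.ext (funext fun T => funext fun z => dif_pos fun i => (z.2 c i).1 h3)⟩
    · show (if h : _ then _ else _) = φ.f (if h : _ then _ else _)
      by_cases h : ∀ i, M.pres c z.1 i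
      · rw [dif_pos h]
        exact (dif_pos fun i => (M.pres_map c φ z.1 i).2 (h i)).trans (y.2.1 T T' φ ⟨z.1, f3 z.2 h⟩)
      · rw [dif_neg h, map_zero]
        exact dif_neg fun h' => h fun i => (M.pres_map c φ z.1 i).1 (h' i)
    · show (if h : _ then _ else _) = _
      split_ifs
      exacts [y.2.2 T _ ⟨c', b3 c' hc, hz⟩, rfl]
    · show (if h : _ then _ else _) ∈ _
      split_ifs
      exacts [hy T _, zero_mem _]
  · refine ⟨⟨fun T z => x.1 T ⟨z.1, md_of M a2 z.2⟩,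
      fun T T' φ z => x.2.1 T T' φ ⟨z.1, md_of M a2 z.2⟩, fun T z ⟨c', hc, hz⟩ => ?_⟩,
      fun T z => hx T _, rfl⟩
    by_cases e : c' = c
    · subst e
      exact congrArg (fun g => g.1 T ⟨z.1, f3 (md_of M a2 z.2) hz⟩) h
    · exact x.2.2 T _ ⟨c', (e1 c' e).symm.trans hc, hz⟩

theorem opt_off (h : SH p k) (h0 : m c = .opt) (h1 : m' c = .off)
    (e : ∀ c', c' ≠ c → m' c' = m c') (q : ℕ) : (a.fa m).Good q ↔ (a.fa m').Good q := by
  have a1 : ∀ c', m c' = .on ∨ m c' = .off → m' c' = m c' := fun c' h =>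
    e c' (by rintro rfl; simp [h0] at h)
  have b1 : ∀ c', m' c' = .red → m c' = .red := fun c' h =>
    (e c' (by rintro rfl; simp [h1] at h)).symm.trans h
  have pr : ∀ {n : ℕ} {T : FP p k} (χ : Fin (n + 1) → Bool) {z : (M.C.Z n).obj T} {c' i}, c' ≠ c →
      M.pres c' z i → M.pres c' (M.er c χ z) i := fun χ z c' i hc hz =>
    (M.pres_er c c' χ z i).2 ⟨hz, fun e => absurd e hc⟩
  have f0 : ∀ {n : ℕ} {T : FP p k} (χ : Fin (n + 1) → Bool) {z : (M.C.Z n).obj T}, M.Md m z →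
      M.Md m (M.er c χ z) := fun χ z hz c' i =>
    ⟨fun e' => pr χ (by rintro rfl; simp [h0] at e') ((hz c' i).1 e'),
      fun e h => (hz c' i).2 e ((M.pres_er c c' χ z i).1 h).1⟩
  let G := inc M a1 b1
  let F : (M.cf m).Map (M.cf m') :=
    ⟨fun z => ⟨M.er c (fun _ => false) z.1, fun c' i => by
        by_cases e' : c' = c
        · subst e'
          exact ⟨fun e => by simp [h1] at e,
            fun _ h => by simpa using ((M.pres_er _ _ _ _ i).1 h).2⟩
        · rw [e c' e']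
          exact f0 _ z.2 c' i⟩,
      fun φ z => Subtype.ext (M.er_map c φ _ z.1),
      fun f z => Subtype.ext (M.er_res c f (fun _ => false) z.1), fun z ⟨c', hc, hz⟩ =>
        have : c' ≠ c := by rintro rfl; simp [h0] at hc
        ⟨c', (e c' this).trans hc, fun i => pr _ this (hz i)⟩⟩
  obtain ⟨D⟩ := h.retract _ _ (a.cf m') (a.cf m) G F (fun n T z =>
    Subtype.ext (M.er_id c _ z.1 fun i _ => (z.2 c i).2 h1)) fun _ _ _ _ _ => rfl
  refine ⟨(h.domg _ _ D).2.2.2 q, (h.domg (a.fa m) (a.fa m') ⟨G.pull, fun _ _ _ hx T _ => hx T _,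
    mapOf F fun s n T z => Subtype.ext (a.er c s _ z.1), fun β n x hx hd => ?_⟩).2.2.2 q⟩
  rw [← neg_mem_iff, neg_sub]
  exact h.ch _ _ (G.comp F) (.id _) (fun n T χ z => ⟨M.er c χ z.1, f0 χ z.2⟩)
    (fun n T T' φ χ z => Subtype.ext (M.er_map c φ χ z.1))
    (fun _ n T f χ z => Subtype.ext (M.er_res c f χ z.1))
    (fun n T χ z ⟨c', hc, hz⟩ => ⟨c', hc, fun i => pr χ (by rintro rfl; simp [h0] at hc) (hz i)⟩)
    (fun _ _ _ => rfl) (fun n T z => Subtype.ext (M.er_id c _ z.1 fun i e => by simp at e))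
    β n x hx hd

end Tog

open Tog

theorem dtog : DTOG p k := fun h κ M a c m₁ m₂ m₃ h1 h2 h3 e q hq => by
  classical
  have h0 : update m₂ c .opt c = .opt := update_self ..
  have e2 : ∀ c', c' ≠ c → m₂ c' = update m₂ c .opt c' := fun c' hc => (update_of_ne hc ..).symm
  obtain ⟨S⟩ := se a h0 h1 h3 (fun c' hc => (e c' hc).1.trans (e2 c' hc))
    fun c' hc => (e c' hc).2.symm.trans (e2 c' hc)
  obtain ⟨s1, s2, s3⟩ := (h.seg h.pf.char _ _ _ S).2 q hq
  have o := opt_off a h h0 h2 e2 q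
  exact ⟨fun g1 g2 => s3 g1 (o.2 g2), fun g1 g3 => o.1 (s1 g1 g3), fun g2 g3 => s2 (o.2 g2) g3⟩

theorem domi : DOMI.{u, v} p k := fun A B i r hi hr hri ha q H n => by
  have key : ∀ {β ε : ℝ} {x : A.C.X n}, 0 < ε → i.app n x ∈ (B.F (β + ε / 2)).bd n →
      x ∈ (A.F (β + ε)).bd n := fun {β ε x} hε hx => by
    have := bd_map r (fun n => hr (β + ε / 2) (ε / 2) n (half_pos hε)) hx
    rwa [hri, add_assoc, add_halves] at this
  obtain ⟨⟨ρ, h1, h2⟩, ρ', m, h3, h4⟩ := H n
  refine ⟨⟨ρ, h1, fun β ε hβ hε x hx hd =>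
    key hε (h2 β (ε / 2) hβ (half_pos hε) _ (hi β n x hx) (i.map_cocycle hd))⟩,
    ρ', m, h3, fun e s he hs β ε hβ hε x hx hd => key hε ?_⟩
  have hs' : s ^ p ^ m % p = 1 := by
    rw [Nat.pow_mod, ← Nat.mod_mod_of_dvd s (dvd_pow_self p (by omega : e ≠ 0)), hs,
      Nat.mod_eq_of_lt one_lt_p, one_pow, Nat.mod_eq_of_lt one_lt_p]
  have := h4 e s he hs β (ε / 2) hβ (half_pos hε) _ (hi β n _ (A.act_F (s ^ p ^ m) β n x hx))
    (i.map_cocycle ((A.act _).map_cocycle hd))
  rw [Cs.Hom.sub_app, ha _ hs', ← neg_mem_iff, neg_sub] at this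
  rw [Cs.Hom.sub_app, map_sub]
  exact this

theorem rxg : RX p k := fun h B a κ D e md c h1 h2 q => by
  classical
  have ex : ∀ {n : ℕ} {T : FP p k} {z z' : (((fd B D).cf md).Z n).obj T},
      FConf.b z.1 = FConf.b z'.1 → FConf.w z.1 c = FConf.w z'.1 c → z = z' := fun {n T z z'} hb hw =>
    Subtype.ext (FConf.ext hb (funext fun c' => by
      by_cases e : c' = c
      · exact e ▸ hw
      · exact funext fun i => (Option.not_isSome_iff_eq_none.1 ((z.2 c' i).2 (h2 c' e))).trans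
          (Option.not_isSome_iff_eq_none.1 ((z'.2 c' i).2 (h2 c' e))).symm))
  let R : ((fd B D).cf md).Map ((fd B fun _ : Unit => D c).cf fun _ => .red) :=
    ⟨fun z => ⟨⟨FConf.b z.1, fun _ => FConf.w z.1 c, fun _ => FConf.ok z.1 c⟩,
        fun _ _ => ⟨nofun, nofun⟩⟩, fun _ _ => rfl, fun _ _ => rfl, fun z ⟨c', hc, hz⟩ => by
      obtain rfl : c' = c := by_contra fun e => by simp [h2 c' e] at hc
      exact ⟨(), rfl, hz⟩⟩
  let E0 : ∀ {n : ℕ} {T : FP p k}, (((fd B fun _ : Unit => D c).cf fun _ => .red).Z n).obj T →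
      (((fd B D).cf md).Z n).obj T := fun z =>
    ⟨⟨FConf.b z.1, update (fun _ _ => none) c (FConf.w z.1 ()), fun c' i v hv => by
        by_cases e : c' = c
        · subst e
          rw [update_self] at hv
          exact FConf.ok z.1 () i v hv
        · rw [update_of_ne e] at hv
          cases hv⟩, fun c' i => by
      by_cases e : c' = c
      · subst e
        simp [h1]
      · refine ⟨fun e' => by simp [h2 c' e] at e', fun _ => ?_⟩
        show ¬(update (fun c' _ => (none : Option (((D c').V.Z _).obj _))) c _ c' i).isSome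
        rw [update_of_ne e]
        simp⟩
  have hE : ∀ {n : ℕ} {T : FP p k} (z : (((fd B fun _ : Unit => D c).cf fun _ => .red).Z n).obj T),
      FConf.w (E0 z).1 c = FConf.w z.1 () := fun {n T} z =>
    update_self (β := fun c' => Fin (n + 1) → Option (((D c').V.Z n).obj T)) c _ fun _ _ => none
  let E : ((fd B fun _ : Unit => D c).cf fun _ => .red).Map ((fd B D).cf md) :=
    ⟨E0, fun φ z => ex rfl ((hE _).trans (funext fun i =>
        congrArg (Option.map _) (congrFun (hE z) i).symm)),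
      fun f z => ex rfl ((hE _).trans (funext fun i =>
        congrArg (Option.map _) (congrFun (hE z) (f i)).symm)),
      fun z ⟨_, _, hz⟩ => ⟨c, h1, fun i => by
        show (FConf.w (E0 z).1 c i).isSome
        rw [hE]
        exact hz i⟩⟩
  obtain ⟨D1⟩ := h.retract _ _ ((fdAct e).cf md) ((fdAct (D := fun _ : Unit => D c) fun _ => e c).cf _)
    R E (fun n T z => ex rfl (hE _)) fun _ _ _ _ _ => rfl
  obtain ⟨D2⟩ := h.retract _ _ ((fdAct (D := fun _ : Unit => D c) fun _ => e c).cf _) ((fdAct e).cf md)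
    E R (fun n T z => Subtype.ext (FConf.ext rfl (funext fun _ => hE z))) fun s _ n T z =>
      ex rfl ((hE _).trans (funext fun i => congrArg (Option.map _) (congrFun (hE z) i).symm))
  exact ⟨(h.domg _ _ D2).2.2.2 q, (h.domg _ _ D1).2.2.2 q⟩

end P261.C2
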