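import Vale.Agent.P261Z.C2.Y
import Vale.Agent.P261Z.Sw.Alg

/-!
# P261Z, block C2: the parameters of a normal form and the supersingular locus
-/

set_option linter.unusedVariables false
set_option linter.unusedSectionVars false

open Matrix

noncomputable section

namespace P261.C2

open C1 Sw Vale.Agent.P261Z.N

variable {p : ℕ} [hp : Fact p.Prime] {k : Type} [Field k] {h c : ℕ}

namespace Uj

section ring

variable {S : Type} [CommRing S] [Pf p S] {F : Fil p S} {v v' : LV p (Fin c) h S}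

theorem cc0 (hh : 1 ≤ h) (y : Fin c → S) (l : ℕ) :
    (if l = 0 then (p : WittVector p S) else -tm p (uy h y l)).coeff 0 = -uy h y l := by
  split_ifs with e
  · rw [e, uy, exh_lt y hh, map_zero, neg_zero, ← mul_one (p : WittVector p S), coeff_p_mul_zero]
  · exact (map_neg (WittVector.constantCoeff : WittVector p S →+* S) _).trans
      (congrArg Neg.neg (WittVector.teichmuller_coeff_zero p _))

theorem yv_mem (hv : v.IsZ F) (j : Fin c) : yv v j ∈ F.zero :=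
  pow_mem (neg_mem (F.mem_zero.2 (hv.hA.coeff _ _))) _

/-- the parameters as elements of the step zero -/
def yz (hv : IsNF F v) (j : Fin c) : F.zero := ⟨yv v j, yv_mem hv.isZ j⟩

theorem yz_rad (hh : 1 ≤ h) (hF : F.Closed) (hv : IsNF F v) (j : Fin c) :
    yz hv j ∈ (ss F v).radical := by
  have h1 := c_rad hh hF hv.isZ hv.mA (Fin.natAdd h j) ⟨_, c0_mem hv.isZ hv.mA _⟩ rfl
  have h2 := Ideal.pow_mem_of_mem _ (neg_mem h1) (p ^ (h + j)) (pow_pos p_pos _)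
  refine (Subtype.ext ?_ : _ = yz hv j) ▸ h2
  refine (congrArg (fun x : S => (-x) ^ p ^ (h + j)) (cc0 hh (yv v) (h + j))).trans ?_
  show (- -uy h (yv v) (h + j)) ^ p ^ (h + j) = yv v j
  rw [neg_neg, uy, rt_pow_pp, exh_add]

theorem ss_le_of (hh : 1 ≤ h) (hF : F.Closed) (hv : IsNF F v) {I : Ideal F.zero}
    (hI : I.IsRadical) (H : ∀ j, yz hv j ∈ I) : ss F v ≤ I := by
  refine ss_le hF hv.isZ hv.mA hI fun l y hy => hI ⟨p ^ (l : ℕ), ?_⟩
  have h1 : ((y ^ p ^ (l : ℕ) : F.zero) : S) = -exh h (yv v) l := by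
    rw [SubmonoidClass.coe_pow, hy.trans (cc0 hh (yv v) l), neg_pow_pp, uy, rt_pow_pp]
  rw [exh] at h1
  split_ifs at h1 with e
  · exact (Subtype.ext h1 : _ = -yz hv _) ▸ neg_mem (H _)
  · exact (Subtype.ext (h1.trans neg_zero) : _ = (0 : F.zero)) ▸ zero_mem _

theorem ss_mono (hF : F.Closed) (hv : v.IsZ F) (hv' : v'.IsZ F) (ho : v'.Ok F v) :
    ss F v' ≤ ss F v := by
  refine Ideal.span_le.2 ?_
  rintro y ⟨l, i, hy⟩
  have he := (eps (Fin c) h S F v hF hv).2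
  have hm := ho.lat hv'.lat hv.lat
  have h1 : y = ∑ j, ⟨_, F.mem_zero.2 (hm.coeff i j)⟩ * ⟨v.eb l j, he l j⟩ := Subtype.ext (by
    simpa using hy.trans (eb_change hv.inv l i))
  rw [h1]
  exact sum_mem fun j _ => Ideal.mul_mem_left _ _ (Ideal.subset_span ⟨l, j, rfl⟩)

theorem span_yz (hh : 1 ≤ h) (hF : F.Closed) (hv : IsNF F v) (H : ss F v = ⊤) :
    Ideal.span (Set.range (yz hv)) = ⊤ :=
  Ideal.radical_eq_top.1 (top_le_iff.1 (H ▸ ss_le_of hh hF hv (Ideal.radical_isRadical _)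
    fun j => Ideal.le_radical (Ideal.subset_span ⟨j, rfl⟩)))

theorem ss_top (hh : 1 ≤ h) (hF : F.Closed) (hv : IsNF F v) {j : Fin c} {t : S} (ht : t ∈ F.F 0)
    (e : yv v j * t = 1) : ss F v = ⊤ :=
  Ideal.radical_eq_top.1 (Ideal.eq_top_of_isUnit_mem _ (yz_rad hh hF hv j)
    (IsUnit.of_mul_eq_one ⟨t, ht⟩ (Subtype.ext e)))

end ring

theorem span_prod {R ι κ : Type} [CommRing R] [Fintype ι] [DecidableEq ι] [Fintype κ]
    (y : ι → κ → R) (H : ∀ i, Ideal.span (Set.range (y i)) = ⊤) :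
    Ideal.span (Set.range fun ψ : ι → κ => ∏ i, y i (ψ i)) = ⊤ := by
  choose a ha using fun i =>
    Ideal.mem_span_range_iff_exists_fun.1 ((Ideal.eq_top_iff_one _).1 (H i))
  have h1 : ∏ i, ∑ j, a i j * y i j = 1 := Finset.prod_eq_one fun i _ => ha i
  rw [Ideal.eq_top_iff_one, ← h1, Finset.prod_univ_sum]
  refine sum_mem fun ψ _ => ?_
  rw [Finset.prod_mul_distrib]
  exact Ideal.mul_mem_left _ _ (Ideal.subset_span ⟨ψ, rfl⟩)

theorem loc (hh : 1 ≤ h) {K : Type} [CommRing K] [Algebra k K] {m : ℕ} {T : FP p k}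
    (y : YConf h c K m T) (H : ∀ i, ss T.F (y.v i) = ⊤) :
    FLoc T fun _ f => ∃ ψ, (LY p k h c K).psi.ok (((Y p k h c K).Z m).map f y) ψ := by
  refine FLoc.zar _ _ (span_prod (fun i => yz (y.nf i)) fun i => span_yz hh T.cl (y.nf i) (H i)) ?_
  rintro T' f - ⟨ψ, t, ht, e⟩
  let b : Fin (m + 1) → T'.F.zero := fun i => ⟨f.f (yv (y.v i) (ψ i)), f.mem _ _ (yz (y.nf i) _).2⟩
  have h1 : IsUnit (∏ i, b i) := IsUnit.of_mul_eq_one ⟨t, ht⟩ (Subtype.ext (by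
    simpa [b, yz] using e))
  refine .here ⟨ψ, fun i => ?_⟩
  obtain ⟨s, hs⟩ := (isUnit_of_dvd_unit (Finset.dvd_prod_of_mem b (Finset.mem_univ i))
    h1).exists_right_inv
  exact ⟨s, s.2, (congrArg (· * (s : T'.K)) (yv_map ((FP.Hom.id T').comp f) (y.v i) (ψ i))).trans
    (congrArg Subtype.val hs)⟩

end Uj

open Uj

variable (p k)

theorem uj : UJ p k := by
  intro h c hh hc K _ _
  refine ⟨fun T v hv j => yv_mem hv.isZ j, fun T v v' hv hv' _ ho I hI H j => ⟨yz hv' j, ?_, rfl⟩,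
    fun m T _ y i j ⟨t, ht, e⟩ => loc hh y fun i' => ?_, fun m T _ _ y j hj => loc hh y fun i => ?_,
    fun m T _ _ y ψ hψ => ?_⟩
  · refine hI.radical_le_iff.2 ((ss_mono T.cl hv.isZ hv'.isZ ho).trans
      (ss_le_of hh T.cl hv hI fun j => ?_)) (yz_rad hh T.cl hv' j)
    obtain ⟨y, hy, e⟩ := H j
    exact (Subtype.ext e : y = yz hv j) ▸ hy
  · exact top_le_iff.1 (ss_top hh T.cl (y.nf i) ht e ▸
      ss_mono T.cl (y.nf i').isZ (y.nf i).isZ (y.ok i i'))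
  · exact top_le_iff.1 (top_of_ui T.cl hj.1.1 ((forms (Fin c) h T.K T.F).1 j _ hj.1.2.1 ⊤ rfl) ▸
      ss_mono T.cl (y.nf i).isZ hj.1.1 (hj.2 i).2)
  · obtain ⟨t, ht, e⟩ := hψ 0
    obtain ⟨s, h1, h2, h3, h4⟩ := (forms (Fin c) h T.K T.F).2.1 (y.v 0) {⊤} (y.nf 0).isZ
      fun U hU => hU ▸ ui_of_top T.cl (y.nf 0).isZ (ss_top hh T.cl (y.nf 0) ht e)
    exact .here ⟨s, ⟨h1, h2, h3⟩, fun i =>
      ⟨okz _ h _ T.F _ _ T.cl (y.nf i).isZ h1 (h4 ▸ (y.ok i 0).a),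
        okz _ h _ T.F _ _ T.cl h1 (y.nf i).isZ (h4 ▸ (y.ok 0 i).a)⟩⟩

end P261.C2
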