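import Vale.Agent.P261Z.C2.Ud
import Vale.Agent.P261Z.C2.Tog
import Vale.Agent.P261Z.C2.Frep
import Vale.Agent.P261Z.C2.Floc
import Vale.Agent.P261Z.C2.Ext
import Vale.Agent.P261Z.C2.Lab
import Vale.Agent.P261Z.C2.Repy
import Vale.Agent.P261Z.C2.Lz
import Vale.Agent.P261Z.C2.St1
import Vale.Agent.P261Z.C2.Uj
import Vale.Agent.P261Z.C2.TGb
import Vale.Agent.P261Z.C2.Rho
import Vale.Agent.P261Z.C2.Exu
import Vale.Agent.P261Z.C2.Pt

/-!
# P261Z, block C2: the bridge
-/

namespace P261.C2

variable {p : ℕ} [hp : Fact p.Prime]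

/-- **the bridge** -/
theorem stGD (hS : SH p (ZMod p)) : Top.StGD p :=
  stGD_of ⟨hS, by apply ctr, by apply dtog, by apply frep, by apply floc, by apply rxg, by apply swp,
    by apply ext, by apply lab, by apply repy, by apply lz, by apply st1, by apply uj, by apply ul0,
    by apply ule, by apply ulu, by apply rho, by apply exu⟩ (by apply domi) (by apply fin) udx

end P261.C2
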