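import Vale.Agent.P261Z.C2.Br

/-!
# P261Z, block C2: assembly of the bridge from the rows
-/

set_option linter.unusedVariables false

noncomputable section

namespace P261.C2

open Vale.Agent.P251.F Vale.Agent.P261Z Vale.Agent.P261Z.N P261.Ig P261.NM

variable {p : ℕ} [hp : Fact p.Prime]

/-- the rows of the bridge -/
structure Rows (p : ℕ) [Fact p.Prime] : Prop where
  sh : SH p (ZMod p)
  ctr : CTR p (ZMod p)
  dtog : DTOG p (ZMod p)
  frep : FREP p (ZMod p)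
  floc : FLOC p (ZMod p)
  rx : RX p (ZMod p)
  swp : SWP p (ZMod p)
  ext : EXT p (ZMod p)
  lab : LAB p (ZMod p)
  repy : REPY p (ZMod p)
  lz : LZ p (ZMod p)
  st1 : ST1 p (ZMod p)
  uj : UJ p (ZMod p)
  ul0 : UL0 p
  ule : ULE p
  ulu : ULU p
  rho : RHO p
  exu : EXU p

theorem good_lab (W : Rows p) (hL : StL p (ZMod p)) {h c : ℕ} {h1 : 1 ≤ h} (hc : 0 < c) {k : Type}
    [Field k] {D : LTD p (h + c) k} (hD : IsHz p D) {K : Type} [Field K] [Pf p K]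
    [Algebra (ZMod p) K] {ι : k →+* K} {A : RG p h c D.GG K} (hT : IsT D ι A) {Θ : TGd A h1}
    {A' : NM.Act (ZMod p) (RR c K) D.GG (Fin c)} [IsAdicComplete A'.m (RR c K)] {AA : Type}
    [CommRing AA] [Algebra (RR c K) AA] [Pf p AA] {V : A'.Mod AA} [V.IsAlg] (U : UD Θ V) :
    (U.lab.cf.fa U.stab_lab.cf).Good (p ^ h) := by
  have hq : 1 ≤ p ^ h := Nat.one_le_pow _ _ hp.out.pos
  obtain ⟨-, y1, y2, y3⟩ := W.repy W.sh W.frep h c h1 K
  obtain ⟨-, -, -, o1, o2⟩ := W.uj h c h1 hc K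
  have g1 := W.st1 W.sh W.frep W.repy W.lz hL h c h1 hc K
  have g2 := W.swp W.sh W.frep W.floc W.dtog W.rx _ _ _ _ _ (stabY p (ZMod p) h c K).psi y1 y2 y3
    o1 o2 _ hq g1
  have e := W.exu W.sh W.ul0 W.ule W.ulu W.uj W.rho h c h1 hc k D hD K ι A hT Θ A' AA V U
  have g3 := W.ext W.sh W.frep W.floc W.dtog W.rx _ _ _ _ _ U.eT y1 y3
    ((W.rho h c _ K A h1 Θ A' AA V U).2 W.sh y1) (fun m T _ hT y => (e m T hT y).1)
    (fun m T _ hT y => (e m T hT y).2) _ hq g2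
  exact W.lab W.sh W.ctr W.dtog _ _ _ _ U.stab_lab _ hq g3

end P261.C2
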