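import Vale.Agent.P261Z.C2.Y
import Vale.Agent.P261Z.NM.Ring

/-!
# P261Z, block C2: the bridge to the cochains of the group; definitions and statements
-/

set_option linter.unusedVariables false
set_option linter.unusedSectionVars false

open Matrix MvPowerSeries

noncomputable section

namespace P261.C2

open Vale.Agent.P251.F Vale.Agent.P261Z Vale.Agent.P261Z.N P261.Ig P261.NM

variable {p : ℕ} [hp : Fact p.Prime] {h c : ℕ} {G : Type} [Group G] [TopologicalSpace G]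
  [IsTopologicalGroup G] {K : Type} [Field K] [Pf p K] [Algebra (ZMod p) K]

/-- What is used of the big ring `AA`. -/
structure UD {A : RG p h c G K} {h1 : 1 ≤ h} (Θ : TGd A h1)
    {A' : NM.Act (ZMod p) (RR c K) G (Fin c)} {AA : Type} [CommRing AA] [Algebra (RR c K) AA]
    [Pf p AA] (V : A'.Mod AA) [V.IsAlg] : Type 1 where
  act : IsAct A A'
  u : ∀ j, A'.u j = X j
  pbs : PBs (P261.fr p (RR c K)) A'.m A'.m
  /-- the universal basis -/
  mu : Matrix (Fin c ⊕ Fin h) (Fin (h + c)) (WittVector p AA)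
  /-- the inverse matrix -/
  nu : Matrix (Fin (h + c)) (Fin c ⊕ Fin h) (WittVector p AA)
  iso : Iso (V0 p (Fin c) h _) (Au p (h + c) (uy h fun j => algebraMap (RR c K) AA (X j))) mu nu
  lift : ∀ (S : Type) [CommRing S] [Pf p S] (θ : RR c K →+* S) μ ν,
    Iso (V0 p (Fin c) h _) (Au p (h + c) (uy h fun j => θ (X j))) μ ν →
    ∃ f : AA →+* S, (∀ r, f (algebraMap _ AA r) = θ r) ∧ mw f mu = μ ∧ mw f nu = ν
  ext : ∀ (S : Type) [CommRing S] [Pf p S] (f g : AA →+* S),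
    (∀ r, f (algebraMap (RR c K) AA r) = g (algebraMap (RR c K) AA r)) → mw f mu = mw g mu → f = g
  ρ_mu : ∀ g, mw (V.ρR g) mu = mu * mw (PH.lift (algebraMap (RR c K) AA)) (Θ.T g)
  /-- the scalars -/
  σ : ℕ → AA →ₐ[RR c K] AA
  σ_ρ : ∀ s g x, σ s (V.ρ g x) = V.ρ g (σ s x)
  σ_mu : ∀ s, s % p = 1 →
    mw (σ s : AA →+* AA) mu = Th (Fin c) h _ (s : WittVector p AA) * mu
  σ_nu : ∀ s, s % p = 1 →
    mw (σ s : AA →+* AA) nu = nu * Th (Fin c) h _ (Ring.inverse (s : WittVector p AA))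
  σ_ne : ∀ s, ¬s % p = 1 → ∀ x, σ s x = x
  σ_one : ∀ x, σ 1 x = x
  σ_mul : ∀ s t, s % p = 1 → t % p = 1 → ∀ x, σ (s * t) x = σ s (σ t x)
  /-- the filtration -/
  b : Fil p AA
  /-- its steps as modules -/
  M : ℝ → Submodule (RR c K) AA
  hM : ∀ t x, x ∈ M t ↔ x ∈ b.F t
  stab : ∀ t, V.Stab (M t)
  exh : b.Exh
  /-- the standard lift -/
  a : Fin c → WittVector p AA
  taut : (vtx a mu nu).IsZ b
  univ : ∀ (S : Type) [CommRing S] [Pf p S] (F : Fil p S), F.Closed → ∀ (f : AA →+* S)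
    (a' : Fin c → WittVector p S), (∀ r, f (algebraMap (RR c K) AA r) ∈ F.F 0) →
    (vtx a' (mw f mu) (mw f nu)).IsZ F → Fil.Maps f b F ∧ ∀ l, wm p f (a l) - a' l ∈ F.WL 1

variable {A : RG p h c G K} {h1 : 1 ≤ h} {Θ : TGd A h1} {A' : NM.Act (ZMod p) (RR c K) G (Fin c)}
  {AA : Type} [CommRing AA] [Algebra (RR c K) AA] [Pf p AA] {V : A'.Mod AA} [V.IsAlg]

variable (V) in
/-- points of the rings of cochains -/
def tauC : CF p (ZMod p) where
  Z n :=
    { obj := fun T => V.Coch (Fin (n + 1)) →+* T.K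
      map := fun φ τ => φ.r.comp τ
      map_id := fun _ _ => rfl
      map_comp := fun _ _ _ => rfl }
  res f τ := τ.comp (V.pullR f)
  res_id _ := rfl
  res_comp _ _ _ := rfl
  res_map _ _ _ := rfl
  Full _ := False
  full_res _ _ h := h
  full_map _ _ := Iff.rfl

namespace UD

variable (U : UD Θ V)

/-- compatibility of a point of the ring of cochains with a family of normal forms -/
structure Ok {n : ℕ} {T : FP p (ZMod p)} (y : YConf h c K n T)
    (τ : V.Coch (Fin (n + 1)) →+* T.K) : Prop where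
  gam : ∀ e : A'.Gam (Fin (n + 1)), τ (algebraMap _ _ e) ∈ T.F.F 0
  base : ∀ i (a : K), τ (V.vxR i (algebraMap (RR c K) AA (C a))) = y.x.1 a
  vtx : ∀ i, y.v i = vtx (y.v i).a (mw (τ.comp (V.vxR i)) U.mu) (mw (τ.comp (V.vxR i)) U.nu)

theorem pull_alg {I J : Type} (f : I → J) (e : A'.Gam I) :
    V.pullR f (algebraMap _ _ e) = algebraMap _ _ (A'.pull f e) := Subtype.ext (funext fun g =>
  (Act.Mod.alg_val e (g ∘ f)).trans (Act.Mod.alg_val (A'.pull f e) g).symm)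

variable {U} in
theorem Ok.res {m n : ℕ} {T : FP p (ZMod p)} {y : YConf h c K n T}
    {τ : V.Coch (Fin (n + 1)) →+* T.K} (H : U.Ok y τ) (f : Fin (m + 1) → Fin (n + 1)) :
    U.Ok ((Y p (ZMod p) h c K).res f y) (τ.comp (V.pullR f)) :=
  ⟨fun e => by
    rw [RingHom.comp_apply, pull_alg]
    exact H.gam _, fun i a => H.base (f i) a, fun i => H.vtx (f i)⟩

/-- the direction of the points of the rings of cochains -/
def tau : Dir (Y p (ZMod p) h c K) where
  V := tauC V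
  ok y τ := U.Ok y τ
  ok_map φ y τ H := ⟨fun e => φ.mem _ _ (H.gam e), fun i a => congrArg φ.r (H.base i a),
    fun i => (congrArg (LV.map φ.r) (H.vtx i)).trans (vtx_map _ _ _ _)⟩
  ok_res f y τ H := H.res f

/-- the scalars as equivariant maps -/
def sig (s : ℕ) : LHom V V := ⟨(U.σ s).toLinearMap, U.σ_ρ s⟩

/-- the scalars on cochains -/
def sigR (s : ℕ) (I : Type) : V.Coch I →+* V.Coch I :=
  (U.sig s).cochR (map_one (U.σ s)) (map_mul (U.σ s)) I

theorem sigR_val (s : ℕ) {I : Type} (F : V.Coch I) (g) : (U.sigR s I F).1 g = U.σ s (F.1 g) := rfl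

theorem sigR_alg (s : ℕ) {I : Type} (e : A'.Gam I) :
    U.sigR s I (algebraMap _ _ e) = algebraMap _ _ e := Subtype.ext (funext fun g => by
  rw [sigR_val, Act.Mod.alg_val, AlgHom.commutes])

theorem sigR_vx (s : ℕ) {I : Type} (i : I) :
    (U.sigR s I).comp (V.vxR i) = (V.vxR i).comp (U.σ s : AA →+* AA) :=
  RingHom.ext fun x => Subtype.ext (funext fun g => U.σ_ρ s _ x)

theorem vtx_sig {S : Type} [CommRing S] [Pf p S] (f : AA →+* S) (s : ℕ) (a : Fin c → WittVector p S) :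
    (C2.vtx a (mw f U.mu) (mw f U.nu)).sc' s =
      C2.vtx ((C2.vtx a (mw f U.mu) (mw f U.nu)).sc' s).a (mw (f.comp (U.σ s : AA →+* AA)) U.mu)
        (mw (f.comp (U.σ s : AA →+* AA)) U.nu) := by
  by_cases hs : s % p = 1
  · rw [LV.sc'_eq hs, ← mw_mw f, ← mw_mw f, U.σ_mu s hs, U.σ_nu s hs, mw_mul, mw_mul]
    refine LV.ext rfl rfl ?_ ?_ rfl rfl
    · show Th _ _ _ _ * _ = Matrix.submatrix (mw f _ * mw f U.mu) id (rx h c)
      rw [show mw f (Th _ _ _ _) = _ from Th_map _ _, map_natCast]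
      rfl
    · show _ * Th _ _ _ _ = Matrix.submatrix (mw f U.nu * mw f _) (rx h c) id
      rw [show mw f (Th _ _ _ _) = _ from Th_map _ _, map_inv_nat hs]
      rfl
  · rw [LV.sc'_ne hs, show f.comp (U.σ s : AA →+* AA) = f from
      RingHom.ext fun x => congrArg f (U.σ_ne s hs x)]
    rfl

theorem sigR_one (I : Type) : U.sigR 1 I = RingHom.id _ :=
  RingHom.ext fun F => Subtype.ext (funext fun g => U.σ_one _)

theorem sigR_mul {s t : ℕ} (hs : s % p = 1) (ht : t % p = 1) (I : Type) :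
    U.sigR (s * t) I = (U.sigR s I).comp (U.sigR t I) :=
  RingHom.ext fun F => Subtype.ext (funext fun g => U.σ_mul s t hs ht _)

variable {U} in
theorem Ok.sig {n : ℕ} {T : FP p (ZMod p)} {y : YConf h c K n T}
    {τ : V.Coch (Fin (n + 1)) →+* T.K} (H : U.Ok y τ) (s : ℕ) :
    U.Ok (((aY p (ZMod p) h c K).e s).f y) (τ.comp (U.sigR s _)) :=
  ⟨fun e => by
    rw [RingHom.comp_apply, sigR_alg]
    exact H.gam e, fun i a => by
    refine Eq.trans ?_ (H.base i a)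
    rw [RingHom.comp_apply, Act.Mod.vxR_alg, sigR_alg], fun i => by
    rw [RingHom.comp_assoc, sigR_vx, ← RingHom.comp_assoc]
    have := U.vtx_sig (τ.comp (V.vxR i)) s (y.v i).a
    rw [← H.vtx i] at this
    exact this⟩

/-- the scalars -/
def eT : U.tau.Act (aY p (ZMod p) h c K) where
  e :=
    { e := fun s => ⟨fun τ => RingHom.comp τ (U.sigR s _), fun _ _ => rfl, fun _ _ => rfl,
        fun _ h => h⟩
      one := fun n T τ => congrArg (RingHom.comp τ) (U.sigR_one _)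
      mul := fun s t hs ht n T τ => congrArg (RingHom.comp τ) (U.sigR_mul hs ht _) }
  ok s n T y τ H := H.sig s

/-- the marks -/
def lab : Lab U.tau.pair (Fin c) := (LY p (ZMod p) h c K).bc U.tau.fst

theorem stab_lab : U.lab.Stab U.eT.pair := fun j s n T z i H => stabY p (ZMod p) h c K j s n T _ i H

end UD

variable (p)

/-- compatible points are filtered maps, and they form a representable functor -/
def RHO : Prop := ∀ (h c : ℕ) (G : Type) [Group G] [TopologicalSpace G] [IsTopologicalGroup G]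
  (K : Type) [Field K] [Pf p K] [Algebra (ZMod p) K] (A : RG p h c G K) (h1 : 1 ≤ h) (Θ : TGd A h1)
  (A' : NM.Act (ZMod p) (RR c K) G (Fin c)) [IsAdicComplete A'.m (RR c K)] (AA : Type) [CommRing AA]
  [Algebra (RR c K) AA] [Pf p AA] (V : A'.Mod AA) [V.IsAlg] (U : UD Θ V),
  (∀ (n : ℕ) (T : FP p (ZMod p)) (y : YConf h c K n T) (τ : V.Coch (Fin (n + 1)) →+* T.K),
    U.Ok y τ → (∀ i j, yv (y.v i) j = τ (V.vxR i (algebraMap (RR c K) AA (X j)))) ∧
      ∀ i β (F : V.Coch (Fin (n + 1))), (∀ g, V.ρ (g i)⁻¹ (F.1 g) ∈ U.M β) → τ F ∈ T.F.F β) ∧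
  (SH p (ZMod p) → (∀ m, ((Y p (ZMod p) h c K).Z m).FRep) → U.tau.Rp)

/-- compatible points exist and are unique after covers -/
def EXU : Prop := SH p (ZMod p) → UL0 p → ULE p → ULU p → UJ p (ZMod p) → RHO p →
  ∀ (h c : ℕ) (h1 : 1 ≤ h), 0 < c → ∀ (k : Type) [Field k] (D : LTD p (h + c) k), IsHz p D →
  ∀ (K : Type) [Field K] [Pf p K] [Algebra (ZMod p) K] (ι : k →+* K) (A : RG p h c D.GG K),
  IsT D ι A → ∀ (Θ : TGd A h1) (A' : NM.Act (ZMod p) (RR c K) D.GG (Fin c))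
  [IsAdicComplete A'.m (RR c K)] (AA : Type) [CommRing AA]
  [Algebra (RR c K) AA] [Pf p AA] (V : A'.Mod AA) [V.IsAlg] (U : UD Θ V) (m : ℕ)
  (T : FP p (ZMod p)), T.F.Exh → ∀ y : ((Y p (ZMod p) h c K).Z m).obj T,
    (FLoc T fun _ f =>
      (∃ ψ, (LY p (ZMod p) h c K).psi.ok (((Y p (ZMod p) h c K).Z m).map f y) ψ) ∨
        ∃ τ, U.tau.ok (((Y p (ZMod p) h c K).Z m).map f y) τ) ∧
    ∀ τ τ', U.tau.ok y τ → U.tau.ok y τ' → FLoc T fun _ f =>
      (∃ ψ, (LY p (ZMod p) h c K).psi.ok (((Y p (ZMod p) h c K).Z m).map f y) ψ) ∨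
        (U.tau.V.Z m).map f τ = (U.tau.V.Z m).map f τ'

/-- the complex `N` is a retract of the complex of natural functions -/
def FIN : Prop := DOMI.{0, 1} p (ZMod p) → UL0 p → RHO p →
  ∀ (h c : ℕ) (G : Type) [Group G] [TopologicalSpace G] [IsTopologicalGroup G]
  (K : Type) [Field K] [Pf p K] [Algebra (ZMod p) K] (A : RG p h c G K) (h1 : 1 ≤ h) (Θ : TGd A h1)
  (A' : NM.Act (ZMod p) (RR c K) G (Fin c)) [IsAdicComplete A'.m (RR c K)] (AA : Type) [CommRing AA]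
  [Algebra (RR c K) AA] [Pf p AA] (V : A'.Mod AA) [V.IsAlg] (U : UD Θ V)
  (Fl : ℝ → Cs.Sub V.N) (mono) (act : ℕ → Cs.Hom V.N V.N) (hF) (e1) (em)
  (ω : ℕ → AA →ₗ[RR c K] AA), (∀ β n, (Fl β).S n = V.NS (U.M β) n) →
  (∀ s n x, (act s).app n x = op V V (ω s) n x) → (∀ s, s % p = 1 → ∀ x, U.σ s (ω s x) = x) →
  ∀ q, (U.lab.cf.fa U.stab_lab.cf).Good q →
    (FA.mk V.N Fl mono act hF e1 em : FA.{0} p (ZMod p)).Good q

end P261.C2
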