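import Vale.Agent.P261Z.C2.Alg

/-!
# P261Z, block C2: congruences of Witt vectors modulo an ideal, the contraction principle
-/

open Matrix WittVector

noncomputable section

namespace P261.C2

variable {p : ℕ} [hp : Fact p.Prime] {R R' : Type} [CommRing R] [CommRing R'] {I I' J : Ideal R}

/-- congruence modulo the Witt vectors with coefficients in `I` -/
def Cq (I : Ideal R) (x y : WittVector p R) : Prop :=
  wm p (Ideal.Quotient.mk I) x = wm p (Ideal.Quotient.mk I) y

theorem cq_iff' {x y : WittVector p R} : Cq I x y ↔ ∀ j, x.coeff j - y.coeff j ∈ I :=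
  WittVector.ext_iff.trans (forall_congr' fun _ => Ideal.Quotient.eq)

theorem wi_iff {x : WittVector p R} : WI I x ↔ Cq I x 0 := by
  simp [cq_iff', WI]

theorem wi_sub {x y : WittVector p R} : WI I (x - y) ↔ Cq I x y := by
  rw [wi_iff, Cq, Cq, map_sub, map_zero, sub_eq_zero]

namespace Cq

variable {x y z x' y' : WittVector p R}

theorem refl (x : WittVector p R) : Cq I x x := rfl

theorem symm (h : Cq I x y) : Cq I y x := Eq.symm h

theorem trans (h : Cq I x y) (h' : Cq I y z) : Cq I x z := Eq.trans h h'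

theorem mono (h : Cq I x y) (hI : I ≤ I') : Cq I' x y := cq_iff'.2 fun j => hI (cq_iff'.1 h j)

theorem add (h : Cq I x y) (h' : Cq I x' y') : Cq I (x + x') (y + y') := by
  rw [Cq, map_add, map_add, h, h']

theorem sub (h : Cq I x y) (h' : Cq I x' y') : Cq I (x - x') (y - y') := by
  rw [Cq, map_sub, map_sub, h, h']

theorem mul (h : Cq I x y) (h' : Cq I x' y') : Cq I (x * x') (y * y') := by
  rw [Cq, map_mul, map_mul, h, h']

theorem sum {ι : Type} {s : Finset ι} {f g : ι → WittVector p R} (h : ∀ i ∈ s, Cq I (f i) (g i)) :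
    Cq I (∑ i ∈ s, f i) (∑ i ∈ s, g i) := by
  rw [Cq, map_sum, map_sum]
  exact Finset.sum_congr rfl h

theorem det {ι : Type} [Fintype ι] [DecidableEq ι] {A B : Matrix ι ι (WittVector p R)}
    (h : ∀ i j, Cq I (A i j) (B i j)) : Cq I A.det B.det := by
  rw [Cq, RingHom.map_det, RingHom.map_det]
  exact congrArg _ (Matrix.ext h)

theorem shift (h : Cq I x y) : Cq I (x.shift 1) (y.shift 1) :=
  cq_iff'.2 fun j => cq_iff'.1 h (1 + j)

theorem tm {a b : R} (h : a - b ∈ I) : Cq I (tm p a) (tm p b) := by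
  rw [Cq, map_teichmuller, map_teichmuller, Ideal.Quotient.eq.2 h]

theorem tm_mul (h : Cq I x y) {a : R} (ha : a ∈ J) :
    Cq (J * I) (P261.tm p a * x) (P261.tm p a * y) := cq_iff'.2 fun j => by
  rw [coeff_tm_mul, coeff_tm_mul, ← mul_sub]
  exact Ideal.mul_mem_mul (J.pow_mem_of_mem ha _ (pow_pos p_pos _)) (cq_iff'.1 h j)

theorem eq [IsHausdorff J R] (h : ∀ t, Cq (J ^ t) x y) : x = y :=
  WittVector.ext fun j => (IsHausdorff.eq_iff_smodEq (I := J)).2 fun t => by
    simpa [SModEq.sub_mem] using cq_iff'.1 (h t) j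

variable [Ch p R]

theorem sg (h : Cq I x y) : Cq I (sg p R x) (sg p R y) := by
  rw [Cq, wm_sg, wm_sg, h]

theorem sg_pow (h : Cq I x y) (k : ℕ) : Cq I ((P261.sg p R ^ k) x) ((P261.sg p R ^ k) y) := by
  induction k with
  | zero => exact h
  | succ k ih => rw [pow_succ']; exact ih.sg

theorem p_mul (h : Cq I x y) (hI : I ≤ J) :
    Cq (J * I) ((p : WittVector p R) * x) ((p : WittVector p R) * y) := cq_iff'.2 <| by
  rintro (_ | j)
  · simp
  · have e := sub_pow_pp (x.coeff j) (y.coeff j) 1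
    rw [pow_one] at e
    rw [coeff_p_mul_succ, coeff_p_mul_succ, ← e, ← pow_sub_one_mul p_pos.ne']
    exact Ideal.mul_mem_mul (J.pow_mem_of_mem (hI (cq_iff'.1 h j)) _
      (Nat.sub_pos_of_lt one_lt_p)) (cq_iff'.1 h j)

end Cq

/-- **the contraction principle** -/
theorem fix {ι : Type} [IsAdicComplete J R] (Φ : (ι → WittVector p R) → ι → WittVector p R)
    (a₀ : ι → WittVector p R) (h0 : ∀ i, Cq J (Φ a₀ i) (a₀ i))
    (h : ∀ (t : ℕ) (a a' : ι → WittVector p R), (∀ i, Cq J (a i) (a₀ i)) →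
      (∀ i, Cq J (a' i) (a₀ i)) → (∀ i, Cq (J ^ (t + 1)) (a i) (a' i)) →
      ∀ i, Cq (J ^ (t + 2)) (Φ a i) (Φ a' i)) :
    ∃ a, (∀ i, Cq J (a i) (a₀ i)) ∧ Φ a = a := by
  have h1 : ∀ k, (∀ i, Cq J (Φ^[k] a₀ i) (a₀ i)) ∧
      ∀ i, Cq (J ^ (k + 1)) (Φ^[k + 1] a₀ i) (Φ^[k] a₀ i) := by
    intro k
    induction k with
    | zero => exact ⟨fun _ => rfl, fun i => by simpa using h0 i⟩
    | succ k ih =>
      have h2 := fun i => ((ih.2 i).mono (Ideal.pow_le_self k.succ_ne_zero)).trans (ih.1 i)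
      refine ⟨h2, fun i => ?_⟩
      have h3 := h k _ _ h2 ih.1 ih.2 i
      rwa [← Function.iterate_succ_apply' Φ, ← Function.iterate_succ_apply' Φ] at h3
  have h2 : ∀ i {m n}, m ≤ n → Cq (J ^ m) (Φ^[m] a₀ i) (Φ^[n] a₀ i) := by
    intro i m n hmn
    induction n, hmn using Nat.le_induction with
    | base => rfl
    | succ n hn ih =>
      exact ih.trans (((h1 n).2 i).symm.mono (Ideal.pow_le_pow_right (by omega)))
  choose L hL using fun i j => IsPrecomplete.prec' (I := J) (fun k => (Φ^[k] a₀ i).coeff j)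
    fun hmn => by simpa [SModEq.sub_mem] using cq_iff'.1 (h2 i hmn) j
  have h3 : ∀ k i, Cq (J ^ k) (mk p (L i)) (Φ^[k] a₀ i) := fun k i => Cq.symm <| cq_iff'.2 fun j => by
    simpa [SModEq.sub_mem] using hL i j k
  have h4 : ∀ i, Cq J (mk p (L i)) (a₀ i) := fun i =>
    ((h3 1 i).mono (pow_one J).le).trans ((h1 1).1 i)
  refine ⟨fun i => mk p (L i), h4, funext fun i => Cq.eq (J := J) fun t => ?_⟩
  have h5 := h t _ _ h4 (h1 _).1 (h3 (t + 1)) i
  rw [← Function.iterate_succ_apply' Φ] at h5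
  exact (h5.trans (h3 _ i).symm).mono (Ideal.pow_le_pow_right (by omega))

theorem unit_of_sub {a b : R} (hJ : J ≤ Ideal.jacobson ⊥) (h : a - b ∈ J) (hb : IsUnit b) :
    IsUnit a := by
  obtain ⟨u, rfl⟩ := hb
  have h1 := Ideal.mem_jacobson_bot.1 (hJ h) (↑u⁻¹ : R)
  rw [sub_mul, Units.mul_inv, sub_add_cancel] at h1
  exact isUnit_of_mul_isUnit_left h1

section ch

variable [Ch p R]

theorem ver_mul_sg (x y : WittVector p R) :
    verschiebung (x * sg p R y) = verschiebung x * y := by
  rcases subsingleton_or_nontrivial R with h | h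
  · exact WittVector.ext fun _ => Subsingleton.elim _ _
  · have : CharP R p := Ch.charP
    rw [← verschiebung_mul_frobenius]
    exact congrArg (fun z => verschiebung (x * z))
      (WittVector.ext fun j => (coeff_frobenius_charP p y j).symm)

omit [Ch p R] in
theorem ver_shift {x : WittVector p R} (h : x.coeff 0 = 0) : verschiebung (x.shift 1) = x := by
  ext (_ | j)
  · rw [h]; rfl
  · rw [verschiebung_coeff_add_one, shift_coeff, add_comm]

theorem shift_p_mul (x : WittVector p R) : ((p : WittVector p R) * x).shift 1 = sg p R x := by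
  ext j
  rw [shift_coeff, add_comm, coeff_p_mul_succ, coeff_sg]

theorem cg_mul_of_zero (k : ℕ) {z y : WittVector p R} (hz : Cg k z 0) (hy : y.coeff 0 = 0) :
    Cg (k + 1) (z * y) 0 := by
  induction k generalizing z y with
  | zero =>
    intro j hj
    obtain rfl : j = 0 := by omega
    rw [mul_coeff_zero, hy, mul_zero, zero_coeff]
  | succ k ih =>
    rw [← ver_shift (x := z) ((hz 0 k.succ_pos).trans (zero_coeff p R 0)), ← ver_mul_sg]
    rintro (_ | j) hj
    · rw [zero_coeff]; rfl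
    · rw [verschiebung_coeff_add_one, zero_coeff, ← zero_coeff p R j]
      refine ih (fun l hl => ?_) (by rw [coeff_sg, hy, zero_pow p_pos.ne']) j (by omega)
      rw [shift_coeff, hz (1 + l) (by omega), zero_coeff, zero_coeff]

/-- a Witt vector whose first coefficient is a unit is a unit -/
theorem isUnit_of_coeff0 {x : WittVector p R} (h : IsUnit (x.coeff 0)) : IsUnit x := by
  obtain ⟨u, hu⟩ := h
  set y := 1 - tm p (↑u⁻¹ : R) * x with hy
  have h0 : y.coeff 0 = 0 := by
    have := map_sub (constantCoeff : WittVector p R →+* R) 1 (tm p (↑u⁻¹ : R) * x)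
    refine this.trans ?_
    rw [map_one, constantCoeff_apply, mul_coeff_zero, teichmuller_coeff_zero, ← hu, Units.inv_mul,
      sub_self]
  have h1 : ∀ k, Cg k (y ^ k) 0 := by
    intro k
    induction k with
    | zero => exact fun _ h => absurd h (Nat.not_lt_zero _)
    | succ k ih => rw [pow_succ]; exact cg_mul_of_zero k ih h0
  have h2 := wlim_cg (s := fun k => ∑ j ∈ Finset.range k, y ^ j) fun k => by
    rw [Finset.sum_range_succ]
    simpa using (Cg.refl _).add (h1 k)
  refine isUnit_of_mul_isUnit_right (x := tm p (↑u⁻¹ : R)) (IsUnit.of_mul_eq_one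
    (wlim fun k => ∑ j ∈ Finset.range k, y ^ j) (Cg.ext fun k => ?_))
  have h3 := (Cg.refl (1 - y)).mul (h2 k)
  rw [mul_neg_geom_sum, hy, sub_sub_cancel] at h3
  simpa using h3.trans ((Cg.refl 1).sub (h1 k))

end ch

end P261.C2
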