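import Vale.Agent.P261Z.N.Fam
import Vale.Agent.P261Z.NM.Defs
import Vale.Agent.P261Z.W.Hull

/-!
# P261Z, block C2: the matrices of the group action; definitions and statements
-/

set_option linter.all false

open Matrix MvPowerSeries

noncomputable section

namespace P261.C2

open Vale.Agent.P251.F Vale.Agent.P261Z Vale.Agent.P261Z.N

variable {p : ℕ} [hp : Fact p.Prime]

instance chMv {σ L : Type} [CommRing L] [Ch p L] : Ch p (MvPowerSeries σ L) :=
  Ch.of_hom (C : L →+* MvPowerSeries σ L)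

section up

variable {B B' : Type} [CommRing B] [Ch p B] [CommRing B'] [Ch p B'] {I I' I'' : Type}

/-- `σ ^ (-N)` of the image of a matrix in the perfect hull -/
def up (N : ℕ) (M : Matrix I I' (WittVector p B)) : Matrix I I' (WittVector p (PH p B)) :=
  (M.map (wm p (algebraMap B (PH p B)))).map ⇑(si p (PH p B) ^ N)

theorem up_mul [Fintype I'] (N : ℕ) (M : Matrix I I' (WittVector p B))
    (M' : Matrix I' I'' (WittVector p B)) : up N (M * M') = up N M * up N M' := by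
  rw [up, Matrix.map_mul, Matrix.map_mul]
  rfl

theorem up_one [DecidableEq I] (N : ℕ) : up N (1 : Matrix I I (WittVector p B)) = 1 := by
  rw [up, Matrix.map_one _ (map_zero _) (map_one _), Matrix.map_one _ (map_zero _) (map_one _)]

theorem up_coeff (N : ℕ) (M : Matrix I I' (WittVector p B)) (a : I) (b : I') (l : ℕ) :
    (up N M a b).coeff l = (rt p (PH p B) ^ N) (algebraMap B _ ((M a b).coeff l)) :=
  coeff_si_pow N _ l

theorem up_map (f : B →+* B') (N : ℕ) (M : Matrix I I' (WittVector p B)) :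
    (up N M).map (wm p (PH.map f)) = up N (M.map (wm p f)) := by
  ext a b l
  rw [up_coeff, map_apply, WittVector.map_coeff, up_coeff, map_rt_pow, PH.map_of]
  rfl

theorem up_inj [IsReduced B] (N : ℕ) {M M' : Matrix I I' (WittVector p B)}
    (h : up N M = up N M') : M = M' := by
  ext1 a b
  refine WittVector.ext fun l => PH.of_injective (p := p) ?_
  rw [← rt_pow_pp N (algebraMap B (PH p B) _), ← up_coeff, h, up_coeff, rt_pow_pp]

end up

/-- the parameters of the normal form of the law `Fx p h y` -/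
def uy (h : ℕ) {c : ℕ} {S : Type} [CommRing S] [Pf p S] (y : Fin c → S) (i : ℕ) : S :=
  (rt p S ^ i) (exh h y i)

theorem uy_map (h : ℕ) {c : ℕ} {S S' : Type} [CommRing S] [Pf p S] [CommRing S'] [Pf p S']
    (φ : S →+* S') (y : Fin c → S) : (fun i => φ (uy h y i)) = uy h fun j => φ (y j) :=
  funext fun i => by rw [uy, map_rt_pow, exh_map φ (map_zero φ), uy]

theorem lw_uy (h : ℕ) {c : ℕ} {S : Type} [CommRing S] [Pf p S] (y : Fin c → S) :
    lw p (h + c) (uy h y) = Fx p h y :=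
  congrArg (hzn p (h + c)) (funext fun i => rt_pow_pp i _)

variable (p) in
/-- the perfect hull of the base ring -/
abbrev A0 (c : ℕ) (K : Type) [Field K] [Pf p K] : Type := PH p (RR c K)

variable (p) in
/-- the universal parameters -/
def uu (h c : ℕ) (K : Type) [Field K] [Pf p K] (i : ℕ) : A0 p c K :=
  (rt p (A0 p c K) ^ i) (algebraMap (RR c K) _ (exh h X i))

variable {h c : ℕ} {G : Type} [Group G] [TopologicalSpace G] {K : Type} [Field K] [Pf p K]

theorem uu_eq : uu p h c K = uy h fun j => algebraMap (RR c K) (A0 p c K) (X j) :=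
  funext fun i => by rw [uu, exh_map _ (map_zero _), uy]

theorem uu_map {S : Type} [CommRing S] [Pf p S] (φ : A0 p c K →+* S) :
    (fun i => φ (uu p h c K i)) = uy h fun j => φ (algebraMap (RR c K) _ (X j)) := by
  rw [uu_eq, uy_map]

theorem pos_add (h1 : 1 ≤ h) (c : ℕ) : 1 ≤ h + c := h1.trans (Nat.le_add_right h c)

/-- the matrices of the action -/
structure TGd (A : RG p h c G K) (h1 : 1 ≤ h) where
  /-- the twist -/
  N : ℕ
  /-- the matrices -/
  th : G → Matrix (Fin (h + c)) (Fin (h + c)) (WittVector p (RR c K))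
  /-- the inverse matrices -/
  th' : G → Matrix (Fin (h + c)) (Fin (h + c)) (WittVector p (RR c K))
  inv : ∀ g, th g * th' g = 1
  one : th 1 = 1
  mul : ∀ g g', th (g * g') = th g * (th g').map (wm p (A.ph g))
  lc : ∀ a b l d, IsLocallyConstant fun g => coeff d ((th g a b).coeff l)
  itw : ∀ g, Itw (Au p (h + c) (uu p h c K)) (up N (th g))
    (Au p (h + c) fun i => PH.map (A.ph g) (uu p h c K i))
  crv : ∀ g, cT (pos_add h1 c) (pos_add h1 c) (uu p h c K) (up N (th g)) =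
    PowerSeries.map (algebraMap (RR c K) (A0 p c K)) (A.ser g).val

namespace TGd

variable {A : RG p h c G K} {h1 : 1 ≤ h} (Θ : TGd A h1)

/-- the matrix of `g` -/
def T (g : G) : Matrix (Fin (h + c)) (Fin (h + c)) (WittVector p (A0 p c K)) := up Θ.N (Θ.th g)

/-- the inverse -/
def T' (g : G) : Matrix (Fin (h + c)) (Fin (h + c)) (WittVector p (A0 p c K)) := up Θ.N (Θ.th' g)

theorem T_inv (g : G) : Θ.T g * Θ.T' g = 1 := by rw [T, T', ← up_mul, Θ.inv, up_one]

theorem T_inv' (g : G) : Θ.T' g * Θ.T g = 1 := mul_eq_one_comm.1 (Θ.T_inv g)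

theorem T_one : Θ.T 1 = 1 := by rw [T, Θ.one, up_one]

theorem T_mul (g g' : G) : Θ.T (g * g') = Θ.T g * (Θ.T g').map (wm p (PH.map (A.ph g))) := by
  rw [T, T, T, Θ.mul, up_mul, up_map]

theorem T_itw (g : G) : Itw (Au p (h + c) (uu p h c K)) (Θ.T g)
    (Au p (h + c) fun i => PH.map (A.ph g) (uu p h c K i)) := Θ.itw g

theorem T_crv (g : G) : cT (pos_add h1 c) (pos_add h1 c) (uu p h c K) (Θ.T g) =
    PowerSeries.map (algebraMap (RR c K) (A0 p c K)) (A.ser g).val := Θ.crv g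

theorem th'_eq (g : G) : Θ.th' g = (Θ.th g⁻¹).map (wm p (A.ph g)) := by
  rw [← Matrix.mul_one (Θ.th' g), ← Θ.one, ← mul_inv_cancel g, Θ.mul, ← Matrix.mul_assoc,
    mul_eq_one_comm.1 (Θ.inv g), Matrix.one_mul]

end TGd

/-- an action in the sense of block NM which is the given one -/
structure IsAct {k₀ ι : Type} [CommRing k₀] [Algebra k₀ (RR c K)] (A : RG p h c G K)
    (A' : NM.Act k₀ (RR c K) G ι) : Prop where
  m : A'.m = Ev.IX (Fin c) K
  φ : ∀ g, A'.φ g = A.ph g

theorem lc_iff {Y : Type} [TopologicalSpace Y] {f : Y → RR c K} :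
    f ∈ NM.LC (Ev.IX (Fin c) K) Y ↔ ∀ d, IsLocallyConstant fun y => coeff d (f y) := by
  refine ⟨fun H => Rx.lc_coeff fun j => H (j + 1), fun H N => ?_⟩
  rw [IsLocallyConstant.iff_eventually_eq]
  intro y
  refine ((Filter.eventually_all_finite (Finsupp.finite_of_degree_le (σ := Fin c) N)).2
    fun d _ => (H d).eventually_eq y).mono fun z e => Rx.mk_eq_iff.2 fun d hd => e d hd.le

/-- the action in the sense of block NM -/
def toAct (A : RG p h c G K) (k₀ : Type) [CommRing k₀] [Algebra k₀ (RR c K)]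
    (hk : ∀ a : k₀, ∃ b, algebraMap k₀ (RR c K) a = C b) {ι : Type} (u : ι → RR c K)
    (hu : ∀ j, constantCoeff (u j) = 0) : NM.Act k₀ (RR c K) G ι where
  m := Ev.IX (Fin c) K
  u := u
  φ := ⟨⟨A.ph, A.ph_one⟩, A.ph_mul⟩
  φ_k g a := by
    obtain ⟨b, e⟩ := hk a
    rw [e]
    exact Un.phi_C A g b
  φ_m g r hr := Un.map_mem (A.ph g) (fun j => Ev.mem_IX.2 (A.phi_X g j)) (Ev.mem_IX.1 hr)
  φ_lc r := lc_iff.2 (A.cont_phi r)
  u_m j := Ev.mem_IX.2 (hu j)

theorem isAct_toAct (A : RG p h c G K) (k₀ : Type) [CommRing k₀] [Algebra k₀ (RR c K)]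
    (hk : ∀ a : k₀, ∃ b, algebraMap k₀ (RR c K) a = C b) {ι : Type} (u : ι → RR c K)
    (hu : ∀ j, constantCoeff (u j) = 0) : IsAct A (toAct A k₀ hk u hu) := ⟨rfl, fun _ => rfl⟩

namespace TGd

variable [IsTopologicalGroup G] {k₀ ι : Type} [CommRing k₀] [Algebra k₀ (RR c K)]
  {A : RG p h c G K} {h1 : 1 ≤ h} (Θ : TGd A h1) {A' : NM.Act k₀ (RR c K) G ι} (hA : IsAct A A')
  {I : Type}

/-- the matrix from the vertex `j` to the vertex `i` -/
def thI (i j : I) : Matrix (Fin (h + c)) (Fin (h + c)) (WittVector p (A'.Gam I)) :=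
  Matrix.of fun a b => WittVector.mk p fun l =>
    ⟨fun g => A'.φ (g i) ((Θ.th ((g i)⁻¹ * g j) a b).coeff l),
      A'.lc_φ (continuous_apply i) (NM.lc_comp (f := fun γ => (Θ.th γ a b).coeff l)
        (hA.m ▸ lc_iff.2 (Θ.lc a b l)) (by fun_prop)),
      fun γ g => by simp only [A'.φ_mul, _root_.mul_inv_rev, mul_assoc, inv_mul_cancel_left]⟩

theorem thI_val (i j : I) (a b l) (g : I → G) : ((Θ.thI hA i j a b).coeff l).1 g =
    A'.φ (g i) ((Θ.th ((g i)⁻¹ * g j) a b).coeff l) := rfl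

/-- the matrix over the perfect hull -/
def TI (i j : I) : Matrix (Fin (h + c)) (Fin (h + c)) (WittVector p (PH p (A'.Gam I))) :=
  up Θ.N (Θ.thI hA i j)

end TGd

variable (p)

/-- **TG**: the matrices exist -/
def TG : Prop := ∀ (h c : ℕ) (h1 : 1 ≤ h) (k : Type) [Field k] (D : LTD p (h + c) k), IsHz p D →
  ∀ (K : Type) [Field K] [Pf p K] (ι : k →+* K) (A : RG p h c D.GG K), IsT D ι A →
    Nonempty (TGd A h1)

/-- **UL0**: the matrices over the rings of cochains -/
def UL0 : Prop := ∀ (h c : ℕ) (h1 : 1 ≤ h) (G : Type) [Group G] [TopologicalSpace G]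
  [IsTopologicalGroup G] (K : Type) [Field K] [Pf p K] (A : RG p h c G K) (Θ : TGd A h1)
  (k₀ ι : Type) [CommRing k₀] [Algebra k₀ (RR c K)] (A' : NM.Act k₀ (RR c K) G ι)
  (hA : IsAct A A') (I : Type),
  (∀ i : I, Θ.thI hA i i = 1) ∧ (∀ i j l : I, Θ.thI hA i j * Θ.thI hA j l = Θ.thI hA i l) ∧
    ∀ i j : I, Itw (Au p (h + c) fun l => PH.map (A'.vx i) (uu p h c K l)) (Θ.TI hA i j)
      (Au p (h + c) fun l => PH.map (A'.vx j) (uu p h c K l))

/-- **ULE**: points of the rings of cochains, existence -/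
def ULE : Prop := ∀ (h c : ℕ) (h1 : 1 ≤ h) (k : Type) [Field k] (D : LTD p (h + c) k), IsHz p D →
  ∀ (K : Type) [Field K] [Pf p K] (ι : k →+* K) (A : RG p h c D.GG K), IsT D ι A →
  ∀ (Θ : TGd A h1) (k₀ ι' : Type) [CommRing k₀] [Algebra k₀ (RR c K)]
    (A' : NM.Act k₀ (RR c K) D.GG ι') (hA : IsAct A A') (I : Type) [Finite I] [Nonempty I]
    (S : Type) [CommRing S] [Pf p S] (κ : K →+* S) (J : Ideal S) [IsAdicComplete J S]
    (x : I → Fin c → S) (U U' : I → I → Matrix (Fin (h + c)) (Fin (h + c)) (WittVector p S)),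
    (∀ i l, x i l ∈ J.radical) → (∀ i j, U i j * U' i j = 1) →
    (∀ i j, Itw (Au p (h + c) (uy h (x i))) (U i j) (Au p (h + c) (uy h (x j)))) →
    (∀ i j l, U i j * U j l = U i l) →
    ∃ τ : A'.Gam I →+* S, (∀ i a, τ (A'.vx i (C a)) = κ a) ∧ (∀ i l, τ (A'.vx i (X l)) = x i l) ∧
      ∀ i j, (Θ.TI hA i j).map (wm p (PH.lift τ)) = U i j

/-- **ULU**: points of the rings of cochains, uniqueness -/
def ULU : Prop := ∀ (h c : ℕ) (h1 : 1 ≤ h) (k : Type) [Field k] (D : LTD p (h + c) k), IsHz p D →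
  ∀ (K : Type) [Field K] [Pf p K] (ι : k →+* K) (A : RG p h c D.GG K), IsT D ι A →
  ∀ (Θ : TGd A h1) (k₀ ι' : Type) [CommRing k₀] [Algebra k₀ (RR c K)]
    (A' : NM.Act k₀ (RR c K) D.GG ι') (hA : IsAct A A') (I : Type) [Finite I] [Nonempty I]
    (S : Type) [CommRing S] [Pf p S] (J : Ideal S) [IsHausdorff J S] (τ τ' : A'.Gam I →+* S),
    (∀ i a, τ (A'.vx i (C a)) = τ' (A'.vx i (C a))) →
    (∀ i l, τ (A'.vx i (X l)) = τ' (A'.vx i (X l))) → (∀ i l, τ (A'.vx i (X l)) ∈ J.radical) →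
    (∀ i j, (Θ.TI hA i j).map (wm p (PH.lift τ)) = (Θ.TI hA i j).map (wm p (PH.lift τ'))) →
    τ = τ'

end P261.C2
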