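import Vale.Agent.P261Z.C2.Asm
import Vale.Agent.P261Z.Top.Spec2

/-!
# P261Z, block C2: the bridge for the concrete model
-/

set_option linter.unusedVariables false

noncomputable section

open MvPowerSeries

namespace P261.C2

open Vale.Agent.P251.F Vale.Agent.P261Z Vale.Agent.P261Z.N P261.Ig P261.NM

variable {p : ℕ} [hp : Fact p.Prime]

instance isAlg_VA {h c : ℕ} {K : Type} [Field K] [Pf p K] {G : Type} [Group G] [TopologicalSpace G]
    [IsTopologicalGroup G] {A : RG p h c G K} {h1 : 1 ≤ h} (Θ : TGd A h1) {k₀ ι : Type} [CommRing k₀]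
    [Algebra k₀ (RR c K)] {A' : NM.Act k₀ (RR c K) G ι} (hA : IsAct A A') : (VA Θ hA).IsAlg :=
  ⟨fun g => map_mul (Phi Θ g), fun g => map_one (Phi Θ g)⟩

instance isAlg_V {h c : ℕ} {K : Type} [Field K] [Pf p K] [CharP K p] [Algebra (ZMod p) K] {G : Type}
    [Group G] [TopologicalSpace G] [IsTopologicalGroup G] {A : RG p h c G K} {h1 : 1 ≤ h}
    (Θ : TGd A h1) : (Ig.V Θ).IsAlg := isAlg_VA Θ isAct_sa

variable (p) in
/-- the filtration and the data of the bridge for the concrete model -/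
def UDX : Prop := ∀ (h c : ℕ) (h1 : 1 ≤ h) (hc : 0 < c) (G : Type) [Group G] [TopologicalSpace G]
  [IsTopologicalGroup G] (K : Type) [Field K] [Pf p K] [CharP K p] [Algebra (ZMod p) K]
  (A : RG p h c G K) (Θ : TGd A h1) (H : PC.GF p) (I : Top.IgM p hc Θ H), I.γ = gam p h c K →
  I.a = cen p (Fin c) h K →
  ∃ (F : P.FlD p (X ⟨0, hc⟩ : N.RR c K) I.vi (fun g => Phi Θ g) fun δ => I.γ δ)
    (U : UD Θ (Ig.V Θ)), (∀ β, U.M β = F.M β) ∧
      ∀ s, s % p = 1 → ∀ x, U.σ s (I.γ (I.a s) x) = x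

theorem stGD_of (W : Rows p) (hD : DOMI.{0, 1} p (ZMod p)) (hF : FIN p) (hU : UDX p) :
    Top.StGD p := by
  intro hL h c h1 hc k _ D hz K _ _ _ _ _ ι A hT Θ H I e1 e2
  obtain ⟨F, U, e3, e4⟩ := hU h c h1 hc _ K A Θ H I e1 e2
  exact ⟨F, hF hD W.ul0 W.rho h c _ K A h1 Θ _ _ _ U _ _ _ _ _ _
    (fun s => (I.γ (I.a s)).toLinearMap) (fun β n => by rw [e3]; rfl) (fun _ _ _ => rfl) e4 _
    (good_lab W hL hc hz hT U)⟩

end P261.C2
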