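import Vale.Agent.P261Z.S.Sk

/-!
# P261Z, block C2: configuration functors with directions; definitions and statements

* `MCF κ`: a configuration functor with optional data in the directions `c : κ`; `M.cf md`;
* `Dir B`: a direction over a configuration functor `B`; `fd B D`, `G1`;
* `Lab B ι`: conditions at the points of a configuration, `L.psi`, `L.cf`.
-/

set_option linter.unusedVariables false

noncomputable section

namespace P261.C2

open Function

universe u v

variable {p : ℕ} [Fact p.Prime] {k : Type} [Field k]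

/-- the statements of block S which are used -/
structure SH (p : ℕ) [Fact p.Prime] (k : Type) [Field k] : Prop where
  pf : Pf p k
  aacg : SS.AACG.{1} p k
  domg : SS.DOMG.{1, 1} p k
  seg : SS.SEG.{1} p k
  ch : SS.CH p k
  retract : SS.RETRACT p k
  tog : SS.TOG p k
  reidx : SS.REIDX p k
  cpl : SS.CPL p
  cut : SS.CUT p k
  rep0 : SS.REP0 p k
  rep1 : SS.REP1 p k
  rep2 : SS.REP2 p k
  rep3 : SS.REP3 p k
  secloc : SS.SECLOC p k

theorem floc_bind {T : FP p k} {P Q : (T' : FP p k) → T.Hom T' → Prop} (h : FLoc T P)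
    (hT : T.F.Exh) (hPQ : ∀ T' f, T'.F.Exh → P T' f → FLoc T' fun T'' g => Q T'' (g.comp f)) :
    FLoc T Q := by
  induction h with
  | here h => exact hPQ _ _ hT h
  | triv h => exact .triv h
  | pure D hD _ ih => exact .pure D hD fun T' f e o => ih T' f e o e fun _ _ => hPQ _ _
  | bl a b ha hb _ ih => exact .bl a b ha hb fun T' f e o => ih T' f e o e fun _ _ => hPQ _ _
  | iso ι g D hs hi _ _ ih ih' =>
    exact .iso ι g D hs hi (fun T' f e o => ih T' f e o e fun _ _ => hPQ _ _)
      fun T' f e o => ih' T' f e o e fun _ _ => hPQ _ _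
  | idem ι t h0 ht _ _ ih ih' =>
    exact .idem ι t h0 ht (fun T' f e o => ih T' f e o e fun _ _ => hPQ _ _)
      fun T' f e o => ih' T' f e o e fun _ _ => hPQ _ _

/-! ### configuration functors with optional data -/

/-- configuration functors with optional data; `Full` of the underlying functor is not used -/
structure MCF (p : ℕ) [Fact p.Prime] (k : Type) [Field k] (κ : Type) : Type 1 where
  /-- the configurations -/
  C : CF p k
  /-- the datum of the direction `c` is present at the point `i` -/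
  pres : κ → ∀ {n : ℕ} {T : FP p k}, (C.Z n).obj T → Fin (n + 1) → Prop
  pres_map : ∀ c {n : ℕ} {T T' : FP p k} (φ : T.Hom T') (z : (C.Z n).obj T) i,
    pres c ((C.Z n).map φ z) i ↔ pres c z i
  pres_res : ∀ c {m n : ℕ} {T : FP p k} (f : Fin (m + 1) → Fin (n + 1)) (z : (C.Z n).obj T) i,
    pres c (C.res f z) i ↔ pres c z (f i)
  /-- the data of the direction `c` are erased at the points of colour `false` -/
  er : κ → ∀ {n : ℕ} {T : FP p k}, (Fin (n + 1) → Bool) → (C.Z n).obj T → (C.Z n).obj T
  er_map : ∀ c {n : ℕ} {T T' : FP p k} (φ : T.Hom T') χ (z : (C.Z n).obj T),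
    er c χ ((C.Z n).map φ z) = (C.Z n).map φ (er c χ z)
  er_res : ∀ c {m n : ℕ} {T : FP p k} (f : Fin (m + 1) → Fin (n + 1)) χ (z : (C.Z n).obj T),
    er c (χ ∘ f) (C.res f z) = C.res f (er c χ z)
  er_id : ∀ c {n : ℕ} {T : FP p k} χ (z : (C.Z n).obj T), (∀ i, χ i = false → ¬pres c z i) →
    er c χ z = z
  pres_er : ∀ c c' {n : ℕ} {T : FP p k} χ (z : (C.Z n).obj T) i,
    pres c' (er c χ z) i ↔ pres c' z i ∧ (c' = c → χ i = true)

namespace MCF

variable {κ : Type} (M : MCF p k κ)

/-- the condition given by the modes -/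
def Md (md : κ → Mode) {n : ℕ} {T : FP p k} (z : (M.C.Z n).obj T) : Prop :=
  ∀ c i, (md c = .on → M.pres c z i) ∧ (md c = .off → ¬M.pres c z i)

/-- the configuration functor of a family of modes -/
def cf (md : κ → Mode) : CF p k where
  Z n := (M.C.Z n).sub ⟨fun z => M.Md md z, fun φ z h c i => by
    rw [M.pres_map]
    exact h c i⟩
  res f z := ⟨M.C.res f z.1, fun c i => by
    rw [M.pres_res]
    exact z.2 c (f i)⟩
  res_id z := Subtype.ext (M.C.res_id z.1)
  res_comp f g z := Subtype.ext (M.C.res_comp f g z.1)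
  res_map φ f z := Subtype.ext (M.C.res_map φ f z.1)
  Full z := ∃ c, md c = .red ∧ ∀ i, M.pres c z.1 i
  full_res f _ := fun ⟨c, hc, h⟩ => ⟨c, hc, fun i => (M.pres_res c f _ i).2 (h _)⟩
  full_map φ z := exists_congr fun c => and_congr_right fun _ => forall_congr' fun i =>
    M.pres_map c φ z.1 i

/-- operators which are compatible with the optional data -/
structure Act : Type 1 where
  /-- the operators -/
  a : M.C.Act
  pres : ∀ c s {n : ℕ} {T : FP p k} (z : (M.C.Z n).obj T) i,
    M.pres c ((a.e s).f z) i ↔ M.pres c z i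
  er : ∀ c s {n : ℕ} {T : FP p k} χ (z : (M.C.Z n).obj T),
    M.er c χ ((a.e s).f z) = (a.e s).f (M.er c χ z)

variable {M}

/-- the operators on the configurations -/
def Act.cf (a : M.Act) (md : κ → Mode) : (M.cf md).Act where
  e s :=
    { f := fun z => ⟨(a.a.e s).f z.1, fun c i => by
        rw [a.pres]
        exact z.2 c i⟩
      map := fun φ z => Subtype.ext ((a.a.e s).map φ z.1)
      res := fun g z => Subtype.ext ((a.a.e s).res g z.1)
      full := fun _ ⟨c, hc, h⟩ => ⟨c, hc, fun i => (a.pres c s _ i).2 (h i)⟩ }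
  one n T z := Subtype.ext (a.a.one n T z.1)
  mul s t hs ht n T z := Subtype.ext (a.a.mul s t hs ht n T z.1)

/-- the filtered complex with operators -/
abbrev Act.fa (a : M.Act) (md : κ → Mode) : FA.{1} p k := (M.cf md).fa (a.cf md)

end MCF

/-! ### directions over a configuration functor -/

/-- directions; `Full` of `B` and of `V` is not used -/
structure Dir (B : CF p k) : Type 1 where
  /-- the vertices -/
  V : CF p k
  /-- compatibility with the base -/
  ok : ∀ {n : ℕ} {T : FP p k}, (B.Z n).obj T → (V.Z n).obj T → Prop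
  ok_map : ∀ {n : ℕ} {T T' : FP p k} (φ : T.Hom T') {b : (B.Z n).obj T} {v : (V.Z n).obj T},
    ok b v → ok ((B.Z n).map φ b) ((V.Z n).map φ v)
  ok_res : ∀ {m n : ℕ} {T : FP p k} (f : Fin (m + 1) → Fin (n + 1)) {b : (B.Z n).obj T}
    {v : (V.Z n).obj T}, ok b v → ok (B.res f b) (V.res f v)

namespace Dir

variable {B : CF p k} (D : Dir B)

/-- compatible pairs -/
def pair : CF p k where
  Z n := ((B.Z n).prod (D.V.Z n)).sub ⟨fun z => D.ok z.1 z.2, fun φ _ h => D.ok_map φ h⟩
  res f z := ⟨(B.res f z.1.1, D.V.res f z.1.2), D.ok_res f z.2⟩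
  res_id z := Subtype.ext (Prod.ext (B.res_id _) (D.V.res_id _))
  res_comp f g z := Subtype.ext (Prod.ext (B.res_comp f g _) (D.V.res_comp f g _))
  res_map φ f z := Subtype.ext (Prod.ext (B.res_map φ f _) (D.V.res_map φ f _))
  Full _ := False
  full_res _ _ h := h
  full_map _ _ := Iff.rfl

/-- the projection -/
def fst : D.pair.Map B := ⟨fun z => z.1.1, fun _ _ => rfl, fun _ _ => rfl, fun _ h => h.elim⟩

/-- base change -/
def bc {B' : CF p k} (t : B'.Map B) : Dir B' where
  V := D.V
  ok b v := D.ok (t.f b) v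
  ok_map φ b v h := by
    rw [t.map]
    exact D.ok_map φ h
  ok_res f b v h := by
    rw [t.res]
    exact D.ok_res f h

/-- operators on a direction -/
structure Act (a : B.Act) : Type 1 where
  /-- the operators -/
  e : D.V.Act
  ok : ∀ s {n : ℕ} {T : FP p k} {b : (B.Z n).obj T} {v : (D.V.Z n).obj T},
    D.ok b v → D.ok ((a.e s).f b) ((e.e s).f v)

variable {D}

/-- the operators on pairs -/
def Act.pair {a : B.Act} (e : D.Act a) : D.pair.Act where
  e s :=
    { f := fun z => ⟨((a.e s).f z.1.1, (e.e.e s).f z.1.2), e.ok s z.2⟩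
      map := fun φ z => Subtype.ext (Prod.ext ((a.e s).map φ _) ((e.e.e s).map φ _))
      res := fun g z => Subtype.ext (Prod.ext ((a.e s).res g _) ((e.e.e s).res g _))
      full := fun _ h => h }
  one n T z := Subtype.ext (Prod.ext (a.one n T _) (e.e.one n T _))
  mul s t hs ht n T z := Subtype.ext (Prod.ext (a.mul s t hs ht n T _) (e.e.mul s t hs ht n T _))

/-- base change to the pairs of another direction -/
def Act.bc {a : B.Act} (e : D.Act a) {D' : Dir B} (e' : D'.Act a) :
    (D.bc D'.fst).Act e'.pair := ⟨e.e, fun s _ _ _ _ h => e.ok s h⟩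

end Dir

section fd

variable (B : CF p k) {κ : Type} (D : κ → Dir B)

/-- a base configuration on `m + 1` points and optional vertices at `n + 1` points -/
@[ext] structure FConf (m n : ℕ) (T : FP p k) where
  /-- the base -/
  b : (B.Z m).obj T
  /-- the vertices -/
  w : ∀ c, Fin (n + 1) → Option (((D c).V.Z m).obj T)
  ok : ∀ c i v, w c i = some v → (D c).ok b v

variable {B D}

/-- change of the test object -/
def FConf.map {m n : ℕ} {T T' : FP p k} (φ : T.Hom T') (z : FConf B D m n T) : FConf B D m n T' where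
  b := (B.Z m).map φ z.b
  w c i := (z.w c i).map (((D c).V.Z m).map φ)
  ok c i v h := by
    obtain ⟨u, hu, rfl⟩ := Option.map_eq_some_iff.1 h
    exact (D c).ok_map φ (z.ok c i u hu)

/-- restriction -/
def FConf.res {m m' n n' : ℕ} {T : FP p k} (f : Fin (m + 1) → Fin (m' + 1))
    (g : Fin (n + 1) → Fin (n' + 1)) (z : FConf B D m' n' T) : FConf B D m n T where
  b := B.res f z.b
  w c i := (z.w c (g i)).map ((D c).V.res f)
  ok c i v h := by
    obtain ⟨u, hu, rfl⟩ := Option.map_eq_some_iff.1 h
    exact (D c).ok_res f (z.ok c _ u hu)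

theorem opt_id {α : Type} {f : α → α} (h : ∀ x, f x = x) (o : Option α) : o.map f = o := by
  cases o <;> simp [h]

theorem opt_comp {α β γ : Type} {f : α → γ} {g : β → γ} {g' : α → β} (h : ∀ x, f x = g (g' x))
    (o : Option α) : o.map f = (o.map g').map g := by
  cases o <;> simp [h]

theorem opt_sq {α β β' γ : Type} {f : α → β} {g : β → γ} {f' : α → β'} {g' : β' → γ}
    (h : ∀ x, g (f x) = g' (f' x)) (o : Option α) : (o.map f).map g = (o.map f').map g' := by
  cases o <;> simp [h]

variable (B D)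

/-- the configurations as a point functor -/
def fconf (m n : ℕ) : PF p k where
  obj T := FConf B D m n T
  map φ z := z.map φ
  map_id T z := FConf.ext ((B.Z m).map_id T _) (funext fun c => funext fun i =>
    opt_id (((D c).V.Z m).map_id T) _)
  map_comp g f z := FConf.ext ((B.Z m).map_comp g f _) (funext fun c => funext fun i =>
    opt_comp (((D c).V.Z m).map_comp g f) _)

open Classical in
/-- the diagonal configurations -/
def fd : MCF p k κ where
  C :=
    { Z := fun n => fconf B D n n
      res := fun f z => z.res f f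
      res_id := fun z => FConf.ext (B.res_id _) (funext fun c => funext fun i =>
        opt_id (D c).V.res_id _)
      res_comp := fun f g z => FConf.ext (B.res_comp f g _) (funext fun c => funext fun i =>
        opt_comp ((D c).V.res_comp f g) _)
      res_map := fun φ f z => FConf.ext (B.res_map φ f _) (funext fun c => funext fun i =>
        opt_sq ((D c).V.res_map φ f) _)
      Full := fun _ => False
      full_res := fun _ _ h => h
      full_map := fun _ _ => Iff.rfl }
  pres c _ _ z i := (FConf.w z c i).isSome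
  pres_map c _ _ _ φ z i := by
    show ((FConf.w z c i).map _).isSome ↔ _
    rw [Option.isSome_map]
  pres_res c _ _ _ f z i := by
    show ((FConf.w z c (f i)).map _).isSome ↔ _
    rw [Option.isSome_map]
  er c _ _ χ z := ⟨FConf.b z, fun c' i => if c' = c ∧ χ i = false then none else FConf.w z c' i,
    fun c' i v h => by
      split_ifs at h
      exact FConf.ok z c' i v h⟩
  er_map c _ _ _ φ χ z := FConf.ext rfl (funext fun c' => funext fun i => by
    show (if _ then none else Option.map _ _) = Option.map _ (if _ then none else _)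
    split_ifs <;> rfl)
  er_res c _ _ _ f χ z := FConf.ext rfl (funext fun c' => funext fun i => by
    show (if c' = c ∧ χ (f i) = false then none else Option.map _ _) =
      Option.map _ (if c' = c ∧ χ (f i) = false then none else _)
    split_ifs <;> rfl)
  er_id c _ _ χ z h := FConf.ext rfl (funext fun c' => funext fun i => by
    show (if _ then none else _) = _
    split_ifs with h'
    · obtain ⟨rfl, h'⟩ := h'
      exact (Option.not_isSome_iff_eq_none.1 (h i h')).symm
    · rfl)
  pres_er c c' _ _ χ z i := by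
    show (if c' = c ∧ χ i = false then none else FConf.w z c' i).isSome ↔ _
    split_ifs with h'
    · simp [h'.1, h'.2]
    · refine ⟨fun h => ⟨h, fun e => ?_⟩, fun h => h.1⟩
      simpa [e] using h'

variable {B D}

open Classical in
/-- the operators -/
def fdAct {a : B.Act} (e : ∀ c, (D c).Act a) : (fd B D).Act where
  a :=
    { e := fun s =>
        { f := fun z => ⟨(a.e s).f (FConf.b z), fun c i => (FConf.w z c i).map ((e c).e.e s).f,
            fun c i v h => by
              obtain ⟨u, hu, rfl⟩ := Option.map_eq_some_iff.1 h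
              exact (e c).ok s (FConf.ok z c i u hu)⟩
          map := fun φ z => FConf.ext ((a.e s).map φ _) (funext fun c => funext fun i =>
            opt_sq (((e c).e.e s).map φ) _)
          res := fun g z => FConf.ext ((a.e s).res g _) (funext fun c => funext fun i =>
            opt_sq (((e c).e.e s).res g) _)
          full := fun _ h => h }
      one := fun n T z => FConf.ext (a.one n T _) (funext fun c => funext fun i =>
        opt_id ((e c).e.one n T) _)
      mul := fun s t hs ht n T z => FConf.ext (a.mul s t hs ht n T _)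
        (funext fun c => funext fun i => opt_comp ((e c).e.mul s t hs ht n T) _) }
  pres c s _ _ z i := by
    show ((FConf.w z c i).map _).isSome ↔ _
    rw [Option.isSome_map]
    rfl
  er c s _ _ χ z := FConf.ext rfl (funext fun c' => funext fun i => by
    show (if _ then none else Option.map _ _) = Option.map _ (if _ then none else _)
    split_ifs <;> rfl)

end fd

/-- the complex of one reduced direction is good -/
def G1 {B : CF p k} {a : B.Act} {D : Dir B} (e : D.Act a) (q : ℕ) : Prop :=
  ((fdAct (D := fun _ : Unit => D) fun _ => e).fa fun _ => .red).Good q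

/-- After covers, a vertex of `D'` exists as soon as a vertex of `D` exists. -/
def Dir.Over {B : CF p k} (D D' : Dir B) : Prop :=
  ∀ (m : ℕ) (T : FP p k) (_ : (Gm p k).obj T), T.F.Exh → ∀ (b : (B.Z m).obj T) v, D.ok b v →
    FLoc T fun _ f => ∃ v', D'.ok ((B.Z m).map f b) v'

/-- the pairs are representable -/
def Dir.Rp {B : CF p k} (D : Dir B) : Prop := ∀ m, (D.pair.Z m).FRep

/-! ### marks -/

/-- conditions at the points -/
structure Lab (B : CF p k) (ι : Type) : Type 1 where
  /-- the condition -/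
  U : ι → ∀ {n : ℕ} {T : FP p k}, (B.Z n).obj T → Fin (n + 1) → Prop
  U_map : ∀ j {n : ℕ} {T T' : FP p k} (φ : T.Hom T') {b : (B.Z n).obj T} {i},
    U j b i → U j ((B.Z n).map φ b) i
  U_res : ∀ j {m n : ℕ} {T : FP p k} (f : Fin (m + 1) → Fin (n + 1)) {b : (B.Z n).obj T} {i},
    U j b (f i) → U j (B.res f b) i

variable (p k) in
/-- families of marks -/
def marks (ι : Type) : CF p k where
  Z n := ⟨fun _ => Fin (n + 1) → ι, fun _ x => x, fun _ _ => rfl, fun _ _ _ => rfl⟩
  res f x := x ∘ f
  res_id _ := rfl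
  res_comp _ _ _ := rfl
  res_map _ _ _ := rfl
  Full _ := False
  full_res _ _ h := h
  full_map _ _ := Iff.rfl

namespace Lab

variable {B : CF p k} {ι : Type} (L : Lab B ι)

/-- the direction of the families of marks -/
def psi : Dir B where
  V := marks p k ι
  ok b ψ := ∀ i, L.U (ψ i) b i
  ok_map φ _ _ h i := L.U_map _ φ (h i)
  ok_res f _ _ h i := L.U_res _ f (h (f i))

/-- base change -/
def bc {B' : CF p k} (t : B'.Map B) : Lab B' ι where
  U j _ _ b i := L.U j (t.f b) i
  U_map j _ _ _ φ b i h := by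
    rw [t.map]
    exact L.U_map j φ h
  U_res j _ _ _ f b i h := by
    rw [t.res]
    exact L.U_res j f h

/-- the direction of the optional marks -/
def opt : Dir B where
  V := marks p k (Option ι)
  ok b χ := ∀ i j, χ i = some j → L.U j b i
  ok_map φ _ _ h i j e := L.U_map _ φ (h i j e)
  ok_res f _ _ h i j e := L.U_res _ f (h (f i) j e)

/-- configurations with optional marks -/
def cf : CF p k :=
  { L.opt.pair with
    Full := fun z => ∀ i, z.1.2 i ≠ none
    full_res := fun f _ h i => h (f i)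
    full_map := fun _ _ => Iff.rfl }

/-- stable conditions -/
def Stab (a : B.Act) : Prop :=
  ∀ j s (n : ℕ) (T : FP p k) (b : (B.Z n).obj T) i, L.U j b i → L.U j ((a.e s).f b) i

variable {L} {a : B.Act}

/-- the operators -/
def Stab.psi (h : L.Stab a) : L.psi.Act a :=
  ⟨CF.Act.triv _, fun s _ _ _ _ hv i => h _ s _ _ _ i (hv i)⟩

/-- the operators -/
def Stab.cf (h : L.Stab a) : L.cf.Act where
  e s :=
    { f := fun z => ⟨((a.e s).f z.1.1, z.1.2), fun i j e => h j s _ _ _ i (z.2 i j e)⟩
      map := fun φ z => Subtype.ext (Prod.ext ((a.e s).map φ _) rfl)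
      res := fun g z => Subtype.ext (Prod.ext ((a.e s).res g _) rfl)
      full := fun _ h => h }
  one n T z := Subtype.ext (Prod.ext (a.one n T _) rfl)
  mul s t hs ht n T z := Subtype.ext (Prod.ext (a.mul s t hs ht n T _) rfl)

end Lab

variable (p k)

/-! ### statements -/

/-- contractions -/
def CTR : Prop := SH p k → ∀ (C : CF p k)
  (H : ∀ (n : ℕ) (T : FP p k), (Fin (n + 1) → Bool) → (C.Z n).obj T → (C.Z n).obj T),
  (∀ n (T T' : FP p k) (φ : T.Hom T') χ z,
    H n T' χ ((C.Z n).map φ z) = (C.Z n).map φ (H n T χ z)) →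
  (∀ m n T (f : Fin (m + 1) → Fin (n + 1)) χ z,
    H m T (χ ∘ f) (C.res f z) = C.res f (H n T χ z)) →
  (∀ n T χ z, C.Full z → C.Full (H n T χ z)) →
  (∀ n T z, H n T (fun _ => false) z = z) → (∀ n T z, C.Full (H n T (fun _ => true) z)) → C.AAc

/-- two out of three for the modes `red`, `off`, `on` -/
def DTOG : Prop := SH p k → ∀ (κ : Type) (M : MCF p k κ) (a : M.Act) (c : κ)
  (m₁ m₂ m₃ : κ → Mode), m₁ c = .red → m₂ c = .off → m₃ c = .on →
  (∀ c', c' ≠ c → m₁ c' = m₂ c' ∧ m₂ c' = m₃ c') → ∀ q, 1 ≤ q →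
    ((a.fa m₁).Good q → (a.fa m₂).Good q → (a.fa m₃).Good q) ∧
    ((a.fa m₁).Good q → (a.fa m₃).Good q → (a.fa m₂).Good q) ∧
    ((a.fa m₂).Good q → (a.fa m₃).Good q → (a.fa m₁).Good q)

/-- representability -/
def FREP : Prop := SH p k →
  (∀ X : PF p k, X.FRep → (X.prod X).Cut fun z => z.1 = z.2) ∧
  (∀ (X : PF p k) (g : X.Nf) (Q : Col X), X.FRep →
    (∀ (T : FP p k) (x : X.obj T), Q.P x ↔ ∃ t ∈ T.F.F 0, g.f x * t = 1) → (X.sub Q).FRep) ∧
  (∀ (B B' : CF p k) (t : B'.Map B) (D : Dir B), (∀ m, (B.Z m).FRep) → (∀ m, (B'.Z m).FRep) →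
    D.Rp → (D.bc t).Rp) ∧
  (∀ (B : CF p k) (ι : Type) [Finite ι] (L : Lab B ι) (g : ∀ m, ι → Fin (m + 1) → (B.Z m).Nf),
    (∀ m, (B.Z m).FRep) → (∀ j m (T : FP p k) (b : (B.Z m).obj T) i,
      L.U j b i ↔ ∃ t ∈ T.F.F 0, (g m j i).f b * t = 1) → L.psi.Rp) ∧
  ∀ (B : CF p k) (κ : Type) [Finite κ] (D : κ → Dir B), (∀ m, (B.Z m).FRep) → (∀ c, (D c).Rp) →
    ∀ md m, (((fd B D).cf md).Z m).FRep

/-- local existence of vertices -/
def FLOC : Prop := SH p k → FREP p k → ∀ (B : CF p k) (κ : Type) [Finite κ] (D : κ → Dir B)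
  (md : κ → Mode), (∀ m, (B.Z m).FRep) → (∀ c, (D c).Rp) →
  (∀ (m : ℕ) (T : FP p k) (_ : (Gm p k).obj T), T.F.Exh → ∀ b : (B.Z m).obj T,
    (∀ c, md c = .on → ∃ v, (D c).ok b v) →
    FLoc T fun _ f => ∃ c, md c = .red ∧ ∃ v, (D c).ok ((B.Z m).map f b) v) →
  ((fd B D).cf md).AAc

/-- only one direction is used -/
def RX : Prop := SH p k → ∀ (B : CF p k) (a : B.Act) (κ : Type) (D : κ → Dir B)
  (e : ∀ c, (D c).Act a) (md : κ → Mode) (c : κ), md c = .red → (∀ c', c' ≠ c → md c' = .off) →
  ∀ q, ((fdAct e).fa md).Good q ↔ G1 (e c) q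

/-- exchange of directions -/
def SWP : Prop := SH p k → FREP p k → FLOC p k → DTOG p k → RX p k →
  ∀ (B : CF p k) (a : B.Act) (D D' : Dir B) (e : D.Act a) (e' : D'.Act a),
  (∀ m, (B.Z m).FRep) → D.Rp → D'.Rp → D.Over D' → D'.Over D → ∀ q, 1 ≤ q → G1 e q → G1 e' q

/-- extension of the base by data which exist and are unique locally -/
def EXT : Prop := SH p k → FREP p k → FLOC p k → DTOG p k → RX p k →
  ∀ (B : CF p k) (a : B.Act) (J D : Dir B) (e : J.Act a) (e' : D.Act a),
  (∀ m, (B.Z m).FRep) → J.Rp → D.Rp →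
  (∀ (m : ℕ) (T : FP p k) (_ : (Gm p k).obj T), T.F.Exh → ∀ b : (B.Z m).obj T,
    FLoc T fun _ f => (∃ j, J.ok ((B.Z m).map f b) j) ∨ ∃ v, D.ok ((B.Z m).map f b) v) →
  (∀ (m : ℕ) (T : FP p k) (_ : (Gm p k).obj T), T.F.Exh → ∀ (b : (B.Z m).obj T) v v',
    D.ok b v → D.ok b v' → FLoc T fun _ f => (∃ j, J.ok ((B.Z m).map f b) j) ∨
      (D.V.Z m).map f v = (D.V.Z m).map f v') →
  ∀ q, 1 ≤ q → G1 e q → G1 (e.bc e') q

/-- marks at the points -/
def LAB : Prop := SH p k → CTR p k → DTOG p k →
  ∀ (B : CF p k) (a : B.Act) (ι : Type) (L : Lab B ι) (h : L.Stab a) (q : ℕ), 1 ≤ q →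
  G1 h.psi q → (L.cf.fa h.cf).Good q

/-- retracts with an equivariant inclusion, and the inverse operators -/
def DOMI : Prop := ∀ (A : FA.{u} p k) (B : FA.{v} p k) (i : Cs.Hom A.C B.C) (r : Cs.Hom B.C A.C),
  (∀ β n, ∀ x ∈ (A.F β).S n, i.app n x ∈ (B.F β).S n) →
  (∀ β ε n, 0 < ε → ∀ x ∈ (B.F β).S n, r.app n x ∈ (A.F (β + ε)).S n) →
  (∀ n x, r.app n (i.app n x) = x) →
  (∀ s, s % p = 1 → ∀ n x, (B.act s).app n (i.app n ((A.act s).app n x)) = i.app n x) →
  ∀ q, B.Good q → A.Good q

end P261.C2
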