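import Vale.Agent.P261Z.C2.Alg

/-!
# P261Z, block C2: uniqueness of the normal form and the point of the group
-/

open Matrix

noncomputable section

namespace P261.C2

namespace Nfu

variable {p : ℕ} [hp : Fact p.Prime] {m : ℕ}

theorem cyc {A : Type} [CommRing A] (c : Fin (m + 1) → A) (T : Matrix (Fin (m + 1)) (Fin (m + 1)) A)
    (V : (Fin (m + 1) → A) → Fin (m + 1) → A) (h : ∀ j, V (T.col j) = T *ᵥ (Cm c).col j) :
    (∀ j : Fin (m + 1), T.col j = V^[j] (T.col 0)) ∧ V^[m + 1] (T.col 0) = T *ᵥ c := by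
  have h1 : ∀ j (hj : j < m + 1), T.col ⟨j, hj⟩ = V^[j] (T.col 0) := by
    intro j
    induction j with
    | zero => exact fun _ => rfl
    | succ j ih =>
      intro hj
      have : (Cm c).col ⟨j, by omega⟩ = Pi.single ⟨j + 1, hj⟩ 1 := by
        funext i
        have : j ≠ m := by omega
        simp [Cm, Pi.single_apply, Fin.ext_iff, this]
      rw [Function.iterate_succ_apply', ← ih (by omega), h, this, mulVec_single_one]
  refine ⟨fun j => h1 j j.2, ?_⟩
  have : (Cm c).col ⟨m, by omega⟩ = c := by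
    funext i
    have : (i : ℕ) ≠ m + 1 := i.2.ne
    simp [Cm, this]
  rw [Function.iterate_succ_apply', ← h1 m (by omega), h, this]

theorem col1 {A : Type} [CommRing A] (j : Fin (m + 1)) :
    (1 : Matrix (Fin (m + 1)) (Fin (m + 1)) A).col j = Pi.single j 1 := by
  funext i
  simp [one_apply, Pi.single_apply]

theorem Au_pow (R : Type) [CommRing R] :
    Au p (m + 1) (0 : ℕ → R) ^ (m + 1) = (p : WittVector p R) • 1 := by
  set B := Au p (m + 1) (0 : ℕ → R) with hB
  obtain ⟨h1, h2⟩ := cyc (fun i => if (i : ℕ) = 0 then (p : WittVector p R) else -tm p 0) 1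
    (fun y => B *ᵥ y) fun j => by rw [one_mulVec, col1, mulVec_single_one]; rfl
  have h3 : ∀ k y, (fun y => B *ᵥ y)^[k] y = B ^ k *ᵥ y := fun k y => by
    induction k with
    | zero => simp
    | succ k ih => rw [Function.iterate_succ_apply', ih, pow_succ', mulVec_mulVec]
  simp only [h3, col1, one_mulVec] at h1 h2
  have h4 : B ^ (m + 1) *ᵥ Pi.single 0 1 = (p : WittVector p R) • Pi.single 0 1 := by
    rw [h2]
    funext i
    by_cases hi : i = 0 <;> simp [hi]
  ext1 i j
  have h5 : B ^ (m + 1) *ᵥ Pi.single j 1 = (p : WittVector p R) • Pi.single j 1 := by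
    rw [h1, mulVec_mulVec, pow_mul_comm, ← mulVec_mulVec, h4, mulVec_smul]
  rw [mulVec_single_one] at h5
  simpa [one_apply, Pi.single_apply] using congrFun h5 i

variable {S : Type} [CommRing S]

theorem wi_iff {K : Ideal S} {x : WittVector p S} :
    WI K x ↔ wm p (Ideal.Quotient.mk K) x = 0 :=
  ⟨fun h => WittVector.ext fun j => by
    rw [WittVector.map_coeff, WittVector.zero_coeff, Ideal.Quotient.eq_zero_iff_mem]; exact h j,
    fun h j => Ideal.Quotient.eq_zero_iff_mem.1 (by
      rw [← WittVector.map_coeff (p := p), h, WittVector.zero_coeff])⟩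

theorem wi_sub {K : Ideal S} {x y : WittVector p S} :
    WI K (x - y) ↔ ∀ j, x.coeff j - y.coeff j ∈ K := by
  rw [wi_iff, map_sub, sub_eq_zero, WittVector.ext_iff]
  simp only [WittVector.map_coeff, Ideal.Quotient.eq]

theorem Au_mod {K : Ideal S} {n : ℕ} {u : ℕ → S} (hu : ∀ i, 1 ≤ i → i < n → u i ∈ K) :
    (Au p n u).map (wm p (Ideal.Quotient.mk K)) = Au p n 0 := by
  rw [Au_map, Au, Au]
  congr 1
  funext i
  split_ifs with h
  · rfl
  · rw [Ideal.Quotient.eq_zero_iff_mem.2 (hu i (by omega) i.2)]; rfl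

theorem coeff_sg_pow [Ch p S] (k : ℕ) (x : WittVector p S) (j : ℕ) :
    ((sg p S ^ k) x).coeff j = x.coeff j ^ p ^ k := by
  induction k generalizing x with
  | zero => simp
  | succ k ih => rw [pow_succ, RingHom.mul_def, RingHom.comp_apply, ih, coeff_sg, ← pow_mul,
      pow_succ']

theorem Au_fix {R : Type} [CommRing R] (f : R →+* R) (n : ℕ) :
    (Au p n (0 : ℕ → R)).map (wm p f) = Au p n 0 := by
  rw [Au_map]; congr 1; funext i; exact map_zero f

variable [Pf p S]

/-- modulo the parameters a map of normal forms is fixed by the `n`-th power of the Frobenius -/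
theorem fix {K : Ideal S} {u u' : ℕ → S} {T : Matrix (Fin (m + 1)) (Fin (m + 1)) (WittVector p S)}
    (hu : ∀ i, 1 ≤ i → i < m + 1 → u i ∈ K) (hu' : ∀ i, 1 ≤ i → i < m + 1 → u' i ∈ K)
    (h : Itw (Au p (m + 1) u) T (Au p (m + 1) u')) (i j : Fin (m + 1)) :
    WI K ((sg p S ^ (m + 1)) (T i j) - T i j) := by
  set X := (T.map (si p S)).map (wm p (Ideal.Quotient.mk K)) with hX
  set B := Au p (m + 1) (0 : ℕ → S ⧸ K) with hB
  have h1 : B * X = X.map (sg p (S ⧸ K)) * B := by
    have := congrArg (fun M => M.map (wm p (Ideal.Quotient.mk K))) h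
    simp only [Matrix.map_mul, Au_mod hu, Au_mod hu'] at this
    rw [this]
    congr 1
    ext1 a b
    simp [hX, ← wm_sg]
  have hf : ∀ k : ℕ, B.map ⇑(sg p (S ⧸ K) ^ k) = B := fun k => by
    induction k with
    | zero => rfl
    | succ k ih => rw [pow_succ, RingHom.mul_def, RingHom.coe_comp, ← Matrix.map_map, hB, sg,
        Au_fix, ← sg, ← hB, ih]
  have h2 : ∀ k : ℕ, B ^ k * X = X.map ⇑(sg p (S ⧸ K) ^ k) * B ^ k := fun k => by
    induction k with
    | zero => simp
    | succ k ih =>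
      have := congrArg (fun M => M.map ⇑(sg p (S ⧸ K) ^ k)) h1
      simp only [Matrix.map_mul, hf, Matrix.map_map] at this
      rw [pow_succ', mul_assoc, ih, ← mul_assoc, this, mul_assoc, pow_succ (sg p (S ⧸ K))]
      rfl
  have h3 := h2 (m + 1)
  rw [hB, Au_pow, smul_mul_assoc, mul_smul_comm, one_mul, mul_one] at h3
  refine wi_sub.2 fun l => Ideal.Quotient.eq.1 ?_
  have h4 := congrArg (fun M => (M i j).coeff (l + 1)) h3
  simp only [Matrix.smul_apply, smul_eq_mul, coeff_p_mul_succ, Matrix.map_apply, coeff_sg_pow, hX,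
    WittVector.map_coeff, coeff_si] at h4
  rw [← pow_mul, mul_comm, pow_mul, ← map_pow, rt_pow] at h4
  rw [coeff_sg_pow, map_pow, ← h4]

omit [Pf p S] in
theorem pow_mem {K : Ideal S} {x : S} {q : ℕ} (h : x ^ q - x ∈ K) (k : ℕ) : x ^ q ^ k - x ∈ K := by
  rw [← Ideal.Quotient.eq, map_pow] at h ⊢
  induction k with
  | zero => simp
  | succ k ih => rw [pow_succ, pow_mul, ih, h]

omit [Pf p S] in
theorem mem_of_fix {K : Ideal S} {x : S} (h : x ^ p ^ (m + 1) - x ∈ K) (hx : x ∈ K.radical) :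
    x ∈ K := by
  obtain ⟨N, hN⟩ := hx
  have h1 : N ≤ (p ^ (m + 1)) ^ N :=
    (Nat.lt_pow_self (Nat.one_lt_pow m.succ_ne_zero hp.out.one_lt)).le
  simpa using K.sub_mem (K.pow_mem_of_pow_mem hN h1) (pow_mem h N)

omit [Pf p S] in
theorem haus {J : Ideal S} [IsHausdorff J S] {x : S} (h : ∀ N, x ∈ J ^ N) : x = 0 :=
  IsHausdorff.haus (I := J) inferInstance x fun N => by
    rw [SModEq.zero, smul_eq_mul, Ideal.mul_top]; exact h N

theorem fix_zero {J : Ideal S} [IsHausdorff J S] {x : WittVector p S}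
    (h : (sg p S ^ (m + 1)) x = x) (hx : WI J.radical x) : x = 0 := by
  ext l
  rw [WittVector.zero_coeff]
  refine haus (J := J) fun N => mem_of_fix (p := p) (m := m) ?_ ?_
  · rw [← coeff_sg_pow, h, sub_self]; exact zero_mem _
  · obtain ⟨M, hM⟩ := hx l
    exact ⟨M * N, by rw [pow_mul]; exact Ideal.pow_mem_pow hM N⟩

theorem fix0 {T : Matrix (Fin (m + 1)) (Fin (m + 1)) (WittVector p S)}
    (h : Itw (Au p (m + 1) 0) T (Au p (m + 1) 0)) (i j : Fin (m + 1)) :
    (sg p S ^ (m + 1)) (T i j) = T i j := by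
  have := wi_sub.1 (fix (K := ⊥) (fun _ _ _ => rfl) (fun _ _ _ => rfl) h i j)
  exact WittVector.ext fun l => sub_eq_zero.1 (this l)

theorem lift {J : Ideal S} [IsAdicComplete J S] {y : S} (h : y ^ p ^ (m + 1) - y ∈ J.radical) :
    ∃ x, x ^ p ^ (m + 1) = x ∧ y - x ∈ J.radical := by
  have hq : 1 < p ^ (m + 1) := Nat.one_lt_pow m.succ_ne_zero hp.out.one_lt
  obtain ⟨N, hN⟩ := id h
  have h1 : N ≤ p ^ ((m + 1) * N) := by rw [pow_mul]; exact (Nat.lt_pow_self hq).le
  obtain ⟨x, hx, hx'⟩ := HenselianRing.is_henselian (R := S) (I := J)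
    (Polynomial.X ^ p ^ (m + 1) - Polynomial.X) (Polynomial.monic_X_pow_sub
      (Polynomial.degree_X_le.trans_lt (by exact_mod_cast hq))) (y ^ p ^ ((m + 1) * N)) (by
      have := J.pow_mem_of_pow_mem hN h1
      rw [sub_pow_pp, ← pow_mul, mul_comm, pow_mul] at this
      simpa using this) (by simp [Polynomial.derivative_X_pow, Ch.char (p := p) (K := S)])
  refine ⟨x, by simpa [sub_eq_zero] using hx, ?_⟩
  have := J.radical.add_mem (pow_mem h N) (Ideal.le_radical hx')
  rw [← pow_mul] at this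
  simpa using J.radical.neg_mem this

/-- the operator `V` -/
def Vv {n : ℕ} (A : Matrix (Fin n) (Fin n) (WittVector p S)) :
    (Fin n → WittVector p S) →+ Fin n → WittVector p S where
  toFun y := A *ᵥ fun i => si p S (y i)
  map_zero' := by simp [← Pi.zero_def]
  map_add' y z := by simp [← mulVec_add, ← Pi.add_def]

theorem Vv_smul {n : ℕ} (A : Matrix (Fin n) (Fin n) (WittVector p S)) (a : S) (k : ℕ)
    (y : Fin n → WittVector p S) : (Vv A)^[k] (tm p (a ^ p ^ k) • y) = tm p a • (Vv A)^[k] y := by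
  induction k generalizing y with
  | zero => simp
  | succ k ih =>
    rw [Function.iterate_succ_apply, Function.iterate_succ_apply, ← ih]
    congr 1
    change A *ᵥ _ = _ • A *ᵥ _
    rw [← mulVec_smul]
    congr 1
    funext i
    rw [Pi.smul_apply, Pi.smul_apply, smul_eq_mul, smul_eq_mul, map_mul, si_tm, pow_succ, pow_mul,
      rt_pow']

theorem Vv_apply (u : ℕ → S) (z : Fin (m + 1) → WittVector p S) :
    Vv (Au p (m + 1) u) z 0 = p * si p S (z (Fin.last m)) ∧ ∀ i : Fin m,
      Vv (Au p (m + 1) u) z i.succ =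
        si p S (z i.castSucc) - tm p (u (i + 1)) * si p S (z (Fin.last m)) := by
  refine ⟨?_, fun i => ?_⟩
  · change ∑ j, Au p (m + 1) u 0 j * si p S (z j) = _
    rw [Fin.sum_univ_castSucc, Finset.sum_eq_zero fun j _ => by simp [Au, Cm, j.2.ne]]
    simp [Au, Cm]
  · change ∑ j, Au p (m + 1) u i.succ j * si p S (z j) = _
    rw [Fin.sum_univ_castSucc, Finset.sum_eq_single i (fun j _ hj => by
      have : (i : ℕ) ≠ j := fun e => hj (Fin.ext e.symm)
      simp [Au, Cm, j.2.ne, this]) (by simp)]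
    simp [Au, Cm, i.2.ne, sub_eq_add_neg]

theorem of_Vv {K : Ideal S} {u : ℕ → S} {z : Fin (m + 1) → WittVector p S}
    (h : ∀ i, WI K (Vv (Au p (m + 1) u) z i)) (i : Fin (m + 1)) : WI K (z i) := by
  obtain ⟨h0, h1⟩ := Vv_apply u z
  have hl : WI K (z (Fin.last m)) := fun l => by simpa [h0] using h 0 (l + 1)
  refine Fin.lastCases hl (fun i => ?_) i
  have h2 : WI K (sg p S (Vv (Au p (m + 1) u) z i.succ)) := fun l =>
    K.pow_mem_of_mem (h _ l) p hp.out.pos
  rw [h1, map_sub, map_mul, sg_si, sg_si, wi_iff, map_sub, map_mul, wi_iff.1 hl, mul_zero,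
    sub_zero] at h2
  exact wi_iff.2 h2

theorem peel {K : Ideal S} {u : ℕ → S} {z : Fin (m + 1) → WittVector p S} (N : ℕ)
    (w : ℕ → Fin (m + 1) → WittVector p S) (x x' : ℕ → S) (hw : ∀ k i, WI K (w k i))
    (h : ∀ i, WI K ((∑ k ∈ Finset.range N, (Vv (Au p (m + 1) u))^[k]
      (w k + (tm p (x k) - tm p (x' k)) • Pi.single 0 1) + (Vv (Au p (m + 1) u))^[N] z) i)) :
    ∀ i, WI K (z i) := by
  induction N generalizing w x x' with
  | zero => simpa using h
  | succ N ih =>
    refine ih (fun k => w (k + 1)) (fun k => x (k + 1)) (fun k => x' (k + 1)) (fun k => hw _)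
      (of_Vv (u := u) fun i => ?_)
    simp only [Finset.sum_range_succ', Function.iterate_succ_apply', Function.iterate_zero, id,
      ← map_sum, add_right_comm _ (w 0 + _), ← map_add] at h
    generalize (∑ k ∈ Finset.range N, _ + _ : Fin (m + 1) → WittVector p S) = y at h ⊢
    have h0 := congrArg WittVector.constantCoeff (wi_iff.1 (h 0))
    simp only [Pi.add_apply, Pi.smul_apply, Pi.single_eq_same, smul_eq_mul, mul_one, map_add,
      wi_iff.1 (hw 0 0), map_sub, WittVector.map_teichmuller, (Vv_apply u y).1, map_mul,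
      map_natCast, Ch.char (p := p) (K := S ⧸ K), zero_mul, zero_add, map_zero,
      WittVector.constantCoeff_apply, WittVector.teichmuller_coeff_zero, sub_eq_zero] at h0
    have h1 := wi_iff.1 (h i)
    simp only [Pi.add_apply, Pi.smul_apply, smul_eq_mul, map_add, wi_iff.1 (hw 0 i), map_mul,
      map_sub, WittVector.map_teichmuller, h0, sub_self, zero_mul, add_zero] at h1
    exact wi_iff.2 h1

theorem cycV {u u' : ℕ → S} {T : Matrix (Fin (m + 1)) (Fin (m + 1)) (WittVector p S)}
    (h : Itw (Au p (m + 1) u) T (Au p (m + 1) u')) :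
    (∀ j : Fin (m + 1), T.col j = (Vv (Au p (m + 1) u))^[j] (T.col 0)) ∧
    ∑ k ∈ Finset.range m, (Vv (Au p (m + 1) u))^[k + 1] (tm p (u' (k + 1) ^ p ^ (k + 1)) • T.col 0)
      + (Vv (Au p (m + 1) u))^[m + 1] (T.col 0) = (p : WittVector p S) • T.col 0 := by
  obtain ⟨h1, h2⟩ := cyc _ T (Vv (Au p (m + 1) u)) fun j => by
    funext i
    exact congrFun (congrFun h i) j
  refine ⟨h1, ?_⟩
  rw [h2, mulVec_eq_sum, Fin.sum_univ_succ, ← Fin.sum_univ_eq_sum_range
    (fun k => (Vv (Au p (m + 1) u))^[k + 1] (tm p (u' (k + 1) ^ p ^ (k + 1)) • T.col 0))]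
  have h3 : ∀ j, Tᵀ j = T.col j := fun _ => rfl
  simp only [Vv_smul, h3, h1 (Fin.succ _), Fin.val_succ, op_smul_eq_smul]
  simp

end Nfu

open Nfu

variable {p : ℕ} [hp : Fact p.Prime]

theorem nfg : NFG p := by
  rintro (_ | m) S _ _ J
  · exact ⟨fun _ _ T _ _ _ => ⟨T, Subsingleton.elim _ _, fun i => i.elim0⟩,
      fun _ _ _ _ _ => Subsingleton.elim _ _⟩
  refine ⟨fun u u' T hu hu' h => ?_, fun T₀ T₁ h₀ h₁ h => ?_⟩
  · have h1 := fun i j l => lift (m := m) (J := J) (y := (T i j).coeff l) (by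
      rw [← coeff_sg_pow]; exact wi_sub.1 (fix hu hu' h i j) l)
    choose x hx hx' using h1
    let T₀ : Matrix _ _ (WittVector p S) := Matrix.of fun i j => WittVector.mk p (x i j)
    have h2 : MI J.radical (T - T₀) := fun i j => wi_sub.2 (hx' i j)
    refine ⟨T₀, sub_eq_zero.1 (Matrix.ext fun i j => fix_zero (m := m) (J := J) ?_ ?_), h2⟩
    · have h3 : T₀.map (sg p S ^ (m + 1)) = T₀ := Matrix.ext fun i j => WittVector.ext fun l => by
        rw [map_apply, coeff_sg_pow]; exact hx i j l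
      have h4 : (T₀.map (si p S)).map (sg p S ^ (m + 1)) = T₀.map (si p S) :=
        Matrix.ext fun i j => WittVector.ext fun l => by
          rw [map_apply, coeff_sg_pow, map_apply, coeff_si, ← map_pow]
          exact congrArg _ (hx i j l)
      have h5 : (Au p (m + 1) (0 : ℕ → S)).map (sg p S ^ (m + 1)) = Au p (m + 1) 0 :=
        Matrix.ext (fix0 (T := Au p (m + 1) 0) (by rw [Itw, si, Au_fix]))
      change ((_ - _ : Matrix _ _ _).map (sg p S ^ (m + 1))) i j = _
      rw [Matrix.map_sub _ (map_sub _), Matrix.map_mul, Matrix.map_mul, h3, h4, h5]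
    · have : Pf p (S ⧸ J.radical) := Pf.quotient _ fun y hy => Ideal.mem_radical_of_pow_mem hy
      have h3 : T₀.map (wm p (Ideal.Quotient.mk J.radical)) =
          T.map (wm p (Ideal.Quotient.mk J.radical)) := Matrix.ext fun i j => by
        have := wi_iff.1 (h2 i j)
        rw [Matrix.sub_apply, map_sub, sub_eq_zero] at this
        exact this.symm
      have h4 : ∀ M : Matrix (Fin (m + 1)) (Fin (m + 1)) (WittVector p S),
          (M.map (si p S)).map (wm p (Ideal.Quotient.mk J.radical)) =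
          (M.map (wm p (Ideal.Quotient.mk J.radical))).map (si p _) :=
        fun M => Matrix.ext fun i j => wm_si _ _
      have h5 := congrArg (fun M => M.map (wm p (Ideal.Quotient.mk J.radical))) h
      simp only [Matrix.map_mul, Au_mod hu, Au_mod hu', h4] at h5
      rw [wi_iff]
      change ((_ - _ : Matrix _ _ _).map (wm p (Ideal.Quotient.mk J.radical))) i j = _
      rw [Matrix.map_sub _ (map_sub _), Matrix.map_mul, Matrix.map_mul,
        Au_mod (u := 0) fun _ _ _ => zero_mem _, h4, h3, h5, sub_self, Matrix.zero_apply]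
  · refine sub_eq_zero.1 (Matrix.ext fun i j => fix_zero (m := m) (J := J) ?_ (h i j))
    rw [Matrix.sub_apply, map_sub, fix0 h₀, fix0 h₁]

theorem nfu : NFU p := by
  rintro (_ | m) S _ _ J _ u u' T hu hu' h hT
  · exact ⟨Subsingleton.elim _ _, fun i _ hi => absurd hi (Nat.not_lt_zero i)⟩
  let L : Ideal S := Ideal.span (u '' Set.Ico 1 (m + 1) ∪ u' '' Set.Ico 1 (m + 1))
  obtain ⟨N, hN⟩ := Ideal.exists_pow_le_of_le_radical_of_fg (I := L) (J := J)
    (Ideal.span_le.2 (by
      rintro _ (⟨i, hi, rfl⟩ | ⟨i, hi, rfl⟩)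
      exacts [hu i hi.1 hi.2, hu' i hi.1 hi.2])) (Submodule.fg_span
      (((Set.finite_Ico _ _).image u).union ((Set.finite_Ico _ _).image u')))
  have hK : (J ⊔ L) ^ (1 + N) ≤ J :=
    Ideal.sup_pow_add_le_pow_sup_pow.trans (sup_le (pow_one J).le hN)
  have hv : ∀ i, 1 ≤ i → i < m + 1 → u i ∈ J ⊔ L := fun i h1 h2 =>
    Ideal.mem_sup_right (Ideal.subset_span (Or.inl ⟨i, ⟨h1, h2⟩, rfl⟩))
  have hv' : ∀ i, 1 ≤ i → i < m + 1 → u' i ∈ J ⊔ L := fun i h1 h2 =>
    Ideal.mem_sup_right (Ideal.subset_span (Or.inr ⟨i, ⟨h1, h2⟩, rfl⟩))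
  have h1 : Itw (Au p (m + 1) u) 1 (Au p (m + 1) u) := by
    rw [Itw, Matrix.map_one _ (map_zero _) (map_one _), mul_one, one_mul]
  obtain ⟨a1, a2⟩ := cycV h
  obtain ⟨b1, b2⟩ := cycV h1
  simp only [col1] at b1 b2
  have key : ∀ t i, WI ((J ⊔ L) ^ (t + 1)) ((T - 1) i 0) := by
    intro t
    induction t with
    | zero =>
      intro i l
      rw [zero_add, pow_one]
      refine mem_of_fix (p := p) (m := m) ?_ (Ideal.radical_mono le_sup_left (hT i 0 l))
      rw [← coeff_sg_pow]
      refine wi_sub.1 ?_ l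
      have := fix hv hv' h i 0
      rwa [Matrix.sub_apply, map_sub, one_apply, apply_ite (sg p S ^ (m + 1)), map_one, map_zero,
        sub_sub_sub_cancel_right]
    | succ t ih =>
      refine peel (u := u) (z := (T - 1).col 0) (m + 1)
        (fun k => tm p (if 1 ≤ k ∧ k < m + 1 then u' k ^ p ^ k else 0) • (T - 1).col 0)
        (fun k => if k = 0 then 0 else u' k ^ p ^ k) (fun k => if k = 0 then 0 else u k ^ p ^ k)
        (fun k i l => ?_) fun i => ?_
      · rw [Pi.smul_apply, smul_eq_mul, coeff_tm_mul, pow_succ' _ (t + 1)]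
        refine Ideal.mul_mem_mul (Ideal.pow_mem_of_mem _ ?_ _ (pow_pos hp.out.pos l)) (ih i l)
        split_ifs with hk
        · exact Ideal.pow_mem_of_mem _ (hv' k hk.1 hk.2) _ (pow_pos hp.out.pos k)
        · exact zero_mem _
      · have e : (T - 1).col 0 = T.col 0 - Pi.single 0 1 := col1 (A := WittVector p S) 0 ▸ rfl
        rw [Finset.sum_range_succ', Finset.sum_congr rfl (g := fun k =>
          (Vv (Au p (m + 1) u))^[k + 1] (tm p (u' (k + 1) ^ p ^ (k + 1)) • T.col 0) -
          (Vv (Au p (m + 1) u))^[k + 1] (tm p (u (k + 1) ^ p ^ (k + 1)) •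
            Pi.single 0 1)) fun k hk => by
            have : k + 1 < m + 1 := by simpa using hk
            rw [← iterate_map_sub, e]
            simp [this, smul_sub, sub_smul]]
        rw [Finset.sum_sub_distrib, e, iterate_map_sub]
        simp only [Function.iterate_zero, id, if_neg (show ¬ (1 ≤ 0 ∧ 0 < m + 1) by omega), if_true,
          WittVector.teichmuller_zero, zero_smul, sub_self, add_zero]
        rw [sub_add_sub_comm, a2, b2, ← smul_sub, ← e]
        rintro (_ | l)
        · simp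
        · rw [Pi.smul_apply, smul_eq_mul, coeff_p_mul_succ]
          refine Ideal.pow_le_pow_right (n := (t + 1) * p) ?_ ?_
          · nlinarith [hp.out.two_le]
          · rw [pow_mul]; exact Ideal.pow_mem_pow (ih i l) p
  have h2 : T.col 0 = Pi.single 0 1 := (funext fun i => sub_eq_zero.1
    (WittVector.ext fun l => (haus (J := J) (x := ((T - 1) i 0).coeff l) fun t => by
      refine Ideal.pow_right_mono hK t ?_
      rw [← pow_mul]
      exact Ideal.pow_le_pow_right (Nat.le_succ _) (key _ i l)).trans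
        (WittVector.zero_coeff p S l).symm)).trans (col1 0)
  have h3 : T = 1 := Matrix.ext fun i j => congrFun ((a1 j).trans (by rw [h2, ← b1, col1]) : T.col j = (1 : Matrix _ _ _).col j) i
  refine ⟨h3, fun i hi hi' => ?_⟩
  rw [h3, Itw, Matrix.map_one _ (map_zero _) (map_one _), mul_one, one_mul] at h
  have h4 := congrArg (fun M => (-M ⟨i, hi'⟩ (Fin.last m)).coeff 0) h
  have h5 : i ≠ 0 := by omega
  simpa [Au, Cm, hi'.ne, h5] using h4

end P261.C2
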