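import Vale.Agent.P261Z.C2.Alg

/-!
# P261Z, block C2: bounded solutions and the pole recursion
-/

noncomputable section

namespace P261.C2

variable {p : ℕ} [hp : Fact p.Prime]

namespace Rc

theorem two_le_q {h : ℕ} (hh : 1 ≤ h) : (2 : ℝ) ≤ (p : ℝ) ^ h :=
  two_le_p.trans (le_self_pow₀ (by linarith [two_le_p (p := p)]) (by omega))

theorem max_div {t T q : ℝ} (ht : 0 ≤ t) (hq : 2 ≤ q) (m : ℕ) :
    max t (T / q ^ m) / q ≤ max t (T / q ^ (m + 1)) := by
  rw [← max_div_div_right (by linarith : (0 : ℝ) ≤ q), div_div, ← pow_succ]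
  exact max_le_max (div_le_self ht (by linarith)) le_rfl

variable {K : Type} [CommRing K] [Pf p K] {F : Fil p K} {h : ℕ}

theorem coeff_si_mem {x : WittVector p K} {u : ℝ} (hx : x ∈ F.WL u) :
    ((si p K ^ h) x).coeff 0 ∈ F.F (u / p ^ h) := by
  have := Fil.mem_WL.1 (Fil.WS_si_pow (τ := fun _ => u) hx h) 0
  rwa [pow_zero, one_mul] at this

theorem coeff_rho (x : WittVector p K) :
    (rho h x).coeff 0 = x.coeff 0 + ((si p K ^ h) (dv x)).coeff 0 := by
  rw [rho, WittVector.add_coeff_zero, WittVector.teichmuller_coeff_zero]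

theorem iter_mem (hh : 1 ≤ h) {x : WittVector p K} {u : ℝ} (hu : 0 ≤ u) (hx : x ∈ F.WL u) (j : ℕ) :
    (rho h)^[j] x ∈ F.WL u := by
  induction j with
  | zero => exact hx
  | succ j ih =>
    rw [Function.iterate_succ_apply']
    have h0 := Fil.mem_WL.1 ih 0
    rw [pow_zero, one_mul] at h0
    exact Fil.WL_le (Fil.WL_rho h h0 ih)
      (max_le le_rfl (div_le_self hu (by linarith [two_le_q (p := p) hh])))

theorem main (hh : 1 ≤ h) {x : WittVector p K} {T t : ℝ} {l : ℕ} (ht : 0 ≤ t) (hx : x ∈ F.WL T)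
    (hl : ((rho h)^[l] x).coeff 0 ∈ F.F t) (m : ℕ) : ∀ j, m ≤ j → j ≤ l →
      (rho h)^[j] x ∈ F.WL (max t (T / ((p : ℝ) ^ h) ^ m)) := by
  induction m with
  | zero =>
    exact fun j _ _ => iter_mem hh (le_max_of_le_left ht) (Fil.WL_le hx (by simp)) j
  | succ m ih =>
    have h1 := max_div (T := T) ht (two_le_q (p := p) hh) m
    have h2 : ∀ d j, j + d = l → m ≤ j →
        ((rho h)^[j] x).coeff 0 ∈ F.F (max t (T / ((p : ℝ) ^ h) ^ (m + 1))) := by
      intro d
      induction d with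
      | zero =>
        rintro j rfl _
        exact Fil.le hl (le_max_left _ _)
      | succ d ihd =>
        intro j hj hm
        have h3 := ihd (j + 1) (by omega) (by omega)
        rw [Function.iterate_succ_apply', coeff_rho] at h3
        have h4 := Fil.le (coeff_si_mem (h := h)
          (Fil.WS_dv (τ := fun _ => _) (ih j hm (by omega)))) h1
        simpa using sub_mem h3 h4
    intro j hj hjl
    obtain ⟨j, rfl⟩ : ∃ i, j = i + 1 := ⟨j - 1, by omega⟩
    rw [Function.iterate_succ_apply']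
    exact Fil.WL_le (Fil.WL_rho h (h2 (l - j) j (by omega) (by omega)) (ih j (by omega) (by omega)))
      (max_le le_rfl h1)

end Rc

open Rc

theorem b2 : B2 p := by
  intro h K _ _ F a N t hh ht ha hD
  have hq := two_le_q (p := p) hh
  have h1 : ∀ k : ℕ, a ∈ F.WL (max t (N / ((p : ℝ) ^ h) ^ k)) := by
    intro k
    induction k with
    | zero => exact Fil.WL_le ha (by simp)
    | succ k ih =>
      have e : (p : WittVector p K) * a = (si p K ^ h) a - Dop p K h a := by rw [Dop_apply]; ring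
      rw [← Fil.WL_p_mul, e]
      exact sub_mem (Fil.WL_le (Fil.WS_si_pow (τ := fun _ => _) ih h) (max_div ht.le hq k))
        (Fil.WL_le hD (le_max_left _ _))
  obtain ⟨k, hk⟩ := pow_unbounded_of_one_lt (N / t) (show (1 : ℝ) < (p : ℝ) ^ h by linarith)
  refine Fil.WL_le (h1 k) (max_le le_rfl ?_)
  rw [div_le_iff₀ (pow_pos (by linarith) k), mul_comm]
  exact ((div_lt_iff₀ ht).1 hk).le

theorem rec_ : REC p := by
  intro h l K _ _ F x₀ T hh hx hT
  have hq := two_le_q (p := p) hh
  have hT1 : T / ((p : ℝ) ^ h) ^ l ≤ 1 := (div_le_one (pow_pos (by linarith) l)).2 hT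
  refine ⟨fun h1 => Fil.WL_le (main hh zero_le_one hx h1 l l le_rfl le_rfl) (max_le le_rfl hT1),
    fun x a N h1 ha e => ?_⟩
  have e1 : Dop p K h a = (rho h)^[l] x₀ - x := by rw [e]; ring
  have h2 : ∀ τ, 1 ≤ τ → (rho h)^[l] x₀ ∈ F.WL τ → a ∈ F.WL τ := fun τ hτ hz =>
    b2 h K F a N τ hh (by linarith) ha (e1 ▸ sub_mem hz (Fil.WL_le h1 hτ))
  have h3 : ∀ k : ℕ, (rho h)^[l] x₀ ∈ F.WL (max 1 (T / ((p : ℝ) ^ h) ^ k)) := by
    intro k
    induction k with
    | zero => exact iter_mem hh (le_max_of_le_left zero_le_one) (Fil.WL_le hx (by simp)) l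
    | succ k ih =>
      refine Fil.WL_le (main hh (le_max_of_le_left zero_le_one) hx ?_ l l le_rfl le_rfl)
        (max_le le_rfl (le_max_of_le_left hT1))
      have h4 := Fil.mem_WL.1 h1 0
      rw [pow_zero, one_mul] at h4
      rw [e, Dop_apply, WittVector.add_coeff_zero, ← WittVector.constantCoeff_apply (_ - _), map_sub,
        WittVector.constantCoeff_apply, WittVector.constantCoeff_apply, coeff_p_mul_zero, sub_zero]
      exact add_mem (Fil.le h4 (le_max_left _ _))
        (Fil.le (coeff_si_mem (h2 _ (le_max_left _ _) ih)) (max_div zero_le_one hq k))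
  have h4 := Fil.WL_le (h3 l) (max_le le_rfl hT1)
  exact ⟨h4, h2 1 le_rfl h4⟩

end P261.C2
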