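import Vale.Agent.P261Z.C2.TG
import Vale.Agent.P261Z.C2.Nfe
import Vale.Agent.P261Z.C2.Nfu

/-!
# P261Z, block C2: the matrices of the group action exist
-/

set_option linter.all false

open Matrix MvPowerSeries

noncomputable section

namespace P261.C2

open Vale.Agent.P251.F Vale.Agent.P261Z Vale.Agent.P261Z.N

variable {p : ℕ} [hp : Fact p.Prime]

namespace Tg

section ideals

variable {S : Type} [CommRing S] {J J' : Ideal S}

theorem exists_ideal (J : Ideal S) {s : Set S} (hs : s.Finite) (h : ∀ x ∈ s, x ∈ J.radical) :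
    ∃ J' : Ideal S, J ≤ J' ∧ (∀ x ∈ s, x ∈ J') ∧ J'.radical = J.radical ∧ ∃ N, J' ^ N ≤ J := by
  obtain ⟨m, hm⟩ := Ideal.exists_pow_le_of_le_radical_of_fg (Ideal.span_le.2 h)
    (Submodule.fg_span hs)
  refine ⟨J ⊔ Ideal.span s, le_sup_left, fun x hx => Ideal.mem_sup_right (Ideal.subset_span hx),
    le_antisymm (Ideal.radical_le_radical_iff.2 (sup_le Ideal.le_radical (Ideal.span_le.2 h)))
      (Ideal.radical_mono le_sup_left), 1 + m,
    Ideal.sup_pow_add_le_pow_sup_pow.trans (sup_le (pow_one J).le hm)⟩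

theorem haus_of_pow [IsHausdorff J S] {N : ℕ} (h : J' ^ N ≤ J) : IsHausdorff J' S :=
  ⟨fun x hx => Nfu.haus (J := J) fun n => by
    have := hx (N * n)
    simp only [smul_eq_mul, Ideal.mul_top, SModEq.zero] at this
    rw [pow_mul] at this
    exact Ideal.pow_right_mono h n this⟩

theorem eq_of_fix [Ch p S] [IsHausdorff J S] {n : ℕ} (hn : 1 ≤ n) {a b : S} (ha : a ^ p ^ n = a)
    (hb : b ^ p ^ n = b) (h : a - b ∈ J.radical) : a = b := by
  obtain ⟨m, rfl⟩ : ∃ m, n = m + 1 := ⟨n - 1, by omega⟩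
  refine sub_eq_zero.1 (Nfu.haus (J := J) fun N => Nfu.mem_of_fix (p := p) (m := m) ?_ ?_)
  · rw [sub_pow_pp, ha, hb, sub_self]; exact zero_mem _
  · obtain ⟨M, hM⟩ := h
    exact ⟨M * N, by rw [pow_mul]; exact Ideal.pow_mem_pow hM N⟩

theorem rt_mem [Pf p S] {x : S} (h : x ∈ J.radical) (N : ℕ) : (rt p S ^ N) x ∈ J.radical :=
  Ideal.mem_radical_of_pow_mem (m := p ^ N) (by rwa [rt_pow_pp])

theorem uy_mem [Pf p S] (h : ℕ) {c : ℕ} {y : Fin c → S} (hy : ∀ j, y j ∈ J.radical) (i : ℕ) :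
    uy h y i ∈ J.radical := rt_mem (Un.exh_mem h hy i) i

theorem unic_rad {n : ℕ} {k : Type} [Field k] (D : LTD p n k) (J : Ideal S) [IsHausdorff J S]
    (κ : k →+* S) {v v' : ℕ → S} {g g' : InvSeries S} (hv : ∀ i, v i ∈ J.radical)
    (hv' : ∀ i, v' i ∈ J.radical) (e : g • hzn p n v = g' • hzn p n v')
    (hg : ∀ i, g.c i - g'.c i ∈ J.radical) : (∀ i, 1 ≤ i → i < n → v i = v' i) ∧ g = g' := by
  obtain ⟨J', -, h2, h3, N, h4⟩ := exists_ideal J
    (((Set.finite_lt_nat n).image v).union ((Set.finite_lt_nat n).image v'))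
    (by rintro _ (⟨i, -, rfl⟩ | ⟨i, -, rfl⟩); exacts [hv i, hv' i])
  have := haus_of_pow h4
  exact All.unic p n k D.hh D.card S J' κ v v' g g' (fun i _ hi => h2 _ (Or.inl ⟨i, hi, rfl⟩))
    (fun i _ hi => h2 _ (Or.inr ⟨i, hi, rfl⟩)) e (h3 ▸ hg)

end ideals

section haus

variable {σ L : Type} [CommRing L] [Ch p L]

theorem coeff_pow_pp (k : ℕ) (f : MvPowerSeries σ L) (d : σ →₀ ℕ) :
    coeff (p ^ k • d) (f ^ p ^ k) = coeff d f ^ p ^ k := by
  nontriviality L
  have : CharP L p := Ch.charP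
  rw [← map_iterateFrobenius_expand p hp.out.ne_zero, coeff_map, coeff_expand_smul]
  rfl

variable [IsReduced L]

include hp in
theorem reduced : IsReduced (MvPowerSeries σ L) := ⟨fun f ⟨N, hN⟩ => MvPowerSeries.ext fun d => by
  refine IsNilpotent.eq_zero ⟨p ^ N, ?_⟩
  rw [← coeff_pow_pp, pow_eq_zero_of_le (Nat.lt_pow_self hp.out.one_lt).le hN, map_zero]⟩

variable (p σ L) in
/-- the ideal of the variables in the perfect hull -/
abbrev JP : Ideal (PH p (MvPowerSeries σ L)) := (Ev.IX σ L).map (algebraMap _ _)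

theorem exists_of_mem {B : Type} [CommRing B] [Ch p B] (I : Ideal B) (N : ℕ) {x : PH p B}
    (hx : x ∈ I.map (algebraMap B (PH p B)) ^ N) :
    ∃ k, ∃ b ∈ I ^ (N * p ^ k), x ^ p ^ k = algebraMap B _ b := by
  have up : ∀ {x : PH p B} {k} (l), (∃ b ∈ I ^ (N * p ^ k), x ^ p ^ k = algebraMap B _ b) →
      ∃ b ∈ I ^ (N * p ^ (k + l)), x ^ p ^ (k + l) = algebraMap B _ b := by
    rintro x k l ⟨b, hb, e⟩
    refine ⟨b ^ p ^ l, ?_, by rw [pow_add, pow_mul, e, map_pow]⟩
    rw [pow_add, ← mul_assoc, pow_mul]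
    exact Ideal.pow_mem_pow hb _
  rw [← Ideal.map_pow] at hx
  induction hx using Submodule.span_induction with
  | mem x h => obtain ⟨b, hb, rfl⟩ := h; exact ⟨0, b, by simpa using hb, by simp⟩
  | zero => exact ⟨0, 0, zero_mem _, by simp⟩
  | add x y _ _ h h' =>
    obtain ⟨k, h⟩ := h
    obtain ⟨l, h'⟩ := h'
    obtain ⟨b, hb, e⟩ := up l h
    obtain ⟨b', hb', e'⟩ := up k h'
    rw [add_comm l] at hb' e'
    exact ⟨k + l, b + b', add_mem hb hb', by rw [add_pow_pp, e, e', map_add]⟩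
  | smul s x _ h =>
    obtain ⟨k, h⟩ := h
    obtain ⟨l, a, ea⟩ := PH.exists_pow s
    obtain ⟨b, hb, e⟩ := up l h
    refine ⟨k + l, a ^ p ^ k * b, Ideal.mul_mem_left _ _ hb, ?_⟩
    rw [smul_eq_mul, mul_pow, e, map_mul, map_pow, ← ea, ← pow_mul, ← pow_add, add_comm l]

theorem haus_PH [Finite σ] : IsHausdorff (JP p σ L) (PH p (MvPowerSeries σ L)) := ⟨fun x hx => by
  have := reduced (p := p) (σ := σ) (L := L)
  obtain ⟨l, a, ea⟩ := PH.exists_pow x
  refine eq_zero_of_pow (ea.trans ?_)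
  rw [show a = 0 from MvPowerSeries.ext fun d => ?_, map_zero]
  obtain ⟨k, b, hb, e⟩ := exists_of_mem (Ev.IX σ L) (d.degree + 1) (x := x)
    (by simpa [SModEq.zero] using hx (d.degree + 1))
  have e2 : a ^ p ^ k = b ^ p ^ l := PH.of_injective (p := p) (by
    rw [map_pow, map_pow, ← ea, ← e, ← pow_mul, ← pow_mul, mul_comm])
  refine IsNilpotent.eq_zero ⟨p ^ k, ?_⟩
  rw [← coeff_pow_pp, e2]
  refine Rx.pow_le_ordI _ (Ideal.pow_mem_of_mem _ hb _ (pow_pos hp.out.pos l)) _ ?_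
  rw [map_nsmul, smul_eq_mul, mul_comm]
  exact Nat.mul_lt_mul_of_pos_right d.degree.lt_succ_self (pow_pos hp.out.pos k)⟩

end haus

section mat

variable {S S' : Type} [CommRing S] [Pf p S] [CommRing S'] [Pf p S'] {n : ℕ} {u u' : ℕ → S}

theorem Au_congr (h : ∀ i, 1 ≤ i → i < n → u i = u' i) : Au p n u = Au p n u' := by
  rw [Au, Au]
  congr 1
  funext i
  split_ifs with h0
  · rfl
  · rw [h i (by omega) i.2]

theorem cv_congr (hn : 1 ≤ n) (h : ∀ i, 1 ≤ i → i < n → u i = u' i) (y : Fin n → WittVector p S) :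
    (cv hn u y).ser = (cv hn u' y).ser := by
  have hl : (lw p n u).map (RingHom.id S) = lw p n u' := by
    rw [Law.map_id]
    exact hzn_congr p fun i h1 h2 => by rw [h i h1 h2]
  have e := All.cun p S _ n _ _ (nf_std hn u).sp S Ch.char (RingHom.id S) _
    ((zmap _ hl).comp (cv hn u)) (cv hn u') (fun a y => ?_) (cv_crv hn u').tei (fun y => ?_)
    (fun y => ?_) ?_
  · refine Eq.trans ?_ (congrArg Cv.ser (DFunLike.congr_fun e y))
    rw [AddMonoidHom.comp_apply, zmap_ser, PowerSeries.map_id]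
    rfl
  · rw [AddMonoidHom.comp_apply, AddMonoidHom.comp_apply, (cv_crv hn _).tei, zmap_mon]
  · rw [AddMonoidHom.comp_apply, AddMonoidHom.comp_apply, (cv_crv hn _).ver, zmap_mon, map_one]
  · rw [Au_congr h, (cv_crv hn _).ver]
  · rw [AddMonoidHom.comp_apply, cv_e0, cv_e0, zmap_xx]

theorem cT_mod (hn : 1 ≤ n) (J : Ideal S) [Pf p (S ⧸ J)] (hu : ∀ i, u i ∈ J)
    (T : Matrix (Fin n) (Fin n) (WittVector p S)) :
    cT hn hn 0 (T.map (wm p (Ideal.Quotient.mk J))) =
      PowerSeries.map (Ideal.Quotient.mk J) (cT hn hn u T) := by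
  rw [← cT_map, show (fun i => Ideal.Quotient.mk J (u i)) = 0 from
    funext fun i => Ideal.Quotient.eq_zero_iff_mem.2 (hu i)]

theorem mi_iff {R : Type} [CommRing R] {J : Ideal R} {I I' : Type}
    {M M' : Matrix I I' (WittVector p R)} :
    MI J (M - M') ↔ M.map (wm p (Ideal.Quotient.mk J)) = M'.map (wm p (Ideal.Quotient.mk J)) :=
  ⟨fun h => Matrix.ext fun i j => wi_sub.1 (h i j), fun h i j => wi_sub.2 (congrFun₂ h i j)⟩

theorem cT_sub (hn : 1 ≤ n) (J : Ideal S) (hu : ∀ i, u i ∈ J.radical) (hu' : ∀ i, u' i ∈ J.radical)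
    {T T' : Matrix (Fin n) (Fin n) (WittVector p S)} (h : MI J.radical (T - T')) (i : ℕ) :
    PowerSeries.coeff i (cT hn hn u T) - PowerSeries.coeff i (cT hn hn u' T') ∈ J.radical := by
  have := Pf.quot_radical (p := p) J
  rw [← Ideal.Quotient.eq, ← PowerSeries.coeff_map, ← PowerSeries.coeff_map, ← cT_mod hn _ hu,
    ← cT_mod hn _ hu', mi_iff.1 h]

/-- an isomorphism of normal forms is determined by its curve -/
theorem itw_eq (hn : 1 ≤ n) (J : Ideal S) [IsHausdorff J S] (hu : ∀ i, u i ∈ J.radical)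
    (hu' : ∀ i, u' i ∈ J.radical) {W W' U : Matrix (Fin n) (Fin n) (WittVector p S)}
    (h1 : W * W' = 1) (hW : Itw (Au p n u) W (Au p n u')) (hU : Itw (Au p n u) U (Au p n u'))
    (e : cT hn hn u W = cT hn hn u U) : W = U := by
  have := Pf.quot_radical (p := p) J
  have h2 := mul_eq_one_comm.1 h1
  have r : ∀ {T}, Itw (Au p n u) T (Au p n u') →
      Itw (Au p n 0) (T.map (wm p (Ideal.Quotient.mk J.radical))) (Au p n 0) := fun h => by
    have := Mt.itw_map (Ideal.Quotient.mk J.radical) h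
    rwa [Nfu.Au_mod fun i _ _ => hu i, Nfu.Au_mod fun i _ _ => hu' i] at this
  have e2 := cT_inj hn hn (r hW) (r hU) (by rw [cT_mod hn _ hu, cT_mod hn _ hu, e])
  have e3 := (nfu n S J u' u' (W' * U) (fun i _ _ => hu' i) (fun i _ _ => hu' i)
    (Mt.itw_mul (Mt.itw_inv hW h1 h2) hU) (mi_iff.2 (by
      rw [Matrix.map_mul, ← e2, ← Matrix.map_mul, h2]))).1
  rw [← Matrix.mul_one W, ← e3, ← Matrix.mul_assoc, h1, Matrix.one_mul]

end mat

theorem lift_ex {L B : Type} [CommRing L] [Pf p L] [CommRing B] [Ch p B] (J : Ideal B)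
    [IsAdicComplete J B] (g : L →+* B) {n : ℕ} {x : ℕ → B} (hx : ∀ i, x i ∈ J)
    {T₀ T₀' : Matrix (Fin n) (Fin n) (WittVector p L)} (h1 : T₀ * T₀' = 1)
    (h2 : Itw (Au p n 0) T₀ (Au p n 0)) :
    ∃ (N : ℕ) (T T' : Matrix (Fin n) (Fin n) (WittVector p B)) (v : ℕ → PH p B), T * T' = 1 ∧
      (∀ i, v i ∈ (J.map (algebraMap B (PH p B))).radical) ∧
      MI (J.map (algebraMap B (PH p B))).radical
        (up N T - T₀.map (wm p ((algebraMap B (PH p B)).comp g))) ∧
      Itw (Au p n fun i => (rt p _ ^ i) (algebraMap B (PH p B) (x i))) (up N T)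
        (Au p n fun i => (rt p _ ^ i) (v i)) := by
  set a := algebraMap B (PH p B) with ha
  have hJ : ∀ b ∈ J, a b ∈ (J.map a).radical :=
    fun b hb => Ideal.le_radical (Ideal.mem_map_of_mem _ hb)
  obtain ⟨T, T', U, e1, e2, e3, e4⟩ := nfe n L B (PH p B) J ((fr p _ ^ n).comp g)
    ((rt p _ ^ n).comp a) _ T₀ T₀'
    (fun i => if (i : ℕ) = 0 then (p : WittVector p _) else -tm p ((rt p _ ^ (i : ℕ)) (a (x i))))
    (fun i => if (i : ℕ) = 0 then 0 else -tm p (x i ^ p ^ (n + 1 - i))) h1 h2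
    (fun i => by
      rw [Nfu.wi_iff]
      split_ifs
      · exact map_zero _
      · rw [map_neg, WittVector.map_teichmuller, Ideal.Quotient.eq_zero_iff_mem.2
          (Ideal.pow_mem_of_mem _ (hx _) _ (pow_pos hp.out.pos _)),
          WittVector.teichmuller_zero, neg_zero])
    (fun i hi => if_pos hi)
    (fun i => by
      split_ifs
      · rw [map_natCast, sub_self, map_zero, map_zero]
      · rw [Pi.zero_apply, tm, tm, WittVector.teichmuller_zero, neg_zero, map_zero, sub_zero,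
          map_neg, map_neg, sg_tm, WittVector.map_teichmuller]
        congr 2
        refine pow_pp_inj n ?_
        rw [RingHom.comp_apply, rt_pow_pp, map_pow, ← pow_mul, ← pow_succ',
          show n + 1 = i + (n + 1 - i) by omega, pow_add, pow_mul, rt_pow_pp,
          Nat.add_sub_cancel_left])
  have e5 : (T.map (wm p ((rt p _ ^ n).comp a))).map ⇑(si p _ ^ n) = up (n + n) T := by
    ext i j l
    rw [up_coeff, map_apply, coeff_si_pow, pow_add]
    rfl
  refine ⟨n + n, T, T', _, e1, fun i => rt_mem (hJ _ (e3 i)) n, fun i j => Nfu.wi_sub.2 fun l => ?_,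
    e5 ▸ e4⟩
  have := rt_mem (hJ _ (Nfu.wi_sub.1 (e2 i j) l)) (n + n)
  rwa [map_sub, map_sub, ← up_coeff, map_apply, map_apply, WittVector.map_coeff,
    Nfu.coeff_sg_pow, RingHom.comp_apply, fr_pow_apply, map_pow g, ← pow_mul, ← pow_add, map_pow a,
    rt_pow_pp'] at this

section fam

variable {h c : ℕ} {k K : Type} [Field k] [Field K] [Pf p K] {D : LTD p (h + c) k} {ι : k →+* K}
  {A : RG p h c D.GG K}

theorem fam_rad (hA : IsT D ι A) {T : Type} [TopologicalSpace T] (π : C(T, D.GG)) {S : Type}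
    [CommRing S] (J : Ideal S) [IsHausdorff J S] (β : CR c T K →+* S)
    (hβ : ∀ j, β (X j) ∈ J.radical) {v : ℕ → S} (hv : ∀ j, v j ∈ J.radical) {g : InvSeries S}
    (e : g • hzn p (h + c) v = Fx p h fun j => β (X j))
    (hg : ∀ i, g.c i - β (C ((cfK D ι (i + 1)).comap π)) ∈ J.radical) :
    (∀ i, 1 ≤ i → i < h + c → v i = exh h (fun j => β (A.co π (X j))) i) ∧
      g = InvSeries.map β (A.us π) := by
  have e' := congrArg (Law.map β) (A.us_law π)
  rw [InvSeries.map_smul, Fx_map, Fx_map] at e'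
  refine unic_rad D J ((β.comp ((C (σ := Fin c)).comp LocallyConstant.constRingHom)).comp ι) hv
    (Un.exh_mem h fun j => map_mem β hβ (A.cc_co π j)) (e.trans e'.symm) fun i => ?_
  have := Ideal.sub_mem _ (hg i) (map_mem β hβ
    (f := (A.us π).c i - C ((cfK D ι (i + 1)).comap π)) (by
      rw [map_sub, hA.cc_us, constantCoeff_C, sub_self]))
  rwa [map_sub, sub_sub_sub_cancel_right, ← InvSeries.c_map] at this

/-- the universal matrix -/
theorem exists_univ (h1 : 1 ≤ h) (hD : IsHz p D) (hA : IsT D ι A) :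
    ∃ (N : ℕ) (T T' : Matrix (Fin (h + c)) (Fin (h + c)) (WittVector p (CR c D.GG K))),
      T * T' = 1 ∧ Itw (Au p (h + c) (uy h fun j => algebraMap _ _ (X j : CR c D.GG K))) (up N T)
        (Au p (h + c) (uy h fun j => algebraMap _ _ (A.co (.id _) (X j)))) ∧
      cT (pos_add h1 c) (pos_add h1 c) (uy h fun j => algebraMap _ _ (X j : CR c D.GG K)) (up N T) =
        PowerSeries.map (algebraMap _ _) (A.us (.id _)).val := by
  have hn := pos_add h1 c
  have : IsReduced (LocallyConstant D.GG K) := Pf.isReduced (p := p)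
  have := haus_PH (p := p) (σ := Fin c) (L := LocallyConstant D.GG K)
  obtain ⟨T₀', -, hT₀, -⟩ := Tu_inv hD ι
  obtain ⟨N, T, T', v, e1, e2, e3, e4⟩ := lift_ex (Ev.IX (Fin c) (LocallyConstant D.GG K)) C
    (Un.exh_mem h Ev.X_mem) hT₀ (Tu_itw hD ι)
  simp only [exh_map _ (map_zero (algebraMap (CR c D.GG K) (PH p (CR c D.GG K))))] at e4
  have hX : ∀ j, algebraMap _ (PH p (CR c D.GG K)) (X j : CR c D.GG K) ∈
      (JP p (Fin c) (LocallyConstant D.GG K)).radical :=
    fun j => Ideal.le_radical (Ideal.mem_map_of_mem _ (Ev.X_mem j))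
  have hun := cT_unit hn e4 (by rw [← up_mul, e1, up_one])
  rw [cT_lead] at hun
  have e5 := (iT_smul hn e4 hun).trans (lw_uy h _)
  simp only [lw, rt_pow_pp] at e5
  obtain ⟨r1, r2⟩ := fam_rad hA (.id _) _ _ hX e2 e5 fun i => by
    have := cT_sub (u' := 0) hn _ (uy_mem h hX) (fun _ => zero_mem _) e3 (i + 1)
    rwa [Tu_coeff] at this
  refine ⟨N, T, T', e1, ?_, congrArg InvSeries.val r2⟩
  rw [← Au_congr (u' := uy h _) fun i i1 i2 => congrArg (rt p _ ^ i) (r1 i i1 i2)]
  exact e4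

end fam

section coc

variable {h c : ℕ} {G : Type} [Group G] [TopologicalSpace G] {K : Type} [Field K] [Pf p K]
  (A : RG p h c G K)

theorem ph_mem (g : G) (i : ℕ) : PH.map (A.ph g) (uu p h c K i) ∈ (JP p (Fin c) K).radical := by
  rw [congrFun (uu_map (PH.map (A.ph g))) i]
  refine uy_mem h (fun j => Ideal.le_radical ?_) i
  rw [PH.map_of]
  exact Ideal.mem_map_of_mem _ (Ev.mem_IX.2 (A.phi_X g j))

theorem ph_one : (fun i => PH.map (A.ph 1) (uu p h c K i)) = uu p h c K := by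
  rw [A.ph_one, PH.map_id]; rfl

theorem uu_mem (i : ℕ) : uu p h c K i ∈ (JP p (Fin c) K).radical :=
  rt_mem (Ideal.le_radical (Ideal.mem_map_of_mem _ (Un.exh_mem h Ev.X_mem i))) i

variable {A} (hn : 1 ≤ h + c)
  {T T' : G → Matrix (Fin (h + c)) (Fin (h + c)) (WittVector p (A0 p c K))}
  (hv : ∀ g, T g * T' g = 1)
  (hI : ∀ g, Itw (Au p (h + c) (uu p h c K)) (T g)
    (Au p (h + c) fun i => PH.map (A.ph g) (uu p h c K i)))
  (hC : ∀ g, cT hn hn (uu p h c K) (T g) =
    PowerSeries.map (algebraMap (RR c K) (A0 p c K)) (A.ser g).val)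

include hv hI hC

theorem one_of : T 1 = 1 := by
  have := haus_PH (p := p) (σ := Fin c) (L := K)
  refine itw_eq hn _ uu_mem (ph_mem A 1) (hv 1) (hI 1) ?_ ?_
  · rw [ph_one]
    exact Mt.itw_one _
  · rw [hC, cT_one, A.ser_one, InvSeries.one_val, PowerSeries.map_X]

theorem mul_of (g g' : G) : T (g * g') = T g * (T g').map (wm p (PH.map (A.ph g))) := by
  have := haus_PH (p := p) (σ := Fin c) (L := K)
  have e := Mt.itw_map (PH.map (A.ph g)) (hI g')
  simp only [Au_map, PH.map_map, ← A.ph_mul] at e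
  refine itw_eq hn _ uu_mem (ph_mem A _) (hv _) (hI _) (Mt.itw_mul (hI g) e) ?_
  have e2 : PowerSeries.map (PH.map (A.ph g)) (PowerSeries.map (algebraMap (RR c K) (A0 p c K))
      (A.ser g').val) = (InvSeries.map (algebraMap (RR c K) (A0 p c K))
        (InvSeries.map (A.ph g) (A.ser g'))).val := by
    ext i
    simp only [PowerSeries.coeff_map, InvSeries.map_val, PH.map_of]
  rw [cT_mul hn hn hn (hI g), cT_map, hC, hC, hC, A.ser_mul, e2, ← InvSeries.map_val, map_mul]
  rfl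

end coc

end Tg

open Tg

theorem Tg.mk_TGd {h c : ℕ} {G : Type} [Group G] [TopologicalSpace G] {K : Type} [Field K] [Pf p K]
    {A : RG p h c G K} (h1 : 1 ≤ h) {N : ℕ}
    {T T' : Matrix (Fin (h + c)) (Fin (h + c)) (WittVector p (CR c G K))} (e1 : T * T' = 1)
    (e2 : Itw (Au p (h + c) (uy h fun j => algebraMap _ _ (X j : CR c G K))) (up N T)
      (Au p (h + c) (uy h fun j => algebraMap _ _ (A.co (.id _) (X j)))))
    (e3 : cT (pos_add h1 c) (pos_add h1 c) (uy h fun j => algebraMap _ _ (X j : CR c G K)) (up N T) =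
      PowerSeries.map (algebraMap _ _) (A.us (.id _)).val) : Nonempty (TGd A h1) := by
  have hn := pos_add h1 c
  have hI : ∀ g, Itw (Au p (h + c) (uu p h c K)) (up N (T.map (wm p (evp g))))
      (Au p (h + c) fun i => PH.map (A.ph g) (uu p h c K i)) := fun g => by
    have := Mt.itw_map (PH.map (evp g)) e2
    rw [Au_map, Au_map, uy_map, uy_map, up_map] at this
    simp only [PH.map_of, evp_X, RG.evp_co] at this
    rw [uu_map, uu_eq]
    simp only [PH.map_of]
    exact this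
  have hC : ∀ g, cT hn hn (uu p h c K) (up N (T.map (wm p (evp g)))) =
      PowerSeries.map (algebraMap (RR c K) (A0 p c K)) (A.ser g).val := fun g => by
    have := cT_map hn hn (u := uy h fun j => algebraMap _ _ (X j : CR c G K)) (T := up N T)
      (PH.map (evp g))
    rw [uy_map, up_map, e3] at this
    simp only [PH.map_of, evp_X] at this
    rw [uu_eq, this, ← show _ = A.ser g from A.evp_us (.id _) g]
    ext i
    simp only [PowerSeries.coeff_map, InvSeries.map_val, PH.map_of]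
  have hv : ∀ g, T.map (wm p (evp g)) * T'.map (wm p (evp g)) = 1 := fun g => by
    rw [← Matrix.map_mul, e1, Matrix.map_one _ (map_zero _) (map_one _)]
  have hv' : ∀ g, up N (T.map (wm p (evp g))) * up N (T'.map (wm p (evp g))) = 1 := fun g => by
    rw [← up_mul, hv, up_one]
  have h3 := one_of hn hv' hI hC
  have h4 := mul_of hn hv' hI hC
  simp only [up_map, ← up_mul] at h4
  rw [← up_one N] at h3
  refine ⟨⟨N, fun g => T.map (wm p (evp g)), fun g => T'.map (wm p (evp g)), ?_, ?_, ?_, ?_, ?_, ?_⟩⟩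
  · exact hv
  · exact up_inj N h3
  · exact fun g g' => up_inj N (h4 g g')
  · exact fun a b l d => (coeff d ((T a b).coeff l)).isLocallyConstant
  · exact hI
  · exact hC

theorem tg : TG p := by
  intro h c h1 k _ D hD K _ _ ι A hA
  obtain ⟨N, T, T', e1, e2, e3⟩ := exists_univ h1 hD hA
  exact mk_TGd h1 e1 e2 e3

end P261.C2
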