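import Vale.Agent.P261Z.C2.Gd
import Vale.Agent.P261Z.F.Model

/-!
# P261Z, block C2: the concrete model has the universal property
-/

set_option linter.unusedSectionVars false

open Matrix MvPowerSeries

noncomputable section

namespace P261.C2

open Vale.Agent.P251.F Vale.Agent.P261Z Vale.Agent.P261Z.N P261.Ig P261.NM

variable {p : ℕ} [hp : Fact p.Prime] {h c : ℕ} {G : Type} [Group G] [TopologicalSpace G]
  [IsTopologicalGroup G] {K : Type} [Field K] [Pf p K] {A : RG p h c G K} {h1 : 1 ≤ h}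
  (Θ : TGd A h1)

namespace Ud

theorem oA_eq : PH.lift (algebraMap (RR c K) (AA p h c K)) = oA p h c K :=
  PH.hom_ext fun a => PH.lift_of _ a

theorem mw_AU {S : Type} [CommRing S] [Pf p S] (φ : A0 p c K →+* S) :
    mw φ (AU p h c K) = Au p (h + c) (uy h fun j => φ (algebraMap (RR c K) _ (X j))) := by
  rw [mw_Au, uu_map]

theorem isoA : Iso (V0 p (Fin c) h _)
    (Au p (h + c) (uy h fun j => algebraMap (RR c K) (AA p h c K) (X j))) (muA p h c K)
    (nuA p h c K) := by
  have := UN.iso (Fin c) h (AU p h c K)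
  rwa [mw_AU] at this

theorem liftA (S : Type) [CommRing S] [Pf p S] (θ : RR c K →+* S) (μ ν)
    (H : Iso (V0 p (Fin c) h _) (Au p (h + c) (uy h fun j => θ (X j))) μ ν) :
    ∃ f : AA p h c K →+* S, (∀ r, f (algebraMap _ _ r) = θ r) ∧ mw f (muA p h c K) = μ ∧
      mw f (nuA p h c K) = ν := by
  have H' : Iso (V0 p (Fin c) h _) (mw (PH.lift θ) (AU p h c K)) μ ν := by
    rw [mw_AU]
    simpa only [PH.lift_of] using H
  exact ⟨UN.lift _ H', fun r => (UN.lift_of _ H' _).trans (PH.lift_of θ r), UN.lift_mu _ H',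
    UN.lift_nu _ H'⟩

theorem extA (S : Type) [CommRing S] [Pf p S] (f g : AA p h c K →+* S)
    (e : ∀ r, f (algebraMap (RR c K) _ r) = g (algebraMap (RR c K) _ r))
    (e' : mw f (muA p h c K) = mw g (muA p h c K)) : f = g :=
  UN.hom_ext (PH.hom_ext e) e'

variable (p h c K) in
/-- the scalars -/
def sig (s : ℕ) : AA p h c K →ₐ[RR c K] AA p h c K := gam p h c K (cen p (Fin c) h K s)⁻¹

theorem sig_mu {s : ℕ} (hs : s % p = 1) : mw (sig p h c K s : AA p h c K →+* AA p h c K)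
    (muA p h c K) = Th (Fin c) h _ (s : WittVector p (AA p h c K)) * muA p h c K := by
  rw [sig, gam_coe, act_mu, inv_inv, cen_mat hs, mw.eq_1, Th_map, map_natCast]

theorem sig_nu {s : ℕ} (hs : s % p = 1) : mw (sig p h c K s : AA p h c K →+* AA p h c K)
    (nuA p h c K) = nuA p h c K * Th (Fin c) h _ (Ring.inverse (s : WittVector p (AA p h c K))) := by
  rw [sig, gam_coe, act_nu, cen_inv_mat hs, mw.eq_1, Th_map, map_inv_nat hs]

theorem sig_cen (s : ℕ) (x : AA p h c K) :
    sig p h c K s (gam p h c K (cen p (Fin c) h K s) x) = x := by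
  rw [sig, ← AlgHom.mul_apply, ← map_mul, inv_mul_cancel, map_one, AlgHom.one_apply]

end Ud

open Ud

variable [Algebra (ZMod p) K]

/-- the data of the concrete model, given the filtration -/
def ud0 {A' : NM.Act (ZMod p) (RR c K) G (Fin c)} (hA : IsAct A A') (hu : ∀ j, A'.u j = X j)
    (b : Fil p (AA p h c K)) (M : ℝ → Submodule (RR c K) (AA p h c K))
    (hM : ∀ t x, x ∈ M t ↔ x ∈ b.F t) (stab : ∀ g t, ∀ x ∈ b.F t, Phi Θ g x ∈ b.F t) (exh : b.Exh)
    (a : Fin c → WittVector p (AA p h c K)) (taut : (vtx a (muA p h c K) (nuA p h c K)).IsZ b)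
    (univ : ∀ (S : Type) [CommRing S] [Pf p S] (F : Fil p S), F.Closed →
      ∀ (f : AA p h c K →+* S) (a' : Fin c → WittVector p S),
      (∀ r, f (algebraMap (RR c K) _ r) ∈ F.F 0) →
      (vtx a' (mw f (muA p h c K)) (mw f (nuA p h c K))).IsZ F →
      Fil.Maps f b F ∧ ∀ l, wm p f (a l) - a' l ∈ F.WL 1) : UD Θ (VA Θ hA) where
  act := hA
  u := hu
  pbs := hA.m ▸ NM.pbs_ser
  mu := muA p h c K
  nu := nuA p h c K
  iso := isoA
  lift := liftA
  ext := extA
  ρ_mu g := by
    rw [oA_eq]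
    exact Phi_mu Θ g
  σ := sig p h c K
  σ_ρ s g x := (Phi_gam Θ g _ x).symm
  σ_mu _ := sig_mu
  σ_nu _ := sig_nu
  σ_ne s hs x := by rw [sig, cen_ne hs, inv_one, map_one, AlgHom.one_apply]
  σ_one x := by rw [sig, cen_one, inv_one, map_one, AlgHom.one_apply]
  σ_mul s t hs ht x := by
    rw [sig, sig, sig, cen_mul hs ht, cen_comm, _root_.mul_inv_rev, map_mul, AlgHom.mul_apply]
  b := b
  M := M
  hM := hM
  stab t g x hx := (hM t _).2 (stab g t x ((hM t x).1 hx))
  exh := exh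
  a := a
  taut := taut
  univ := univ


/-- **the data of the bridge for the concrete model** -/
theorem udx : UDX p := by
  intro h c h1 hc G _ _ _ K _ _ _ _ A Θ H I e1 e2
  let D := Fl.nd h1 hc I.vi I.v_vi I.loc
  let F := Fl.fld (h1 := h1) I.v_vi I.loc Θ (γ := fun δ => I.γ δ) fun δ => by rw [e1]
  refine ⟨F, ud0 Θ isAct_sa (fun _ => rfl) D.b F.M (fun _ _ => Iff.rfl) F.b_Φ D.b_exh D.a D.taut
    fun S _ _ F' hF f a' h2 h3 => D.univ hF h2 h3, fun _ => rfl, fun s _ x => ?_⟩
  exact (congrArg (sig p h c K s) (by rw [e1, e2])).trans (sig_cen s x)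

end P261.C2
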