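import Vale.Agent.P261Z.C2.MC
import Vale.Agent.P261Z.C2.TG
import Vale.Agent.P261Z.Ig.Univ

/-!
# P261Z, block C2: lattices in normal form; definitions and statements
-/

set_option linter.unusedVariables false
set_option linter.unusedSectionVars false

open Matrix

noncomputable section

namespace P261.C2

variable {p : ℕ} [hp : Fact p.Prime] {k : Type} [Field k] {h c : ℕ}

variable (h c) in
/-- the numbering of the basis -/
def rx : Fin c ⊕ Fin h ≃ Fin (h + c) := (Equiv.sumComm _ _).trans finSumFinEquiv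

section ring

variable {S S' : Type} [CommRing S] [CommRing S']

/-- the vertex of a basis which is numbered by `Fin (h + c)` -/
def vtx (a : Fin c → WittVector p S) (μ : Matrix (Fin c ⊕ Fin h) (Fin (h + c)) (WittVector p S))
    (ν : Matrix (Fin (h + c)) (Fin c ⊕ Fin h) (WittVector p S)) : LV p (Fin c) h S :=
  ⟨a, true, μ.submatrix id (rx h c), ν.submatrix (rx h c) id, 0, 0⟩

theorem vtx_map (f : S →+* S') (a : Fin c → WittVector p S)
    (μ : Matrix (Fin c ⊕ Fin h) (Fin (h + c)) (WittVector p S))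
    (ν : Matrix (Fin (h + c)) (Fin c ⊕ Fin h) (WittVector p S)) :
    (vtx a μ ν).map f = vtx (fun l => wm p f (a l)) (Ig.mw f μ) (Ig.mw f ν) :=
  LV.ext rfl rfl rfl rfl (funext fun _ => funext fun _ => funext fun _ => map_zero f) rfl

variable [Pf p S] [Pf p S']

/-- the parameters which are read off from the last column -/
def yv (v : LV p (Fin c) h S) (j : Fin c) : S :=
  (-(v.mA (.inl j) (.inl ⟨c - 1, by have := j.2; omega⟩)).coeff 0) ^ p ^ (h + j)

/-- vertices in normal form -/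
structure IsNF (F : Fil p S) (v : LV p (Fin c) h S) : Prop where
  isZ : v.IsZ F
  φ : v.φ = 0
  ix : v.ix = 0
  mA : v.mA = (Au p (h + c) (uy h (yv v))).submatrix (rx h c) (rx h c)

end ring

theorem yv_map {T T' : FP p k} (φ : T.Hom T') (v : LV p (Fin c) h T.K) (j : Fin c) :
    yv (v.map φ.r) j = φ.r (yv v j) := by
  rw [yv, yv, LV.mA_map, map_pow, map_neg]
  rfl

theorem IsNF.map {T T' : FP p k} (φ : T.Hom T') {v : LV p (Fin c) h T.K} (hv : IsNF T.F v) :
    IsNF T'.F (v.map φ.r) where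
  isZ := hv.isZ.map φ
  φ := by
    funext U l i
    show φ.r (v.φ U l i) = 0
    rw [hv.φ]
    exact map_zero _
  ix := hv.ix
  mA := by
    rw [LV.mA_map, funext (yv_map φ v), ← uy_map, ← Au_map]
    exact congrArg (fun M => Matrix.map M φ.w) hv.mA

theorem yv_sc {S : Type} [CommRing S] [Pf p S] {s : ℕ} (hs : s % p = 1) (v : LV p (Fin c) h S)
    (j : Fin c) : yv (v.sc s) j = yv v j := by rw [yv, yv, LV.mA_sc hs]

theorem yv_sc' {S : Type} [CommRing S] [Pf p S] (s : ℕ) (v : LV p (Fin c) h S) (j : Fin c) :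
    yv (v.sc' s) j = yv v j :=
  LV.sc'_ind (Q := fun w => yv w j = yv v j) (fun hs => yv_sc hs v j) rfl

theorem IsNF.sc {S : Type} [CommRing S] [Pf p S] {F : Fil p S} {s : ℕ} (hs : s % p = 1)
    {v : LV p (Fin c) h S} (hv : IsNF F v) : IsNF F (v.sc s) :=
  ⟨hv.isZ.sc hs, hv.φ, hv.ix, by rw [LV.mA_sc hs, funext (yv_sc hs v)]; exact hv.mA⟩

theorem IsNF.sc' {S : Type} [CommRing S] [Pf p S] {F : Fil p S} (s : ℕ)
    {v : LV p (Fin c) h S} (hv : IsNF F v) : IsNF F (v.sc' s) :=
  LV.sc'_ind (Q := IsNF F) (fun hs => hv.sc hs) hv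

variable (p k h c) in
/-- the colour of the normal forms -/
def cNF : Col (LVF p k (Fin c) h) := ⟨fun {T} v => IsNF T.F v, fun φ _ hv => hv.map φ⟩

variable (p k h c) in
/-- the colour of the normal forms -/
def sNF : SC p k (Fin c) h := ⟨cNF p k h c, fun _ hs _ _ hv => IsNF.sc hs hv⟩

variable (K : Type) [CommRing K] [Algebra k K]

variable (h c) in
/-- families of compatible normal forms -/
@[ext] structure YConf (n : ℕ) (T : FP p k) where
  /-- the base point -/
  x : (PF.base p k K).obj T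
  /-- the vertices -/
  v : Fin (n + 1) → LV p (Fin c) h T.K
  nf : ∀ i, IsNF T.F (v i)
  ok : ∀ i j, (v i).Ok T.F (v j)

variable (p k h c) in
/-- families of compatible normal forms -/
def Y : CF p k where
  Z n :=
    { obj := fun T => YConf h c K n T
      map := fun φ y => ⟨(PF.base p k K).map φ y.x, fun i => (y.v i).map φ.r,
        fun i => (y.nf i).map φ, fun i j => (y.ok i j).map φ⟩
      map_id := fun _ _ => rfl
      map_comp := fun _ _ _ => rfl }
  res f y := ⟨y.x, fun i => y.v (f i), fun i => y.nf _, fun i j => y.ok _ _⟩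
  res_id _ := rfl
  res_comp _ _ _ := rfl
  res_map _ _ _ := rfl
  Full _ := False
  full_res _ _ h := h
  full_map _ _ := Iff.rfl

variable (p k h c) in
/-- the scalars -/
def aY : (Y p k h c K).Act where
  e s :=
    { f := fun y => ⟨y.x, fun i => (y.v i).sc' s, fun i => (y.nf i).sc' s, fun i j => (y.ok i j).sc'⟩
      map := fun φ y => YConf.ext rfl (funext fun i => LV.sc'_map _)
      res := fun _ _ => rfl
      full := fun _ h => h }
  one n T y := YConf.ext rfl (funext fun i => LV.sc'_one)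
  mul s t hs ht n T y := YConf.ext rfl (funext fun i => LV.sc'_mul hs ht)

/-- a point functor as a configuration functor -/
def cst (X : PF p k) : CF p k where
  Z _ := X
  res _ x := x
  res_id _ := rfl
  res_comp _ _ _ := rfl
  res_map _ _ _ := rfl
  Full _ := False
  full_res _ _ h := h
  full_map _ _ := Iff.rfl

variable (p k h c) in
/-- the direction of the lattices which are not supersingular -/
def JY : Dir (Y p k h c K) where
  V := cst (LVF p k (Fin c) h)
  ok {_ T} y j := (cJ k h {⊤}).P j ∧ ∀ i, (y.v i).Ok T.F j ∧ LV.Ok T.F j (y.v i)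
  ok_map φ _ _ h := ⟨(cJ k _ {⊤}).map φ h.1, fun i => ⟨(h.2 i).1.map φ, (h.2 i).2.map φ⟩⟩
  ok_res f _ _ h := ⟨h.1, fun i => h.2 (f i)⟩

variable (p k h c) in
/-- the scalars -/
def eJ : (JY p k h c K).Act (aY p k h c K) where
  e :=
    { e := fun s => ⟨fun v => LV.sc' s v, fun φ v => LV.sc'_map _, fun _ _ => rfl, fun _ h => h⟩
      one := fun _ _ _ => LV.sc'_one
      mul := fun s t hs ht _ _ _ => LV.sc'_mul hs ht }
  ok s _ T y j hj := ⟨stab_cJ (PF.base p k K) {⊤} s T j hj.1,
    fun i => ⟨(hj.2 i).1.sc', (hj.2 i).2.sc'⟩⟩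

variable (p k h c) in
/-- the mark `j` at the point `i`: the parameter is a unit of the step zero -/
def LY : Lab (Y p k h c K) (Fin c) where
  U j _ T y i := ∃ t ∈ T.F.F 0, yv (y.v i) j * t = 1
  U_map j _ _ _ φ y i := fun ⟨t, ht, e⟩ => ⟨φ.r t, φ.mem _ _ ht, by
    show yv ((y.v i).map φ.r) j * _ = 1
    rw [yv_map, ← map_mul, e, map_one]⟩
  U_res j _ _ _ f y i h := h

variable (p k h c) in
theorem stabY : (LY p k h c K).Stab (aY p k h c K) := fun j s n T y i ⟨t, ht, e⟩ =>
  ⟨t, ht, by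
    show yv ((y.v i).sc' s) j * _ = 1
    rw [yv_sc', e]⟩

variable (p k)

/-- representability -/
def REPY : Prop := SH p k → FREP p k → ∀ (h c : ℕ), 1 ≤ h → ∀ (K : Type) [CommRing K] [Algebra k K]
  [Pf p K], ((LVF p k (Fin c) h).sub (cNF p k h c)).FRep ∧ (∀ m, ((Y p k h c K).Z m).FRep) ∧
    (JY p k h c K).Rp ∧ (LY p k h c K).psi.Rp

/-- normal forms exist locally along the supersingular locus -/
def LZ : Prop := SH p k → ∀ (h c : ℕ), 1 ≤ h → 0 < c → ∀ (T : FP p k), T.F.Exh →
  ∀ z : LV p (Fin c) h T.K, z.IsZ T.F → FLoc T fun T' f => ∃ s : LV p (Fin c) h T'.K,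
    s.a = (z.map f.r).a ∧ (IsNF T'.F s ∨ (cJ k h {⊤}).P s)

/-- from the statement of block C1 to the normal forms -/
def ST1 : Prop := SH p k → FREP p k → REPY p k → LZ p k → StL p k → ∀ (h c : ℕ), 1 ≤ h → 0 < c →
  ∀ (K : Type) [CommRing K] [Algebra k K] [Pf p K], G1 (eJ p k h c K) (p ^ h)

/-- the parameters generate the unit ideal if and only if the lattice is nowhere supersingular -/
def UJ : Prop := ∀ (h c : ℕ), 1 ≤ h → 0 < c → ∀ (K : Type) [CommRing K] [Algebra k K],
  (∀ (T : FP p k) (v : LV p (Fin c) h T.K), IsNF T.F v → ∀ j, yv v j ∈ T.F.F 0) ∧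
  (∀ (T : FP p k) (v v' : LV p (Fin c) h T.K), IsNF T.F v → IsNF T.F v' → v.Ok T.F v' →
    v'.Ok T.F v → ∀ I : Ideal T.F.zero, I.IsRadical → (∀ j, ∃ y ∈ I, (y : T.K) = yv v j) →
      ∀ j, ∃ y ∈ I, (y : T.K) = yv v' j) ∧
  (∀ (m : ℕ) (T : FP p k), T.F.Exh → ∀ (y : ((Y p k h c K).Z m).obj T) i j,
    (LY p k h c K).U j y i →
      FLoc T fun _ f => ∃ ψ, (LY p k h c K).psi.ok (((Y p k h c K).Z m).map f y) ψ) ∧
  (JY p k h c K).Over (LY p k h c K).psi ∧ (LY p k h c K).psi.Over (JY p k h c K)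

end P261.C2
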